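import Crest.Agent.N221.G0.ApB
import Crest.Agent.N221.G0.One

/-! Row 221, block G0 (helper55): more closure properties of `GB`: jets, inverses. -/

set_option autoImplicit false

open Set Metric Finset Filter
open scoped ContDiff Nat Topology

namespace Crest.Agent.N221.G0

variable {ι X Y W V : Type} [NormedAddCommGroup X] [NormedSpace ℝ X] [NormedAddCommGroup Y]
  [NormedSpace ℝ Y] [NormedAddCommGroup W] [NormedSpace ℝ W] [NormedAddCommGroup V]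
  [NormedSpace ℝ V] {n : ℕ} {f : ι → X → Y} {x : ι → X} {M M' D : ι → ℝ}

lemma GB.iter (k : ℕ) (h : GB (n + k) f x M D) :
    GB n (fun i => iteratedFDeriv ℝ k (f i)) x (fun i => M i * D i ^ k) D := by
  induction k generalizing n with
  | zero =>
    have := h.clm' (M' := fun _ => 1) (fun _ =>
      (continuousMultilinearCurryFin0 ℝ X Y).symm.toLinearIsometry.toContinuousLinearMap)
      fun _ => LinearIsometry.norm_toContinuousLinearMap_le _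
    exact (this.mono le_rfl (fun i => by simp) fun _ => le_rfl).congr fun i =>
      .of_forall fun y => rfl
  | succ k ih =>
    have h1 : GB (n + 1 + k) f x M D := h.mono (by omega) (fun _ => le_rfl) fun _ => le_rfl
    have := (ih h1).fderiv.clm' (M' := fun _ => 1) (fun _ => (continuousMultilinearCurryLeftEquiv ℝ
      (fun _ : Fin (k + 1) => X) Y).symm.toLinearIsometry.toContinuousLinearMap)
      fun _ => LinearIsometry.norm_toContinuousLinearMap_le _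
    exact (this.mono le_rfl (fun i => by rw [one_mul, pow_succ, mul_assoc]) fun _ => le_rfl).congr
      fun i => .of_forall fun y => rfl

/-- one fixed germ -/
lemma GB.fix (n : ℕ) {Φ : X → Y} {a : X} (h : ContDiffAt ℝ ∞ Φ a) :
    GB n (fun _ : ι => Φ) (fun _ => a) (fun _ => 1) (fun _ => 1) := by
  refine ⟨fun _ => h, fun _ => le_rfl, 1 + ∑ k ∈ range (n + 1), ‖iteratedFDeriv ℝ k Φ a‖,
    by positivity, fun _ k hk => ?_⟩
  have := single_le_sum (f := fun k => ‖iteratedFDeriv ℝ k Φ a‖) (fun _ _ => norm_nonneg _)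
    (mem_range.2 (Nat.lt_succ_of_le hk))
  rw [one_pow, mul_one, mul_one]
  linarith

lemma GB.inv' {g : ι → X → ℝ} {d : ι → ℝ} (h : GB n g x M D) (d0 : ∀ i, 0 < d i)
    (hd : ∀ i, d i ≤ |g i (x i)|) (hM : ∀ i, d i ≤ M i) :
    GB n (fun i y => (g i y)⁻¹) x (fun i => (d i)⁻¹) (fun i => D i * (M i / d i)) := by
  have ne : ∀ i, g i (x i) ≠ 0 := fun i => abs_pos.1 ((d0 i).trans_le (hd i))
  have a1 : ∀ i, |(g i (x i))⁻¹| ≤ (d i)⁻¹ := fun i => by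
    rw [abs_inv]; exact inv_anti₀ (d0 i) (hd i)
  have q1 : ∀ i, 1 ≤ M i / d i := fun i => (one_le_div (d0 i)).2 (hM i)
  have h1 := h.smul a1
  obtain ⟨c, c0, hc⟩ := h1.bd
  have h2 := (GB.fix (ι := ι) n (contDiffAt_inv ℝ (one_ne_zero (α := ℝ)) (n := ∞))).comp
    (D' := fun i => D i * (M i / d i)) h1.sm (fun i => inv_mul_cancel₀ (ne i))
    (fun i => one_le_mul_of_one_le_of_one_le (h.one i) (q1 i)) ⟨c, fun i k k1 hk =>
      (hc i k hk).trans (by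
        have : M i / d i ≤ (M i / d i) ^ k := le_self_pow₀ (q1 i) (by omega)
        have D0 : 0 ≤ D i ^ k := pow_nonneg (zero_le_one.trans (h.one i)) k
        rw [mul_pow, mul_assoc, ← div_eq_inv_mul, mul_comm (D i ^ k)]
        gcongr)⟩
  refine ((h2.smul a1).mono le_rfl (fun i => by rw [mul_one]) fun i => by rw [one_mul]).congr
    fun i => .of_forall fun y => ?_
  simp only [smul_eq_mul, mul_inv, inv_inv]
  rw [inv_mul_cancel_left₀ (ne i)]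

lemma GB.psi {Θ : ι → X → V} (h : GB n Θ x M D) (ψ : ι → V →L[ℝ] ℝ) (hψ : ∀ i, ‖ψ i‖ ≤ 1) :
    GB n (fun i y => ψ i (Θ i y)) x M D :=
  (h.clm' (M' := fun _ => 1) ψ hψ).mono le_rfl (fun i => by rw [one_mul]) fun _ => le_rfl

lemma GB.nrm {Θ : ι → X → V} {d : ι → ℝ} (h : GB n Θ x M D) (ψ : ι → V →L[ℝ] ℝ)
    (hψ : ∀ i, ‖ψ i‖ ≤ 1) (d0 : ∀ i, 0 < d i) (hd : ∀ i, d i ≤ |ψ i (Θ i (x i))|)
    (hM : ∀ i, d i ≤ M i) :
    GB n (fun i => nrm (ψ i) (Θ i)) x (fun i => M i / d i) (fun i => D i * (M i / d i)) :=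
  (((h.psi ψ hψ).inv' d0 hd hM).fsmul (h.mono le_rfl (fun _ => le_rfl) fun i =>
    le_mul_of_one_le_right (zero_le_one.trans (h.one i)) ((one_le_div (d0 i)).2 (hM i)))).mono
      le_rfl (fun i => by rw [div_eq_inv_mul]) fun _ => le_rfl

/-- bounds `c k * M * D ^ k` give `GB` -/
lemma GB.of_seq (n : ℕ) (c : ℕ → ℝ) (sm : ∀ i, ContDiffAt ℝ ∞ (f i) (x i)) (one : ∀ i, 1 ≤ D i)
    (hM : ∀ i, 0 ≤ M i) (h : ∀ i, ∀ k ≤ n, ‖iteratedFDeriv ℝ k (f i) (x i)‖ ≤ c k * (M i * D i ^ k)) :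
    GB n f x M D := by
  refine ⟨sm, one, 1 + ∑ k ∈ range (n + 1), |c k|, by positivity, fun i k hk =>
    (h i k hk).trans ?_⟩
  have := single_le_sum (f := fun k => |c k|) (fun _ _ => abs_nonneg _)
    (mem_range.2 (Nat.lt_succ_of_le hk))
  rw [mul_assoc]
  exact mul_le_mul_of_nonneg_right (by linarith [le_abs_self (c k)])
    (mul_nonneg (hM i) (pow_nonneg (zero_le_one.trans (one i)) k))

lemma psi_nrm {Z : Type} {ψ : V →L[ℝ] ℝ} {Θ : Z → V} {z : Z} (h : ψ (Θ z) ≠ 0) :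
    ψ (nrm ψ Θ z) = 1 := by simp [nrm, h]

lemma smul_nrm {Z : Type} {ψ : V →L[ℝ] ℝ} {Θ : Z → V} {z : Z} (h : ψ (Θ z) ≠ 0) :
    ψ (Θ z) • nrm ψ Θ z = Θ z := by rw [nrm, smul_smul, mul_inv_cancel₀ h, one_smul]

lemma norm_le_nrm {Z : Type} {ψ : V →L[ℝ] ℝ} {Θ : Z → V} {z : Z} (h : ψ (Θ z) ≠ 0) {A : ℝ}
    (hA : ‖nrm ψ Θ z‖ ≤ A) : ‖Θ z‖ ≤ |ψ (Θ z)| * A := by
  conv_lhs => rw [← smul_nrm h, norm_smul, Real.norm_eq_abs]
  exact mul_le_mul_of_nonneg_left hA (abs_nonneg _)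

lemma one_le_nrm {Z : Type} {ψ : V →L[ℝ] ℝ} {Θ : Z → V} {z : Z} (hψ : ‖ψ‖ ≤ 1)
    (h : ψ (Θ z) ≠ 0) : 1 ≤ ‖nrm ψ Θ z‖ := by
  have := ψ.le_opNorm (nrm ψ Θ z)
  rw [psi_nrm h, norm_one] at this
  exact this.trans (mul_le_of_le_one_left (norm_nonneg _) hψ)

lemma cda_nrm {ψ : V →L[ℝ] ℝ} {Θ : X → V} {z : X} (hΘ : ContDiffAt ℝ ∞ Θ z) (h : ψ (Θ z) ≠ 0) :
    ContDiffAt ℝ ∞ (nrm ψ Θ) z :=
  ((ψ.contDiff.contDiffAt.comp z hΘ).inv h).smul hΘ

end Crest.Agent.N221.G0
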