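import Mathlib

/-!
Row 221, block G0 (helper55): graded jet bounds for families of germs,
`‖D^k (f i) (x i)‖ ≤ c * M i * D i ^ k` for `k ≤ n` with ONE constant `c`.
-/

set_option autoImplicit false

open Set Metric Finset Filter
open scoped ContDiff Nat Topology

namespace Crest.Agent.N221.G0

variable {ι X Y W V : Type} [NormedAddCommGroup X] [NormedSpace ℝ X] [NormedAddCommGroup Y]
  [NormedSpace ℝ Y] [NormedAddCommGroup W] [NormedSpace ℝ W] [NormedAddCommGroup V]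
  [NormedSpace ℝ V]

/-- graded jet bound of a family of germs -/
structure GB (n : ℕ) (f : ι → X → Y) (x : ι → X) (M D : ι → ℝ) : Prop where
  sm : ∀ i, ContDiffAt ℝ ∞ (f i) (x i)
  one : ∀ i, 1 ≤ D i
  bd : ∃ c : ℝ, 0 < c ∧ ∀ i, ∀ k ≤ n, ‖iteratedFDeriv ℝ k (f i) (x i)‖ ≤ c * M i * D i ^ k

lemma cda {f : X → Y} {x : X} (h : ContDiffAt ℝ ∞ f x) (k : ℕ) : ContDiffAt ℝ k f x :=
  h.of_le (by exact_mod_cast le_top)

lemma cda_fderiv {f : X → Y} {x : X} (h : ContDiffAt ℝ ∞ f x) :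
    ContDiffAt ℝ ∞ (fderiv ℝ f) x := h.fderiv_right (m := ∞) le_rfl

lemma ev_dif {f : X → Y} {x : X} (h : ContDiffAt ℝ ∞ f x) :
    ∀ᶠ y in 𝓝 x, DifferentiableAt ℝ f y :=
  ((cda h 1).eventually (by simp)).mono fun _ hy => hy.differentiableAt (by simp)

/-- Leibniz bound at a point -/
lemma bilin_at (B : Y →L[ℝ] W →L[ℝ] V) {f : X → Y} {g : X → W} {x : X} (n : ℕ)
    (hf : ContDiffAt ℝ ∞ f x) (hg : ContDiffAt ℝ ∞ g x) :
    ‖iteratedFDeriv ℝ n (fun y => B (f y) (g y)) x‖ ≤ ‖B‖ * ∑ i ∈ range (n + 1),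
      (n.choose i : ℝ) * ‖iteratedFDeriv ℝ i f x‖ * ‖iteratedFDeriv ℝ (n - i) g x‖ := by
  obtain ⟨s, h1, h2, h3⟩ := _root_.eventually_nhds_iff.1
    (((cda hf n).eventually (by simp)).and ((cda hg n).eventually (by simp)))
  have := B.norm_iteratedFDerivWithin_le_of_bilinear (fun t ht => (h1 t ht).1.contDiffWithinAt)
    (fun t ht => (h1 t ht).2.contDiffWithinAt) h2.uniqueDiffOn h3 le_rfl
  simpa only [iteratedFDerivWithin_of_isOpen _ h2 h3] using this

/-- composition bound at a point -/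
lemma comp_at {g : Y → W} {f : X → Y} {x : X} (n : ℕ) (hg : ContDiffAt ℝ ∞ g (f x))
    (hf : ContDiffAt ℝ ∞ f x) {C D : ℝ} (hC : ∀ i ≤ n, ‖iteratedFDeriv ℝ i g (f x)‖ ≤ C)
    (hD : ∀ i, 1 ≤ i → i ≤ n → ‖iteratedFDeriv ℝ i f x‖ ≤ D ^ i) :
    ‖iteratedFDeriv ℝ n (fun y => g (f y)) x‖ ≤ n ! * C * D ^ n := by
  obtain ⟨t, t1, t2, t3⟩ := _root_.eventually_nhds_iff.1 ((cda hg n).eventually (by simp))
  obtain ⟨s, h1, h2, h3⟩ := _root_.eventually_nhds_iff.1
    (((cda hf n).eventually (by simp)).and (hf.continuousAt.eventually (t2.mem_nhds t3)))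
  have := norm_iteratedFDerivWithin_comp_le (g := g) (f := f) (n := n) (N := n)
    (fun y hy => (t1 y hy).contDiffWithinAt) (fun t ht => (h1 t ht).1.contDiffWithinAt) le_rfl
    t2.uniqueDiffOn h2.uniqueDiffOn (fun y hy => (h1 y hy).2) h3 (C := C) (D := D)
    (fun i hi => by rw [iteratedFDerivWithin_of_isOpen _ t2 t3]; exact hC i hi)
    (fun i a b => by rw [iteratedFDerivWithin_of_isOpen _ h2 h3]; exact hD i a b)
  rwa [iteratedFDerivWithin_of_isOpen _ h2 h3] at this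

/-- operator norm from unit vectors -/
lemma opNorm_le_unit {n : ℕ} (f : X [×n]→L[ℝ] Y) {C : ℝ} (hC : 0 ≤ C)
    (h : ∀ m : Fin n → X, (∀ i, ‖m i‖ ≤ 1) → ‖f m‖ ≤ C) : ‖f‖ ≤ C := by
  refine f.opNorm_le_bound hC fun m => ?_
  by_cases h0 : ∃ i, m i = 0
  · obtain ⟨i, hi⟩ := h0
    rw [f.map_coord_zero i hi, norm_zero]
    positivity
  · push Not at h0
    have e : m = fun i => ‖m i‖ • (‖m i‖⁻¹ • m i) := by
      funext i
      rw [smul_smul, mul_inv_cancel₀ (norm_ne_zero_iff.2 (h0 i)), one_smul]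
    have h1 := h (fun i => ‖m i‖⁻¹ • m i) fun i => by
      rw [norm_smul, norm_inv, norm_norm, inv_mul_cancel₀ (norm_ne_zero_iff.2 (h0 i))]
    have h2 : f m = (∏ i, ‖m i‖) • f fun i => ‖m i‖⁻¹ • m i := by
      rw [← f.map_smul_univ, ← e]
    have h3 : 0 ≤ ∏ i, ‖m i‖ := prod_nonneg fun i _ => norm_nonneg _
    rw [h2, norm_smul, Real.norm_of_nonneg h3, mul_comm]
    exact mul_le_mul_of_nonneg_right h1 h3

variable {n : ℕ} {f f' : ι → X → Y} {x : ι → X} {M M' D D' : ι → ℝ}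

lemma GB.nonneg (h : GB n f x M D) (i : ι) : 0 ≤ M i := by
  obtain ⟨c, c0, hc⟩ := h.bd
  have := (norm_nonneg _).trans (hc i 0 (Nat.zero_le _))
  rw [pow_zero, mul_one] at this
  exact nonneg_of_mul_nonneg_right this c0 |> fun a => by
    by_contra hn
    push Not at hn
    nlinarith

lemma GB.mono (h : GB n f x M D) {n' : ℕ} (hn : n' ≤ n) (hM : ∀ i, M i ≤ M' i)
    (hD : ∀ i, D i ≤ D' i) : GB n' f x M' D' := by
  obtain ⟨c, c0, hc⟩ := h.bd
  refine ⟨h.sm, fun i => (h.one i).trans (hD i), c, c0, fun i k hk => (hc i k (hk.trans hn)).trans ?_⟩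
  have := h.nonneg i
  have := h.one i
  have := hM i
  have := hD i
  have : 0 ≤ M' i := by linarith
  gcongr

/-- a constant factor in `M` or `D` is absorbed -/
lemma GB.absorb (h : GB n f x M D) {a : ℝ} (ha : 1 ≤ a) (hM : ∀ i, M i ≤ a * M' i)
    (hD : ∀ i, D i ≤ a * D' i) (h1 : ∀ i, 1 ≤ D' i) : GB n f x M' D' := by
  obtain ⟨c, c0, hc⟩ := h.bd
  refine ⟨h.sm, h1, c * a * a ^ n, by positivity, fun i k hk => (hc i k hk).trans ?_⟩
  have m0 := h.nonneg i
  have m1 : 0 ≤ M' i := by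
    by_contra hn
    push Not at hn
    nlinarith [hM i]
  have d0 := h.one i
  have d1 := h1 i
  calc c * M i * D i ^ k ≤ c * (a * M' i) * (a * D' i) ^ k := by
        gcongr
        exacts [hM i, hD i]
    _ = c * a * a ^ k * M' i * D' i ^ k := by rw [mul_pow]; ring
    _ ≤ c * a * a ^ n * M' i * D' i ^ k := by gcongr

lemma GB.congr (h : GB n f x M D) (e : ∀ i, f' i =ᶠ[𝓝 (x i)] f i) : GB n f' x M D := by
  obtain ⟨c, c0, hc⟩ := h.bd
  refine ⟨fun i => (h.sm i).congr_of_eventuallyEq (e i), h.one, c, c0, fun i k hk => ?_⟩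
  rw [((e i).iteratedFDeriv ℝ k).eq_of_nhds]
  exact hc i k hk

lemma GB.reindex {ι' : Type} (h : GB n f x M D) (e : ι' → ι) :
    GB n (fun j => f (e j)) (fun j => x (e j)) (fun j => M (e j)) (fun j => D (e j)) := by
  obtain ⟨c, c0, hc⟩ := h.bd
  exact ⟨fun j => h.sm _, fun j => h.one _, c, c0, fun j => hc _⟩

lemma GB.const (n : ℕ) (x : ι → X) {c : ι → Y} (hc : ∀ i, ‖c i‖ ≤ M i) (hD : ∀ i, 1 ≤ D i) :
    GB n (fun i _ => c i) x M D := by
  refine ⟨fun _ => contDiffAt_const, hD, 1, one_pos, fun i k _ => ?_⟩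
  have m0 := (norm_nonneg _).trans (hc i)
  have := hD i
  cases k with
  | zero => simpa using hc i
  | succ k =>
    rw [iteratedFDeriv_succ_const, Pi.zero_apply, norm_zero]
    positivity

lemma GB.add (h : GB n f x M D) (h' : GB n f' x M D) : GB n (fun i y => f i y + f' i y) x M D := by
  obtain ⟨c, c0, hc⟩ := h.bd
  obtain ⟨c', c0', hc'⟩ := h'.bd
  refine ⟨fun i => (h.sm i).add (h'.sm i), h.one, c + c', by positivity, fun i k hk => ?_⟩
  rw [fun_iteratedFDeriv_add_apply (cda (h.sm i) k) (cda (h'.sm i) k)]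
  linarith [norm_add_le (iteratedFDeriv ℝ k (f i) (x i)) (iteratedFDeriv ℝ k (f' i) (x i)),
    hc i k hk, hc' i k hk]

lemma GB.sub (h : GB n f x M D) (h' : GB n f' x M D) : GB n (fun i y => f i y - f' i y) x M D := by
  obtain ⟨c, c0, hc⟩ := h.bd
  obtain ⟨c', c0', hc'⟩ := h'.bd
  refine ⟨fun i => (h.sm i).sub (h'.sm i), h.one, c + c', by positivity, fun i k hk => ?_⟩
  rw [fun_iteratedFDeriv_sub_apply (cda (h.sm i) k) (cda (h'.sm i) k)]
  linarith [norm_sub_le (iteratedFDeriv ℝ k (f i) (x i)) (iteratedFDeriv ℝ k (f' i) (x i)),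
    hc i k hk, hc' i k hk]

/-- a family of linear maps on the left -/
lemma GB.clm' (h : GB n f x M D) (L : ι → Y →L[ℝ] W) (hL : ∀ i, ‖L i‖ ≤ M' i) :
    GB n (fun i y => L i (f i y)) x (fun i => M' i * M i) D := by
  obtain ⟨c, c0, hc⟩ := h.bd
  refine ⟨fun i => (L i).contDiff.contDiffAt.comp _ (h.sm i), h.one, c, c0, fun i k hk => ?_⟩
  have := (L i).norm_iteratedFDeriv_comp_left (cda (h.sm i) k) le_rfl
  calc _ ≤ _ := this
    _ ≤ M' i * (c * M i * D i ^ k) :=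
      mul_le_mul (hL i) (hc i k hk) (norm_nonneg _) ((norm_nonneg _).trans (hL i))
    _ = _ := by ring

lemma GB.clm (h : GB n f x M D) (L : Y →L[ℝ] W) : GB n (fun i y => L (f i y)) x M D :=
  (h.clm' (M' := fun _ => max 1 ‖L‖) (fun _ => L) fun _ => le_max_right _ _).absorb
    (le_max_left 1 ‖L‖) (fun _ => le_rfl)
    (fun i => le_mul_of_one_le_left (zero_le_one.trans (h.one i)) (le_max_left _ _)) h.one

lemma GB.smul (h : GB n f x M D) {a : ι → ℝ} (ha : ∀ i, |a i| ≤ M' i) :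
    GB n (fun i y => a i • f i y) x (fun i => M' i * M i) D :=
  h.clm' (fun i => a i • ContinuousLinearMap.id ℝ Y) fun i => by
    rw [norm_smul, Real.norm_eq_abs]
    exact (mul_le_of_le_one_right (abs_nonneg _) ContinuousLinearMap.norm_id_le).trans (ha i)

lemma GB.bilin {g : ι → X → W} (B : Y →L[ℝ] W →L[ℝ] V) (h : GB n f x M D) (h' : GB n g x M' D) :
    GB n (fun i y => B (f i y) (g i y)) x (fun i => M i * M' i) D := by
  obtain ⟨c, c0, hc⟩ := h.bd
  obtain ⟨c', c0', hc'⟩ := h'.bd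
  refine ⟨fun i => (B.contDiff.contDiffAt.comp _ (h.sm i)).clm_apply (h'.sm i), h.one,
    (‖B‖ + 1) * 2 ^ n * (c * c'), by positivity, fun i k hk => ?_⟩
  refine (bilin_at B k (h.sm i) (h'.sm i)).trans ?_
  have m0 := h.nonneg i
  have m1 := h'.nonneg i
  have d0 := h.one i
  have h1 : ∑ j ∈ range (k + 1), (k.choose j : ℝ) * ‖iteratedFDeriv ℝ j (f i) (x i)‖ *
      ‖iteratedFDeriv ℝ (k - j) (g i) (x i)‖ ≤
      ∑ j ∈ range (k + 1), (k.choose j : ℝ) * (c * c' * (M i * M' i) * D i ^ k) := by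
    refine sum_le_sum fun j hj => ?_
    have hj' : j ≤ k := Nat.lt_succ_iff.1 (mem_range.1 hj)
    have e : c * c' * (M i * M' i) * D i ^ k = (c * M i * D i ^ j) * (c' * M' i * D i ^ (k - j)) := by
      rw [show D i ^ k = D i ^ j * D i ^ (k - j) by rw [← pow_add, Nat.add_sub_cancel' hj']]; ring
    rw [e, mul_assoc]
    gcongr
    exacts [hc i j (hj'.trans hk), hc' i _ ((Nat.sub_le _ _).trans hk)]
  rw [← sum_mul, ← Nat.cast_sum, Nat.sum_range_choose] at h1
  have h2 : ((2 ^ k : ℕ) : ℝ) ≤ 2 ^ n := by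
    push_cast; exact pow_le_pow_right₀ one_le_two hk
  calc _ ≤ (‖B‖ + 1) * (2 ^ n * (c * c' * (M i * M' i) * D i ^ k)) := by
        gcongr
        · linarith
        · exact h1.trans (mul_le_mul_of_nonneg_right h2 (by positivity))
    _ = _ := by ring

lemma GB.fsmul {g : ι → X → ℝ} (h' : GB n g x M' D) (h : GB n f x M D) :
    GB n (fun i y => g i y • f i y) x (fun i => M' i * M i) D :=
  GB.bilin (ContinuousLinearMap.lsmul ℝ ℝ : ℝ →L[ℝ] Y →L[ℝ] Y) h' h

lemma GB.clm_apply {B : ι → X → Y →L[ℝ] W} (h' : GB n B x M' D) (h : GB n f x M D) :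
    GB n (fun i y => B i y (f i y)) x (fun i => M' i * M i) D :=
  GB.bilin (ContinuousLinearMap.id ℝ (Y →L[ℝ] W)) h' h

lemma GB.clm_comp {B : ι → X → Y →L[ℝ] W} {B' : ι → X → W →L[ℝ] V} (h' : GB n B' x M' D)
    (h : GB n B x M D) : GB n (fun i y => (B' i y).comp (B i y)) x (fun i => M' i * M i) D :=
  GB.bilin (ContinuousLinearMap.compL ℝ Y W V) h' h

lemma GB.prod {g : ι → X → W} (h : GB n f x M D) (h' : GB n g x M D) :
    GB n (fun i y => (f i y, g i y)) x M D := by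
  have := (h.clm (ContinuousLinearMap.inl ℝ Y W)).add (h'.clm (ContinuousLinearMap.inr ℝ Y W))
  simpa using this

lemma GB.fderiv (h : GB (n + 1) f x M D) :
    GB n (fun i => fderiv ℝ (f i)) x (fun i => M i * D i) D := by
  obtain ⟨c, c0, hc⟩ := h.bd
  refine ⟨fun i => cda_fderiv (h.sm i), h.one, c, c0, fun i k hk => ?_⟩
  rw [norm_iteratedFDeriv_fderiv]
  exact (hc i (k + 1) (Nat.succ_le_succ hk)).trans_eq (by ring)

lemma GB.dir (h : GB (n + 1) f x M D) {e : ι → X} (he : ∀ i, ‖e i‖ ≤ 1) :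
    GB n (fun i y => _root_.fderiv ℝ (f i) y (e i)) x (fun i => M i * D i) D := by
  have := h.fderiv.clm_apply (GB.const n x (M := fun _ => 1) he h.one)
  simpa using this

/-- composition; only the derivatives of the inner map enter -/
lemma GB.comp {g : ι → Y → W} {y : ι → Y} (hg : GB n g y M D) (hf : ∀ i, ContDiffAt ℝ ∞ (f i) (x i))
    (e : ∀ i, f i (x i) = y i) (h1 : ∀ i, 1 ≤ D' i)
    (hb : ∃ c : ℝ, ∀ i k, 1 ≤ k → k ≤ n → ‖iteratedFDeriv ℝ k (f i) (x i)‖ ≤ c * D' i ^ k) :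
    GB n (fun i z => g i (f i z)) x M (fun i => D i * D' i) := by
  obtain ⟨c, c0, hc⟩ := hg.bd
  obtain ⟨c', hc'⟩ := hb
  set a := max 1 c' with ha
  have a1 : 1 ≤ a := le_max_left _ _
  refine ⟨fun i => ContDiffAt.comp (g := g i) _ (e i ▸ hg.sm i) (hf i),
    fun i => one_le_mul_of_one_le_of_one_le (hg.one i) (h1 i), n ! * c * a ^ n, by positivity,
    fun i k hk => ?_⟩
  have m0 := hg.nonneg i
  have d0 := hg.one i
  have d1 := h1 i
  have := comp_at (g := g i) (f := f i) k (e i ▸ hg.sm i) (hf i) (C := c * M i * D i ^ k)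
    (D := a * D' i) (fun j hj => by
      rw [e i]
      exact (hc i j (hj.trans hk)).trans (by gcongr)) (fun j j1 hj => by
      refine (hc' i j j1 (hj.trans hk)).trans ?_
      rw [mul_pow]
      gcongr
      exact (le_max_right 1 c').trans (le_self_pow₀ a1 (by omega)))
  refine this.trans ?_
  have f1 : (k ! : ℝ) ≤ n ! := by exact_mod_cast Nat.factorial_le hk
  calc (k ! : ℝ) * (c * M i * D i ^ k) * (a * D' i) ^ k
      = k ! * c * a ^ k * M i * (D i * D' i) ^ k := by rw [mul_pow, mul_pow]; ring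
    _ ≤ n ! * c * a ^ n * M i * (D i * D' i) ^ k := by gcongr

lemma GB.comp' {g : ι → Y → W} {y : ι → Y} (hg : GB n g y M D) (hf : GB n f x (fun _ => 1) D')
    (e : ∀ i, f i (x i) = y i) : GB n (fun i z => g i (f i z)) x M (fun i => D i * D' i) := by
  obtain ⟨c, -, hc⟩ := hf.bd
  exact hg.comp hf.sm e hf.one ⟨c, fun i k _ hk => by simpa using hc i k hk⟩

/-- affine maps on the right -/
lemma GB.comp_aff {g : ι → Y → W} {y : ι → Y} (hg : GB n g y M D) (L : ι → X →L[ℝ] Y) (a : ι → Y)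
    (hL : ∀ i, ‖L i‖ ≤ 1) (e : ∀ i, a i + L i (x i) = y i) :
    GB n (fun i z => g i (a i + L i z)) x M D := by
  have := hg.comp (f := fun i z => a i + L i z) (x := x) (D' := fun _ => 1)
    (fun i => contDiffAt_const.add (L i).contDiff.contDiffAt) e (fun _ => le_rfl)
    ⟨1, fun i k k1 _ => by
      obtain ⟨k, rfl⟩ := Nat.exists_eq_add_of_le' k1
      rw [← norm_iteratedFDeriv_fderiv]
      have : _root_.fderiv ℝ (fun z => a i + L i z) = fun _ => L i := by
        funext z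
        exact ((L i).hasFDerivAt.const_add (a i)).fderiv
      rw [this]
      cases k with
      | zero => simpa using hL i
      | succ k => rw [iteratedFDeriv_succ_const, Pi.zero_apply, norm_zero]; positivity⟩
  simpa using this

end Crest.Agent.N221.G0
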