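import Crest.Agent.N221.G0.ApS
import Crest.Agent.N221.G0.ApA
import Crest.Agent.N221.G0.So
import Crest.Agent.N221.X.Int

/-! Row 221, block G0 (helper18): `blS : BlS`, the blow up of the direction along a leaf. -/

set_option autoImplicit false

open Set Metric Finset Filter
open scoped ContDiff Topology

namespace Crest.Agent.N221.G0

namespace Bl

variable {E Z V : Type} [NormedAddCommGroup E] [NormedSpace ℝ E] [NormedAddCommGroup Z]
  [NormedSpace ℝ Z] [NormedAddCommGroup V] [NormedSpace ℝ V]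

lemma aff (L : E →L[ℝ] Z) (a : Z) {f : Z → V} {x : E} (k : ℕ) (hf : ContDiffAt ℝ ∞ f (a + L x)) :
    iteratedFDeriv ℝ k (fun v => f (a + L v)) x =
      (iteratedFDeriv ℝ k f (a + L x)).compContinuousLinearMap fun _ => L := by
  rw [itf_lin L (f := fun z => f (a + z)) k
    (ContDiffAt.comp (g := f) _ (cda hf k) (by fun_prop)), iteratedFDeriv_comp_add_left]

/-- the rescaling -/
noncomputable def L (E Z : Type) [NormedAddCommGroup E] [NormedSpace ℝ E] [NormedAddCommGroup Z]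
    [NormedSpace ℝ Z] (ρ s : ℝ) : E × Z →L[ℝ] E × Z :=
  (ρ • ContinuousLinearMap.fst ℝ E Z).prod (s • ContinuousLinearMap.snd ℝ E Z)

lemma L_apply (ρ s : ℝ) (v : E × Z) : L E Z ρ s v = (ρ • v.1, s • v.2) := rfl

lemma L_le {ρ s : ℝ} (ρ0 : 0 ≤ ρ) (ρ1 : ρ ≤ 1) (s0 : 0 ≤ s) (s1 : s ≤ 1) (v : E × Z) :
    ‖L E Z ρ s v‖ ≤ ‖v‖ := by
  rw [L_apply]
  refine norm_prod_le_iff.2 ⟨?_, ?_⟩ <;> rw [norm_smul, Real.norm_of_nonneg (by assumption)]
  exacts [(mul_le_of_le_one_left (norm_nonneg _) ρ1).trans (norm_fst_le v),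
    (mul_le_of_le_one_left (norm_nonneg _) s1).trans (norm_snd_le v)]

lemma pt (q y : E) (ρ s : ℝ) : (q, (0 : Z)) + L E Z ρ s (y, 0) = (q + ρ • y, 0) := by
  simp [L_apply]

lemma mem {q y : E} {ρ : ℝ} (ρ0 : 0 < ρ) (hy : y ∈ ball (0 : E) 1) : q + ρ • y ∈ ball q ρ := by
  rw [mem_ball_zero_iff] at hy
  rw [mem_ball, dist_eq_norm, add_sub_cancel_left, norm_smul, Real.norm_of_nonneg ρ0.le]
  exact mul_lt_of_lt_one_right ρ0 hy

/-- the scalar estimate -/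
lemma scal (n k : ℕ) (CH : ℝ) (c : ℕ → ℝ) : ∃ C : ℝ, ∀ (h : E × Z → ℝ) (q : E) (ρ s M : ℝ),
    0 < ρ → ρ ≤ 1 → 0 ≤ s → s ≤ 1 → 0 ≤ M → M * ρ ^ k ≤ 1 → M * s ≤ 1 →
    (∀ y ∈ ball q ρ, ContDiffAt ℝ ∞ h (y, 0) ∧ (∀ i, ‖iteratedFDeriv ℝ i h (y, 0)‖ ≤ |c i| * M) ∧
      |h (y, 0)| ≤ CH) → ∀ y ∈ ball (0 : E) (1 / 2), ∀ i ≤ n,
      ‖iteratedFDeriv ℝ i (fun v => h ((q, 0) + L E Z ρ s v)) (y, 0)‖ ≤ C + |c i| * i := by
  obtain ⟨C, C0, hC⟩ := X.int_all (n + k)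
  refine ⟨C * (|CH| + |c (n + k)|), fun h q ρ s M ρ0 ρ1 s0 s1 M0 hk hs H y hy i hi => ?_⟩
  set P : E →L[ℝ] E × Z := ρ • ContinuousLinearMap.inl ℝ E Z with hP
  have e : ∀ y, (q, (0 : Z)) + P y = (q + ρ • y, 0) := fun y => by simp [hP]
  have nP : ‖P‖ ≤ ρ := P.opNorm_le_bound ρ0.le fun v => by
    simp [hP, norm_smul, abs_of_pos ρ0]; positivity
  have sm : ∀ y ∈ ball (0 : E) 1, ContDiffAt ℝ ∞ h ((q, 0) + P y) := fun y hy => by
    rw [e]; exact (H _ (mem ρ0 hy)).1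
  have y1 : y ∈ ball (0 : E) 1 := ball_subset_ball (by norm_num) hy
  have a1 := hC E ℝ (fun v => h ((q, 0) + P v)) 0 1 |CH| |c (n + k)| one_pos
    (fun y hy => (ContDiffAt.comp (g := h) (f := fun v => (q, 0) + P v) y (cda (sm y hy) _)
      (by fun_prop)).contDiffWithinAt)
    (fun y hy => by rw [e]; exact (H _ (mem ρ0 hy)).2.2.trans (le_abs_self _))
    (fun y hy => by
      rw [aff P _ _ (sm y hy), e]
      refine (ContinuousMultilinearMap.norm_compContinuousLinearMap_le _ _).trans ?_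
      rw [prod_const, card_univ, Fintype.card_fin]
      calc _ ≤ |c (n + k)| * M * ρ ^ k := mul_le_mul ((H _ (mem ρ0 hy)).2.1 _)
            ((pow_le_pow_left₀ (norm_nonneg _) nP _).trans (pow_le_pow_of_le_one ρ0.le ρ1 (by omega)))
            (by positivity) (by positivity)
        _ ≤ _ := by rw [mul_assoc]; exact mul_le_of_le_one_right (abs_nonneg _) hk)
    i (by omega) y hy
  rw [one_pow, one_pow, div_one, mul_one, aff P _ _ (sm y y1), e] at a1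
  rw [aff _ _ _ (by rw [pt]; exact (H _ (mem ρ0 y1)).1), pt]
  refine opNorm_le_unit _ (by positivity) fun m hm => ?_
  have a2 := ContinuousMultilinearMap.le_of_opNorm_le a1 fun j => (m j).1
  have a3 : ∏ j, ‖(m j).1‖ ≤ 1 :=
    prod_le_one (fun _ _ => norm_nonneg _) fun j _ => (norm_fst_le _).trans (hm j)
  have e2 : ∀ j, P (m j).1 = L E Z ρ 0 (m j) := fun j => by simp [hP, L_apply]
  simp only [ContinuousMultilinearMap.compContinuousLinearMap_apply, e2] at a2 ⊢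
  have a4 := (iteratedFDeriv ℝ i h (q + ρ • y, 0)).norm_image_sub_le (fun j => L E Z ρ s (m j))
    fun j => L E Z ρ 0 (m j)
  have n1 : ∀ t, 0 ≤ t → t ≤ 1 → ‖fun j => L E Z ρ t (m j)‖ ≤ 1 := fun t t0 t1 =>
    (pi_norm_le_iff_of_nonneg zero_le_one).2 fun j => (L_le ρ0.le ρ1 t0 t1 _).trans (hm j)
  have n2 : ‖(fun j => L E Z ρ s (m j)) - fun j => L E Z ρ 0 (m j)‖ ≤ s :=
    (pi_norm_le_iff_of_nonneg s0).2 fun j => by
      refine norm_prod_le_iff.2 ⟨by simpa [L_apply] using s0, ?_⟩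
      show ‖s • (m j).2 - (0 : ℝ) • (m j).2‖ ≤ s
      rw [zero_smul, sub_zero, norm_smul, Real.norm_of_nonneg s0]
      exact mul_le_of_le_one_right s0 ((norm_snd_le (m j)).trans (hm j))
  have n3 : max ‖fun j => L E Z ρ s (m j)‖ ‖fun j => L E Z ρ 0 (m j)‖ ^ (i - 1) ≤ 1 :=
    pow_le_one₀ (le_max_of_le_left (norm_nonneg _))
      (max_le (n1 s s0 s1) (n1 0 le_rfl zero_le_one))
  rw [Fintype.card_fin] at a4
  have a5 : _ ≤ |c i| * M * i * 1 * s := a4.trans (by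
    have := (H _ (mem ρ0 y1)).2.1 i
    gcongr)
  have a6 : |c i| * M * i * 1 * s ≤ |c i| * i := by
    rw [show |c i| * M * i * 1 * s = |c i| * i * (M * s) by ring]
    exact mul_le_of_le_one_right (by positivity) hs
  have a7 := mul_le_of_le_one_right (show 0 ≤ C * (|CH| + |c (n + k)|) by positivity) a3
  linarith [norm_le_norm_add_norm_sub' (iteratedFDeriv ℝ i h (q + ρ • y, 0) fun j => L E Z ρ s (m j))
    (iteratedFDeriv ℝ i h (q + ρ • y, 0) fun j => L E Z ρ 0 (m j))]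

/-- the data -/
structure Dt (E Z V : Type) [NormedAddCommGroup E] [NormedSpace ℝ E] [NormedAddCommGroup Z]
    [NormedSpace ℝ Z] [NormedAddCommGroup V] [NormedSpace ℝ V] (k : ℕ) (CH : ℝ) (c : ℕ → ℝ) where
  ψ : V →L[ℝ] ℝ
  H : E × Z → V
  q : E
  ρ : ℝ
  δ : ℝ
  M : ℝ
  y : E
  hψ : ‖ψ‖ ≤ 1
  ρ0 : 0 < ρ
  ρ1 : ρ ≤ 1
  δ0 : 0 < δ
  δM : δ ≤ M
  hk : M * ρ ^ k ≤ δ
  hδ : δ ≤ |ψ (H (q, 0))|
  h : ∀ y ∈ ball q ρ, ContDiffAt ℝ ∞ H (y, 0) ∧ (∀ i, ‖iteratedFDeriv ℝ i H (y, 0)‖ ≤ c i * M) ∧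
    |ψ (H (y, 0))| ≤ CH * |ψ (H (q, 0))| ∧ |ψ (H (q, 0))| ≤ CH * |ψ (H (y, 0))|
  hy : y ∈ ball (0 : E) (1 / 2)

end Bl

open Bl in
theorem blS : BlS := by
  intro E Z V _ _ _ _ _ _ n k CH c
  set T := Dt E Z V k CH c
  have M0 : ∀ t : T, 0 < t.M := fun t => t.δ0.trans_le t.δM
  have s0 : ∀ t : T, 0 ≤ t.δ / t.M := fun t => (div_pos t.δ0 (M0 t)).le
  have s1 : ∀ t : T, t.δ / t.M ≤ 1 := fun t => (div_le_one (M0 t)).2 t.δM
  have h0 : ∀ t : T, 0 < |t.ψ (t.H (t.q, 0))| := fun t => t.δ0.trans_le t.hδ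
  have i0 : ∀ t : T, |(t.ψ (t.H (t.q, 0)))⁻¹| ≤ t.δ⁻¹ := fun t => by
    rw [abs_inv]; exact inv_anti₀ t.δ0 t.hδ
  have ym : ∀ t : T, t.q + t.ρ • t.y ∈ ball t.q t.ρ := fun t =>
    mem t.ρ0 (ball_subset_ball (by norm_num) t.hy)
  have G0 : GB n (fun t : T => t.H) (fun t => (t.q + t.ρ • t.y, 0)) (·.M) fun _ => 1 :=
    GB.of_seq n c (fun t => (t.h _ (ym t)).1) (fun _ => le_rfl) (fun t => (M0 t).le)
      fun t i _ => by simpa using (t.h _ (ym t)).2.1 i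
  have G1 := (G0.comp_aff (x := fun t => (t.y, 0)) (fun t => L E Z t.ρ (t.δ / t.M))
    (fun t => (t.q, 0)) (fun t => ContinuousLinearMap.opNorm_le_bound _ zero_le_one fun v => by
      rw [one_mul]; exact L_le t.ρ0.le t.ρ1 (s0 t) (s1 t) v) fun t => pt _ _ _ _)
  obtain ⟨C, hC⟩ := scal (E := E) (Z := Z) n k CH c
  have G2 : GB n (fun (t : T) v => (t.ψ (t.H (t.q, 0)))⁻¹ • t.ψ (t.H ((t.q, 0) +
      L E Z t.ρ (t.δ / t.M) v))) (fun t => (t.y, 0)) (fun _ => 1) fun _ => 1 := by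
    refine GB.of_seq n (fun i => C + |c i| * i) ((G1.psi _ fun t => t.hψ).smul i0).sm
      (fun _ => le_rfl) (fun _ => zero_le_one) fun t i hi => ?_
    rw [one_pow, mul_one, mul_one]
    have d0 := t.δ0
    have m0 := M0 t
    refine hC (fun v => ((t.ψ (t.H (t.q, 0)))⁻¹ • t.ψ) (t.H v)) t.q t.ρ (t.δ / t.M) (t.M / t.δ) t.ρ0
      t.ρ1 (s0 t) (s1 t) (by positivity) (by rw [div_mul_eq_mul_div, div_le_one d0]; exact t.hk)
      (le_of_eq (by field_simp)) (fun y hy => ⟨lin_sm _ (t.h y hy).1, fun i => ?_, ?_⟩) _ t.hy i hi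
    · refine (ContinuousLinearMap.norm_iteratedFDeriv_comp_left _ (cda (t.h y hy).1 i) le_rfl).trans ?_
      rw [norm_smul, Real.norm_eq_abs, div_eq_inv_mul, mul_left_comm]
      exact mul_le_mul ((mul_le_of_le_one_right (abs_nonneg _) t.hψ).trans (i0 t))
        (((t.h y hy).2.1 i).trans (mul_le_mul_of_nonneg_right (le_abs_self _) m0.le)) (norm_nonneg _)
        (by positivity)
    · rw [smul_apply, smul_eq_mul, abs_mul, abs_inv, inv_mul_le_iff₀ (h0 t),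
        mul_comm]
      exact (t.h y hy).2.2.1
  set A := max 1 CH with hA
  have A1 : 1 ≤ A := le_max_left _ _
  have lo : ∀ t : T, A⁻¹ ≤ |(t.ψ (t.H (t.q, 0)))⁻¹ • t.ψ (t.H ((t.q, 0) +
      L E Z t.ρ (t.δ / t.M) (t.y, 0)))| := fun t => by
    rw [pt, smul_eq_mul, abs_mul, abs_inv, le_inv_mul_iff₀ (h0 t), mul_inv_le_iff₀' (by positivity)]
    exact (t.h _ (ym t)).2.2.2.trans (mul_le_mul_of_nonneg_right (le_max_right _ _) (abs_nonneg _))
  have G3 := ((G2.inv' (d := fun _ => A⁻¹) (fun _ => by positivity) lo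
    fun _ => inv_le_one_of_one_le₀ A1).absorb (M' := fun _ => 1) (D' := fun _ => 1) A1
      (fun _ => by simp) (fun _ => by simp) fun _ => le_rfl).fsmul (G1.smul i0)
  have G4 : GB n (fun (t : T) (v : E × Z) => nrm t.ψ t.H (t.q + t.ρ • v.1, (t.δ / t.M) • v.2))
      (fun t => (t.y, 0)) (fun t => t.M / t.δ) fun _ => 1 :=
    (G3.mono le_rfl (fun t => by rw [one_mul, div_eq_inv_mul]) fun _ => le_rfl).congr fun t =>
      .of_forall fun v => by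
        have := abs_pos.1 (h0 t)
        simp only [nrm, Bl.L_apply, Prod.mk_add_mk, zero_add, smul_smul, smul_eq_mul]
        congr 1
        rw [mul_inv, inv_inv, mul_right_comm, mul_inv_cancel₀ this, one_mul]
  obtain ⟨C', C0, hC'⟩ := G4.bd
  refine ⟨C', C0, fun ψ H q ρ δ M a1 a2 a3 a4 a5 a6 a7 a8 y hy => ?_⟩
  exact ⟨G4.sm ⟨ψ, H, q, ρ, δ, M, y, a1, a2, a3, a4, a5, a6, a7, a8, hy⟩, fun i hi => by
    simpa using hC' ⟨ψ, H, q, ρ, δ, M, y, a1, a2, a3, a4, a5, a6, a7, a8, hy⟩ i hi⟩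

end Crest.Agent.N221.G0
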