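import Crest.Agent.N221.G0.Ap3
import Crest.Agent.N221.G0.Bl

/-! Row 221, block G0 (helper55): the field `apr` (Harnack, blow up, nodes, net). -/

set_option autoImplicit false

open Set Metric Filter Finset
open scoped ContDiff Nat Topology

namespace Crest.Agent.N221.G0

open Real

lemma aff_ge {Z V : Type} [NormedAddCommGroup Z] [NormedSpace ℝ Z] [NormedAddCommGroup V]
    [NormedSpace ℝ V] {w : Z → V} {a : Z} {μ : ℝ} (hμ : 0 < μ) (i : ℕ)
    (hw : ContDiffAt ℝ ∞ w a) :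
    μ ^ i * ‖iteratedFDeriv ℝ i w a‖ ≤ ‖iteratedFDeriv ℝ i (fun t => w (a + μ • t)) 0‖ := by
  have h1 := aff_le (f := fun t => w (a + μ • t)) (a := 0) (s := 0) (inv_pos.2 hμ).le i
    (aff_sm (by simpa using hw))
  simp only [zero_add, smul_smul, mul_inv_cancel₀ hμ.ne', one_smul, smul_zero,
    iteratedFDeriv_comp_add_left, add_zero] at h1
  rwa [inv_pow, le_inv_mul_iff₀ (by positivity)] at h1

theorem apr_core (bl : BlS) (E Z V : Type) [NormedAddCommGroup E] [NormedSpace ℝ E]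
    [FiniteDimensional ℝ E] [NormedAddCommGroup Z] [NormedSpace ℝ Z] [NormedAddCommGroup V]
    [NormedSpace ℝ V] [CompleteSpace V] (k K : ℕ) (hk : 1 ≤ k) (c : ℕ → ℝ) (A0 c' : ℝ) :
    ∃ κ : ℝ, ∀ (ψ : V →L[ℝ] ℝ) (ι : E → Z) (Θ : Z → V) (l : E → V →L[ℝ] ℝ) (q : E) (F u η : ℝ)
      (i : ℕ), ‖ψ‖ ≤ 1 → κ ≤ u → κ ≤ F → F ^ 5 ≤ u ^ k → i ≤ K + 1 →
      (∀ y ∈ ball q u⁻¹, ContDiffAt ℝ ∞ Θ (ι y) ∧
        ContDiffAt ℝ ∞ (fun v : E × Z => Θ (ι v.1 + F⁻¹ • v.2)) (y, 0) ∧ ContDiffAt ℝ ∞ l y ∧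
        l y (Θ (ι y)) = 1 ∧ ψ (Θ (ι y)) ≠ 0 ∧ ‖nrm ψ Θ (ι y)‖ ≤ A0 ∧
        (∀ n, ‖iteratedFDeriv ℝ n l y‖ ≤ c n * F ∧
          ‖iteratedFDeriv ℝ n (fun v : E × Z => Θ (ι v.1 + F⁻¹ • v.2)) (y, 0)‖ ≤ c n * F) ∧
        ∀ n ≤ k, ‖iteratedFDeriv ℝ n (fun t => nrm ψ Θ (ι t)) y‖ ≤ F) →
      (∀ y ∈ ball q u⁻¹, ∃ y', ‖y' - y‖ ≤ c' * (u ^ 4)⁻¹ ∧
        (y' ∈ ball q u⁻¹ → ‖iteratedFDeriv ℝ i (nrm ψ Θ) (ι y')‖ ≤ η)) →
      ‖iteratedFDeriv ℝ i (nrm ψ Θ) (ι q)‖ ≤ 2 * η + 3 := by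
  obtain ⟨CH, -, hH⟩ := harn_leaf k
  obtain ⟨L, hL⟩ : ∃ L, k * (4 * (K + 2)) = L + 1 := Nat.exists_eq_add_one.2 (by positivity)
  obtain ⟨Cn, n1, hn⟩ := net_jet (L + 1) (by omega)
  obtain ⟨Cb, b0, hb⟩ := bl E Z V (L + 1 + (K + 1)) k CH c
  set d := 1 + ∑ n ∈ range (k + 1), |c n| with hd
  have d1 : 1 ≤ d := le_add_of_nonneg_right (by positivity)
  have dc : ∀ n ≤ k, c n ≤ d := fun n hn => by
    have := single_le_sum (f := fun n => |c n|) (fun _ _ => abs_nonneg _)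
      (mem_range.2 (Nat.lt_succ_of_le hn))
    linarith [le_abs_self (c n)]
  refine ⟨4 + 2 ^ k * d + d * |A0| + Cb + 4 * |c'| * Cn + 2 * (L + 1),
    fun ψ ι Θ l q F u η i hψ hu hF hFu hi H hz => ?_⟩
  have a1 : 0 ≤ 2 ^ k * d := by positivity
  have a2 : 0 ≤ d * |A0| := by positivity
  have a3 : 0 ≤ 4 * |c'| * Cn := by positivity
  have a4 : (0 : ℝ) ≤ 2 * (L + 1) := by positivity
  have u4 : 4 ≤ u := by linarith
  have u0 : 0 < u := by linarith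
  have F1 : 1 ≤ F := by linarith
  have F0 : 0 < F := by linarith
  have ui : 0 < u⁻¹ := inv_pos.2 u0
  have ui1 : u⁻¹ ≤ 1 := inv_le_one_of_one_le₀ (by linarith)
  set ρ := u⁻¹ / 4 with hρ
  have ρ0 : 0 < ρ := by positivity
  have e4 : 4 * ρ = u⁻¹ := by rw [hρ]; ring
  have k5 : F ^ 5 * u⁻¹ ^ k ≤ 1 := by rw [inv_pow, mul_inv_le_iff₀ (by positivity), one_mul]; exact hFu
  have k5' : F ^ 5 * ρ ^ k ≤ 1 := le_trans (by gcongr; linarith) k5
  set G : E × Z → V := fun v => Θ (ι v.1 + F⁻¹ • v.2) with hG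
  have eG : (fun t => G (t, 0)) = fun t => Θ (ι t) := by funext t; simp [hG]
  have eG' : ∀ t, G (t, 0) = Θ (ι t) := fun t => congrFun eG t
  have fl : ∀ y ∈ ball q u⁻¹, (F ^ 2)⁻¹ ≤ |ψ (Θ (ι y))| := fun y hy => by
    obtain ⟨-, -, -, h1, h2, h3, h4, -⟩ := H y hy
    have b1 := (l y).le_opNorm (Θ (ι y))
    have b2 := (h4 0).1
    have b3 := norm_le_nrm h2 (h3.trans (le_abs_self _))
    have b4 := dc 0 (Nat.zero_le _)
    rw [norm_iteratedFDeriv_zero] at b2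
    rw [h1, norm_one] at b1
    rw [inv_le_iff_one_le_mul₀ (by positivity)]
    calc _ ≤ ‖l y‖ * ‖Θ (ι y)‖ := b1
      _ ≤ d * F * (|ψ (Θ (ι y))| * |A0|) := by gcongr; exact b2.trans (by gcongr)
      _ = |ψ (Θ (ι y))| * (d * |A0| * F) := by ring
      _ ≤ _ := by rw [sq]; gcongr; linarith
  have har := hH E V ψ (fun t => Θ (ι t)) l q ρ F d hψ ρ0 F1 d1 (by linarith) k5' fun y hy => by
    rw [e4] at hy
    obtain ⟨-, h0, h1, h2, -, -, h4, h5⟩ := H y hy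
    refine ⟨eG ▸ fst_sm h0, h1, h2, fl y hy, fun n hn => ⟨?_, (h4 n).1.trans ?_, h5 n hn⟩⟩
    · rw [← eG]
      exact (fst_le h0 n).trans ((h4 n).2.trans (by have := dc n hn; gcongr))
    · have := dc n hn
      gcongr
  have sub : ball q ρ ⊆ ball q u⁻¹ := ball_subset_ball (by linarith)
  have qm : q ∈ ball q ρ := mem_ball_self ρ0
  have blow := hb ψ G q ρ (F ^ 2)⁻¹ F hψ ρ0 (by linarith) (by positivity)
    ((inv_le_one_of_one_le₀ (one_le_pow₀ F1)).trans F1) (by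
      rw [← one_div, le_div_iff₀ (by positivity)]
      refine le_trans ?_ k5'
      calc _ = F ^ 3 * ρ ^ k := by ring
        _ ≤ _ := by gcongr; norm_num) (by rw [eG']; exact fl q (sub qm))
    fun y hy => ⟨(H y (sub hy)).2.1, fun n => ((H y (sub hy)).2.2.2.2.2.2.1 n).2, by
      rw [eG', eG']; exact har y hy q qm, by rw [eG', eG']; exact har q qm y hy⟩
  set μ := (F ^ 4)⁻¹ with hμ
  have μ0 : 0 < μ := by positivity
  have μ1 : μ ≤ 1 := inv_le_one_of_one_le₀ (one_le_pow₀ F1)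
  have eW : ∀ z : E, (fun v : Z => nrm ψ G (q + ρ • z, ((F ^ 2)⁻¹ / F) • v)) =
      fun v => nrm ψ Θ (ι (q + ρ • z) + μ • v) := fun z => by
    funext v
    simp only [nrm, hG, smul_smul]
    rw [show F⁻¹ * ((F ^ 2)⁻¹ / F) = μ by rw [hμ]; field_simp]
  have mem : ∀ z ∈ ball (0 : E) (1 / 2), q + ρ • z ∈ ball q u⁻¹ := fun z hz => by
    rw [mem_ball_iff_norm, add_sub_cancel_left, norm_smul, Real.norm_of_nonneg ρ0.le]
    nlinarith [mem_ball_zero_iff.1 hz]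
  have sw : ∀ y ∈ ball q u⁻¹, ContDiffAt ℝ ∞ (nrm ψ Θ) (ι y) := fun y hy =>
    cda_nrm (H y hy).1 (H y hy).2.2.2.2.1
  have main := hn E Z V (fun v => nrm ψ G (q + ρ • v.1, ((F ^ 2)⁻¹ / F) • v.2)) i L (F ^ 4)
    (μ ^ i * η) u u4 (by linarith) (fun y hy => ⟨(blow y hy).1, fun n hn =>
      ((blow y hy).2 n (by omega)).trans (by
        rw [div_inv_eq_mul, show F ^ 4 = F * (F * F ^ 2) by ring]
        gcongr
        linarith)⟩) fun y hy => by
    have hy' := mem_ball_zero_iff.1 hy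
    obtain ⟨y', h1, h2⟩ := hz _ (mem y (ball_subset_ball (by linarith) hy))
    have e : q + ρ • ρ⁻¹ • (y' - q) = y' := by
      rw [smul_smul, mul_inv_cancel₀ ρ0.ne', one_smul, add_sub_cancel]
    have b1 : ‖ρ⁻¹ • (y' - q) - y‖ ≤ (u ^ 2)⁻¹ / Cn := by
      have e1 : ρ⁻¹ • (y' - q) - y = ρ⁻¹ • (y' - (q + ρ • y)) := by
        rw [← sub_sub, smul_sub _ (y' - q), smul_smul, inv_mul_cancel₀ ρ0.ne', one_smul]
      rw [e1, norm_smul, Real.norm_of_nonneg (inv_pos.2 ρ0).le, le_div_iff₀ (by linarith)]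
      calc _ ≤ ρ⁻¹ * (|c'| * (u ^ 4)⁻¹) * Cn := by
            gcongr; exact h1.trans (by gcongr; exact le_abs_self _)
        _ = 4 * |c'| * Cn * (u ^ 3)⁻¹ := by rw [hρ]; field_simp
        _ ≤ u * (u ^ 3)⁻¹ := by gcongr; linarith
        _ = _ := by field_simp
    have b2 : (u ^ 2)⁻¹ / Cn ≤ u⁻¹ := (div_le_self (by positivity) n1).trans
      (inv_anti₀ u0 (le_self_pow₀ (by linarith) two_ne_zero))
    have b3 : ρ⁻¹ • (y' - q) ∈ ball (0 : E) (1 / 2) := by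
      rw [mem_ball_zero_iff]
      linarith [norm_le_norm_add_norm_sub' (ρ⁻¹ • (y' - q)) y]
    have b4 := mem _ b3
    refine ⟨_, b3, b1, ?_⟩
    rw [eW]
    rw [e] at b4 ⊢
    refine (aff_le μ0.le i (by simpa using sw y' b4)).trans ?_
    rw [smul_zero, add_zero]
    exact mul_le_mul_of_nonneg_left (h2 b4) (by positivity)
  rw [eW, smul_zero, add_zero] at main
  have low := (aff_ge μ0 i (sw q (sub qm))).trans main
  have tiny : F ^ 4 * u⁻¹ ^ (L + 1) ≤ μ ^ i := by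
    have b1 : u⁻¹ ^ k ≤ F⁻¹ := by
      rw [← one_div F, le_div_iff₀ F0, mul_comm]
      exact le_trans (by gcongr; exact le_self_pow₀ F1 (by norm_num)) k5
    calc _ = F ^ 4 * (u⁻¹ ^ k) ^ (4 * (K + 2)) := by rw [← hL, pow_mul]
      _ ≤ F ^ 4 * F⁻¹ ^ (4 * (K + 2)) := by gcongr
      _ = μ ^ (K + 1) := by rw [pow_mul, inv_pow, ← hμ, pow_succ' μ (K + 1), ← mul_assoc, hμ,
          mul_inv_cancel₀ (by positivity), one_mul]
      _ ≤ _ := pow_le_pow_of_le_one μ0.le μ1 hi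
  refine le_of_mul_le_mul_left ?_ (pow_pos μ0 i)
  nlinarith

theorem aprS_of (nd : NdS) (bl : BlS) : AprS := by
  intro E V V' X Y _ _ _ _ _ _ _ _ _ B hB r N a θ χ a₀ hθ hχ ha hI hN ε' hε
  have := FiniteDimensional.complete ℝ V
  obtain ⟨m, hm⟩ := exists_nat_ge (max 2 (4 * a₀ / ε'))
  have m2 : (2 : ℝ) ≤ m := (le_max_left _ _).trans hm
  have m2' : 2 ≤ m := by exact_mod_cast m2
  have m3 : 4 * a₀ ≤ m * ε' := (div_le_iff₀ hε).1 ((le_max_right _ _).trans hm)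
  set γ := χ / (4 * m) with hγ
  have γ0 : 0 < γ := by positivity
  obtain ⟨k, hk⟩ := exists_nat_ge (5 * a₀ / γ)
  rw [div_le_iff₀ γ0] at hk
  have k1 : 1 ≤ k := Nat.pos_of_ne_zero fun e => by
    rw [e, Nat.cast_zero, zero_mul] at hk; linarith
  refine ⟨k, γ, γ0, fun K A0 => ?_⟩
  obtain ⟨K', -, nd⟩ := nd _ _ _ _ _ B hB r N a θ a₀ hθ ha hI (K + 1) m A0
  obtain ⟨c', j1, hN⟩ := hN (m * K')
  refine ⟨K', fun c => ?_⟩
  obtain ⟨C, j2, nd⟩ := nd c c'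
  obtain ⟨κ, hκ⟩ := apr_core bl E (E × E) V k K k1 c A0 |c' 0|
  obtain ⟨j3, h3⟩ := ev_big γ0 κ
  obtain ⟨j4, h4⟩ := ev_big (by linarith : 0 < a₀) κ
  refine ⟨2 * (|C| * exp (4 * a₀ * (K + 2))) + 3, m * j1 + j2 + j3 + j4 + 2,
    fun j hj ψ x Θ l hψ hso q hq i hi => ?_⟩
  have j0 : (0 : ℝ) ≤ j := Nat.cast_nonneg _
  set s := j / m + 1 with hs
  have s1 : j ≤ m * s := (Nat.lt_mul_div_succ j (by omega)).le
  have s2 : s ≤ j := Nat.div_lt_self (by omega) (by omega)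
  have s3 : j1 ≤ s := Nat.le_of_mul_le_mul_left (le_trans (by omega) s1) (by omega : 0 < m)
  have s1' : (j : ℝ) ≤ m * s := by exact_mod_cast s1
  have s4 : (m : ℝ) * s ≤ j + m := by
    have : m * s ≤ j + m := by rw [hs, mul_add, mul_one]; gcongr; exact Nat.mul_div_le j m
    exact_mod_cast this
  rw [exp_neg] at hq
  have key := hκ ψ (B.gs x) Θ l q (exp (a₀ * j)) (exp (γ * j)) (|C| * exp (4 * a₀ * (i + 1) * s)) i
    hψ (h3 j (by omega)) (h4 j (by omega)) (by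
      rw [← exp_nat_mul, ← exp_nat_mul]
      refine exp_le_exp.2 ?_
      push_cast
      nlinarith) hi (fun y hy => by
      obtain ⟨h1, h2, h5, h6⟩ := hq y hy
      have so := hso y (mem_ball_zero_iff.1 h1)
      have s0 := (so.cr _ (mem_ball_self (exp_pos _))).1
      have b := so.bl
      rw [exp_neg] at b
      refine ⟨s0, ContDiffAt.comp (g := Θ) _ (by simpa using s0) (ContDiffAt.add ?_ (by fun_prop)),
        so.sl, so.one, h2, h5, fun n => ⟨so.dl n, b n⟩, fun n hn => (h6 n hn).trans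
          (exp_le_exp.2 (le_mul_of_one_le_left j0 ha))⟩
      refine ContDiffAt.comp (g := B.gs x) _ (hB.ubg.at (mem_ball_zero_iff.2 ?_)) contDiffAt_fst
      linarith [norm_fst_le (B.gs x y), mem_ball_zero_iff.1 h1, hB.rR, hB.rp,
        show ‖(B.gs x y).1‖ = ‖y‖ from rfl]) fun y hy => by
      obtain ⟨y', Θ', h1, h2, h5⟩ := hN s s3 x y (mem_ball_zero_iff.1 (hq y hy).1)
      refine ⟨y', h1.trans ?_, fun hy' => ?_⟩
      · rw [← exp_nat_mul, ← exp_neg]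
        refine (mul_le_mul_of_nonneg_right (le_abs_self _) (exp_pos _).le).trans ?_
        refine mul_le_mul_of_nonneg_left (exp_le_exp.2 (neg_le_neg ?_)) (abs_nonneg _)
        rw [hγ]
        push_cast
        rw [show 4 * (χ / (4 * m) * j) = χ * (j / m) by field_simp]
        gcongr
        rwa [div_le_iff₀' (by linarith)]
      · obtain ⟨g1, g2, g3, -⟩ := hq y' hy'
        have so := hso y' (mem_ball_zero_iff.1 g1)
        refine (nd j s (by omega) s2 s1 ψ _ Θ Θ' hψ (mem_ball_zero_iff.1 g1) so.cr h2 ?_ h5 g2 g3 i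
          hi).trans (mul_le_mul_of_nonneg_right (le_abs_self _) (exp_pos _).le)
        have b1 := (l y').le_opNorm (Θ (B.gs x y'))
        have b2 := so.dl 0
        rw [norm_iteratedFDeriv_zero] at b2
        rw [so.one, norm_one] at b1
        rw [exp_neg, inv_le_iff_one_le_mul₀ (exp_pos _), mul_right_comm]
        exact b1.trans (mul_le_mul_of_nonneg_right b2 (norm_nonneg _))
  have i1 : (i : ℝ) + 1 ≤ K + 2 := by exact_mod_cast (by omega : i + 1 ≤ K + 2)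
  have e1 : exp (4 * a₀ * (i + 1) * s) ≤ exp (4 * a₀ * (K + 2)) * exp (ε' * (i + 1) * j) := by
    rw [← exp_add]
    refine exp_le_exp.2 ?_
    have b1 : 4 * a₀ * s ≤ 4 * a₀ + ε' * j := by
      refine le_of_mul_le_mul_left ?_ (by linarith : (0 : ℝ) < m)
      nlinarith [mul_le_mul_of_nonneg_left s4 (by linarith : 0 ≤ 4 * a₀),
        mul_le_mul_of_nonneg_right m3 j0]
    have b2 := mul_le_mul_of_nonneg_right b1 (by positivity : (0 : ℝ) ≤ i + 1)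
    nlinarith
  have e2 : 1 ≤ exp (ε' * (i + 1) * j) := one_le_exp (by positivity)
  have e3 := mul_le_mul_of_nonneg_left e1 (abs_nonneg C)
  refine key.trans ?_
  nlinarith

theorem aprS : AprS := aprS_of ndS blS

end Crest.Agent.N221.G0
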