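import Crest.Agent.N221.G0.Fm
import Crest.Agent.N221.G0.ApA

/-!
Row 221, block G0 (helper33, helper26): the field `new` of a good leaf and `fldS : FldS`.
-/

set_option autoImplicit false

open Set Metric Filter Topology Real
open scoped ContDiff

noncomputable section

namespace Crest.Agent.N221.G0

namespace Fld

lemma alg {V : Type} [NormedAddCommGroup V] [NormedSpace ℝ V] (ψ : V →L[ℝ] ℝ) {g F : V}
    {ε B m D : ℝ} (s2 : |ψ g - 1| ≤ ε) (e2 : ε ≤ 1 / 4) (s3 : ‖g‖ ≤ B) (m0 : 0 < m)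
    (fl : 1 ≤ m * ‖F‖) (hD : ‖ψ g • F - ψ F • g‖ ≤ D) (hm : 4 * m * D ≤ 1) :
    ψ F ≠ 0 ∧ ‖(ψ F)⁻¹ • F - g‖ ≤ 2 * m * B * D + 2 * B * ε := by
  have D0 := (norm_nonneg _).trans hD
  have e0 := (abs_nonneg _).trans s2
  have B0 := (norm_nonneg _).trans s3
  have u5 : 4 * D ≤ ‖F‖ := le_of_mul_le_mul_left (by linarith) m0
  have d : F - ψ F • g = ψ g • F - ψ F • g - (ψ g - 1) • F := by module
  have F0 := norm_nonneg F
  have n1 : ‖F - ψ F • g‖ ≤ D + ε * ‖F‖ := by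
    rw [d]
    refine (norm_sub_le _ _).trans (add_le_add hD ?_)
    rw [norm_smul]; exact mul_le_mul_of_nonneg_right s2 F0
  have n2 : ‖F‖ ≤ 2 * B * |ψ F| := by
    have a1 := norm_add_le (F - ψ F • g) (ψ F • g)
    rw [sub_add_cancel, norm_smul, Real.norm_eq_abs] at a1
    have a2 := mul_le_mul_of_nonneg_left s3 (abs_nonneg (ψ F))
    have a3 := mul_le_mul_of_nonneg_right e2 F0
    linarith
  have n3 : 1 ≤ m * (2 * B * |ψ F|) := fl.trans (by gcongr)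
  have p0 : 0 < |ψ F| := by
    by_contra hn
    rw [le_antisymm (not_lt.1 hn) (abs_nonneg _), mul_zero, mul_zero] at n3
    linarith
  refine ⟨abs_pos.1 p0, ?_⟩
  have d2 : (ψ F)⁻¹ • F - g = (ψ F)⁻¹ • (F - ψ F • g) := by
    rw [smul_sub, smul_smul, inv_mul_cancel₀ (abs_pos.1 p0), one_smul]
  rw [d2, norm_smul, norm_inv, Real.norm_eq_abs, inv_mul_le_iff₀ p0]
  have a1 := mul_le_mul_of_nonneg_right n3 D0
  have a2 := mul_le_mul_of_nonneg_left n2 e0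
  linarith

end Fld

namespace LB

variable {E V V' Xs Ys : Type} [NormedAddCommGroup E] [NormedSpace ℝ E] [NormedAddCommGroup V]
  [NormedSpace ℝ V] [NormedAddCommGroup V'] [NormedSpace ℝ V'] {β : LB E V V' Xs Ys}

lemma Ok.gs_sm (h : β.Ok) {x : Xs} {q : E} (hq : ‖β.gs x q‖ < β.r) : ContDiffAt ℝ ∞ (β.gs x) q :=
  contDiffAt_id.prodMk (h.ubs.at (h.ball_sub hq (mem_ball_self h.rp)))

/-- the source along its plaque -/
lemma Ok.leafJ (h : β.Ok) (N : ℕ) (c : ℕ → ℝ) (a : ℝ) : ∃ C : ℝ, 0 < C ∧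
    ∀ (K : ℝ) (j : ℕ) x Θ l q, β.So c a K j x Θ l q → ‖β.gs x q‖ < β.r → ∀ k ≤ N,
      ‖iteratedFDeriv ℝ k (fun y => Θ (β.gs x y)) q‖ ≤ C * exp (a * j) := by
  let ι := {p : (ℝ × ℕ × Xs) × (E × E → V) × (E → V →L[ℝ] ℝ) × E //
    β.So c a p.1.1 p.1.2.1 p.1.2.2 p.2.1 p.2.2.1 p.2.2.2 ∧ ‖β.gs p.1.2.2 p.2.2.2‖ < β.r}
  have g1 : GB N (fun (t : ι) (v : E × (E × E)) =>
      t.1.2.1 (β.gs t.1.1.2.2 v.1 + exp (-(a * t.1.1.2.1)) • v.2)) (fun t => (t.1.2.2.2, 0))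
      (fun t => exp (a * t.1.1.2.1)) fun _ => 1 := by
    refine GB.of_seq N c (fun t => ?_) (fun _ => le_rfl) (fun t => (exp_pos _).le)
      fun t k _ => by simpa using t.2.1.bl k
    refine ContDiffAt.comp (g := t.1.2.1) _
      (by simpa using (t.2.1.cr _ (mem_ball_self (exp_pos _))).1) ?_
    exact (ContDiffAt.comp (g := β.gs t.1.1.2.2) (f := Prod.fst) ((t.1.2.2.2, 0) : E × (E × E))
      (h.gs_sm t.2.2) contDiffAt_fst).add (contDiffAt_snd.const_smul _)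
  obtain ⟨C, C0, hC⟩ := (g1.comp_aff (x := fun t => t.1.2.2.2)
    (fun _ => ContinuousLinearMap.inl ℝ E (E × E)) (fun _ => 0)
    (fun _ => ContinuousLinearMap.norm_inl_le_one _ _ _) fun _ => by simp).bd
  exact ⟨C, C0, fun K j x Θ l q h1 h2 k hk => by
    simpa using hC ⟨((K, j, x), Θ, l, q), h1, h2⟩ k hk⟩

lemma Ok.newF (hS : β.Ok) {n N a₀ : ℕ} {θ a : ℝ} (hθ : 0 < θ) (hU : β.IND n N a₀ θ) (ha : 1 ≤ a)
    (c : ℕ → ℝ) : ∃ C₀ : ℝ, ∀ C, C₀ ≤ C → ∀ (K : ℝ) (j : ℕ) (ψ : V →L[ℝ] ℝ) x Θ l, ‖ψ‖ ≤ 1 →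
      (∀ q, ‖β.gs x q‖ < β.r → β.So c a K j x Θ l q) → ∀ g q ρ ε B,
      (β.bx ψ).SR N x g q ρ ε B → exp (-(K * j)) ≤ ε →
      C * (B * exp j / ρ) ^ (⌈a⌉₊ * (a₀ + 1)) * ε ^ min θ 1 ≤ 1 →
      ψ (Θ (β.gs x q)) ≠ 0 ∧ ‖nrm ψ Θ (β.gs x q) - g q‖ ≤
        C * (B * exp j / ρ) ^ (⌈a⌉₊ * (a₀ + 1)) * ε ^ min θ 1 := by
  obtain ⟨C0, hU⟩ := hU
  obtain ⟨C1', C10, hC1⟩ := hS.leafJ N c a
  set C1 := max 1 C1' with hC1d
  have C11 : 1 ≤ C1 := le_max_left _ _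
  set C2 := 2 ^ n * |C0| * C1 ^ a₀ with hC2
  have C20 : 0 ≤ C2 := by positivity
  set cz := max 1 (c 0) with hcz
  have c0 : 1 ≤ cz := le_max_left _ _
  refine ⟨4 * cz * C2 + 4, fun C hC K j ψ x Θ l hψ h g q ρ ε B hg he hs => ?_⟩
  have s0 : ∀ y ∈ ball q ρ, ‖β.io (β.gs x y) (g y)‖ ≤ ε ∧ |ψ (g y) - 1| ≤ ε := fun y hy => by
    have := norm_prod_le_iff.1 (hg.df y hy)
    simpa [L.Box.df, LB.bx, L.Box.gs, LB.gs] using this
  have s2 := (s0 q (mem_ball_self hg.pos)).2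
  have s3 : ‖g q‖ ≤ B := by simpa using hg.bd q (mem_ball_self hg.pos) 0 (Nat.zero_le N)
  have e0 : 0 < ε := (exp_pos _).trans_le he
  have B1 := hg.one
  have ρ0 := hg.pos
  have mem : ∀ y ∈ ball q ρ, ‖β.gs x y‖ < β.r := fun y hy => mem_ball_zero_iff.1 (hg.sub y hy)
  have hq := mem q (mem_ball_self ρ0)
  set Ej := exp (a * j) with hEj
  have E1 : 1 ≤ Ej := one_le_exp (by positivity)
  set A := ⌈a⌉₊ with hA
  have A1 : 1 ≤ A := Nat.ceil_pos.2 (by linarith)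
  set X := B * exp j / ρ with hX
  have j1 : 1 ≤ exp (j : ℝ) := one_le_exp (by positivity)
  have b1 : 1 ≤ B / ρ := B1.trans (le_div_self (by linarith) ρ0 hg.le)
  have X1 : 1 ≤ X := by
    rw [hX, mul_div_right_comm]; exact one_le_mul_of_one_le_of_one_le b1 j1
  have X2 : B * Ej / ρ ≤ X ^ A := by
    rw [hX, mul_div_right_comm, mul_div_right_comm, mul_pow, ← exp_nat_mul]
    refine mul_le_mul (le_self_pow₀ b1 (by omega)) (exp_le_exp.2 ?_) (by positivity)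
      (by positivity)
    exact mul_le_mul_of_nonneg_right (Nat.le_ceil a) (by positivity)
  have X3 : B * Ej ≤ X ^ A := (le_div_self (by positivity) ρ0 hg.le).trans X2
  set Y := X ^ A with hY
  have Y1 : 1 ≤ Y := one_le_pow₀ X1
  rw [pow_mul, ← hY] at hs ⊢
  set e := ε ^ min θ 1 with he'
  have e1 : 0 < e := rpow_pos_of_pos e0 _
  have Z1 : 1 ≤ Y ^ (a₀ + 1) := one_le_pow₀ Y1
  have C4 : 4 ≤ C := by nlinarith [mul_nonneg (by linarith : 0 ≤ 4 * cz) C20]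
  have e2 : e ≤ 1 / 4 := by nlinarith [mul_le_mul C4 Z1 zero_le_one (by linarith)]
  have ε1 : ε ≤ 1 := by
    by_contra hn
    have := one_le_rpow (not_le.1 hn).le (lt_min hθ one_pos).le
    linarith
  have e3 : ε ≤ e := by
    simpa using rpow_le_rpow_of_exponent_ge' e0.le ε1 (lt_min hθ one_pos).le (min_le_right θ 1)
  have e4 : ε ^ θ ≤ e :=
    rpow_le_rpow_of_exponent_ge' e0.le ε1 (lt_min hθ one_pos).le (min_le_left θ 1)
  have bb : B ≤ C1 * (B * Ej) := by nlinarith [mul_le_mul C11 E1 zero_le_one (by linarith)]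
  have m2 : ‖β.gs x q‖ < 2 * β.r := by linarith [hS.rp]
  have t1 : β.SR N x (fun y => Θ (β.gs x y)) q ρ ε (C1 * (B * Ej)) := by
    refine ⟨m2, ρ0, hg.le, B1.trans bb, fun y hy => ?_, fun y hy => ?_, fun y hy k hk => ?_⟩
    · exact (ContDiffAt.comp (g := Θ) _ ((h y (mem y hy)).cr _ (mem_ball_self (exp_pos _))).1
        (hS.gs_sm (mem y hy))).contDiffWithinAt
    · exact ((h y (mem y hy)).cr _ (mem_ball_self (exp_pos _))).2.1.trans he
    · refine (hC1 K j x Θ l y (h y (mem y hy)) (mem y hy) k hk).trans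
        (mul_le_mul (le_max_right _ _) ?_ (by positivity) (by linarith))
      exact le_mul_of_one_le_left (by linarith) B1
  have u := hU x g _ q ρ ε _ ⟨m2, ρ0, hg.le, B1.trans bb, hg.sm, fun y hy => (s0 y hy).1,
    fun y hy k hk => (hg.bd y hy k hk).trans bb⟩ t1 ψ hψ
  have fl : 1 ≤ cz * Ej * ‖Θ (β.gs x q)‖ :=
    (fl_of (h q hq).floor).trans (by gcongr; exact le_max_right _ _)
  set F := Θ (β.gs x q) with hF
  have c3 : 1 / 2 ≤ ‖g q‖ := by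
    have := ψ.le_of_opNorm_le hψ (g q)
    rw [Real.norm_eq_abs, one_mul] at this
    linarith [le_abs_self (ψ (g q)), (abs_le.1 s2).1]
  set D := ‖ψ (g q) • F - ψ F • g q‖ with hD
  have D0 : 0 ≤ D := norm_nonneg _
  have u1 : (1 / 2) ^ n * D ≤ |C0| * (C1 * Y) ^ a₀ * e := by
    refine (mul_le_mul_of_nonneg_right (pow_le_pow_left₀ (by norm_num) c3 _) D0).trans
      (u.trans ?_)
    have := rpow_nonneg e0.le θ
    have : C1 * (B * Ej) / ρ ≤ C1 * Y := by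
      rw [mul_div_assoc]; exact mul_le_mul_of_nonneg_left X2 (by linarith)
    gcongr
    exact le_abs_self C0
  have u2 : D ≤ C2 * Y ^ a₀ * e := by
    have := mul_le_mul_of_nonneg_left u1 (show (0 : ℝ) ≤ 2 ^ n by positivity)
    rw [← mul_assoc, ← mul_pow, show (2 : ℝ) * (1 / 2) = 1 by norm_num, one_pow, one_mul] at this
    refine this.trans_eq ?_
    rw [hC2, mul_pow]; ring
  -- `η = 4 c₀ B E D` is at most the main term
  have u3 : 4 * cz * (B * Ej) * D ≤ 4 * cz * C2 * Y ^ (a₀ + 1) * e := by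
    calc _ ≤ 4 * cz * Y * (C2 * Y ^ a₀ * e) := by gcongr
      _ = _ := by ring
  have Ze := mul_pos (zero_lt_one.trans_le Z1) e1
  have u4 : 4 * cz * C2 * Y ^ (a₀ + 1) * e + 4 * (Y ^ (a₀ + 1) * e) ≤ C * Y ^ (a₀ + 1) * e := by
    have := mul_le_mul_of_nonneg_right hC Ze.le
    linarith
  have u5 : 4 * (cz * Ej) * D ≤ 4 * cz * (B * Ej) * D := by
    rw [← mul_assoc]
    gcongr; exact le_mul_of_one_le_left (by linarith) B1
  obtain ⟨p0, p1⟩ := Fld.alg ψ s2 (e3.trans e2) s3 (by positivity : 0 < cz * Ej) fl hD.ge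
    (by linarith)
  refine ⟨p0, p1.trans ?_⟩
  have b2 : B ≤ Y ^ (a₀ + 1) := ((le_mul_of_one_le_right (by linarith) E1).trans X3).trans
    (le_self_pow₀ Y1 (by omega))
  have a2 : B * ε ≤ Y ^ (a₀ + 1) * e := mul_le_mul b2 e3 e0.le (by positivity)
  have a3 : 0 ≤ cz * (B * Ej) * D := by positivity
  linarith

end LB

theorem fldS : FldS := by
  intro E V V' X Y _ _ _ _ _ _ _ _ _ B hB r N a θ χ a₀ hθ hχ ha hI
  have := FiniteDimensional.complete ℝ V'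
  have A1 : 1 ≤ ⌈a₀⌉₊ := Nat.ceil_pos.2 (by linarith)
  refine ⟨⌈a₀⌉₊ * (a + 1), min θ 1, by nlinarith, by nlinarith, lt_min hθ one_pos, min_le_left _ _,
    min_le_right _ _, fun k => ⟨3 * a₀ * (k + 2), fun K A0 => ?_⟩⟩
  obtain ⟨K1, h1⟩ := hB.fmlF ha K (χ * (K + 1))
  refine ⟨max K1 (χ * (K + 1)), fun c => ?_⟩
  obtain ⟨C1, -, h1⟩ := h1 c A0
  obtain ⟨C2, -, h2⟩ := hB.crudeF (zero_le_one.trans ha) k c A0
  obtain ⟨C3, h3⟩ := hB.newF hθ hI ha c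
  refine ⟨max C1 (max C2 C3), 0, fun C hC j _ ψ x Θ l ε' γ hψ hs hA => ?_⟩
  have c1 := (le_max_left _ _).trans hC
  have c2 := ((le_max_left _ _).trans (le_max_right _ _)).trans hC
  have c3 := ((le_max_right _ _).trans (le_max_right _ _)).trans hC
  refine ⟨fun q hq hr => ?_, fun q hq hr hA y hy q' hq' => ?_, fun g q ρ ε b hg he => ?_,
    fun q hq hr hA => ?_, hA⟩
  · have hr' := mem_ball_zero_iff.1 hr
    have e1 : ∀ᶠ z in 𝓝 (B.gs x q), ContDiffAt ℝ ∞ Θ z :=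
      mem_of_superset (ball_mem_nhds _ (exp_pos _)) fun z hz => ((hs q hr').cr z hz).1
    have e2 := (ψ.continuous.continuousAt.comp e1.self_of_nhds.continuousAt).eventually_ne hq
    exact (e1.and e2).mono fun z hz => cda_nrm hz.1 hz.2
  · have hr' := mem_ball_zero_iff.1 hr
    exact (h1 j ψ x Θ l q hψ ((hs q hr').mono (le_max_left _ _)) hq hr' hA y hy q' hq').trans
      (mul_le_mul_of_nonneg_right c1 (exp_pos _).le)
  · exact h3 C c3 _ j ψ x Θ l hψ (fun q hq => (hs q hq).mono (le_max_right _ _)) g q ρ ε b hg he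
  · have hr' := mem_ball_zero_iff.1 hr
    exact (h2 _ j ψ x Θ l q hψ (hs q hr') hq hr' hA).trans
      (mul_le_mul_of_nonneg_right c2 (exp_pos _).le)

end Crest.Agent.N221.G0
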