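import Crest.Agent.N221.G0.LMain

/-! Row 221, block G0/L: the ladder theorem `ls : LS`. -/

set_option autoImplicit false
set_option linter.unusedSectionVars false

open Set Metric Filter Topology Real
open scoped ContDiff Nat

namespace Crest.Agent.N221.G0.L

lemma mm_ge {a : ℕ} {θ χ : ℝ} (hθ : 0 < θ) (hχ : 0 < χ) (T : ℝ) (K0 : ℕ) :
    ∃ K, K0 ≤ K ∧ T ≤ mm a θ χ (θ * χ / (8 * (a + θ))) K := by
  obtain ⟨K1, hK1⟩ := exists_nat_ge ((T + a * (1 + χ / 2)) / (θ * χ / 4))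
  refine ⟨max K0 K1, le_max_left _ _, ?_⟩
  have h1 : (K1 : ℝ) ≤ (max K0 K1 : ℕ) := by exact_mod_cast le_max_right _ _
  have h2 : (0 : ℝ) ≤ (max K0 K1 : ℕ) := Nat.cast_nonneg _
  rw [div_le_iff₀ (by positivity)] at hK1
  have h3 : (a + θ) * (θ * χ / (8 * (a + θ))) = θ * χ / 8 := by field_simp
  have h4 : 0 < θ * χ := by positivity
  unfold mm al be
  generalize ((max K0 K1 : ℕ) : ℝ) = K at *
  generalize θ * χ / (8 * (a + θ)) = e at *
  have h5 : (a + θ) * e * (K + 2) = θ * χ / 8 * (K + 2) := by rw [h3]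
  nlinarith [mul_le_mul_of_nonneg_left h1 h4.le, mul_nonneg h4.le h2]

set_option maxHeartbeats 800000 in
theorem ls : LS := by
  intro N a θ χ hθ hχ
  have a0 : (0 : ℝ) ≤ a := a.cast_nonneg
  set ε' := θ * χ / (8 * (a + θ)) with hε'd
  have hε : 0 < ε' := by positivity
  have hε' : 4 * ε' ≤ χ := by
    rw [hε'd, ← mul_div_assoc, div_le_iff₀ (by positivity)]
    nlinarith [mul_pos hθ hχ, mul_nonneg a0 hχ.le]
  refine ⟨ε', hε, fun k Λ c hc => ?_⟩
  have k0 : (0 : ℝ) ≤ k := k.cast_nonneg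
  have Λ0 := abs_nonneg Λ
  obtain ⟨K0, -, hK0⟩ := mm_ge (a := a) hθ hχ ((k + 2) * (|Λ| + χ + 2)) 0
  have m0 : 0 < mm a θ χ ε' K0 := lt_of_lt_of_le (by positivity) hK0
  have cc : ∀ K, ∃ c' : ℝ, 0 < c' ∧ c' < c K ∧ c' < χ / 2 := fun K => by
    have := hc K
    refine ⟨min (c K) (χ / 2) / 2, by positivity, ?_, ?_⟩
    · linarith [min_le_left (c K) (χ / 2)]
    · linarith [min_le_right (c K) (χ / 2)]
  obtain ⟨c', c0, c1, c2⟩ := cc K0
  obtain ⟨η, η0, η1, η2, η3⟩ : ∃ η : ℝ, 0 < η ∧ η ≤ ε' ∧ η < c' ∧ η * (k + 1) < 1 / 2 := by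
    refine ⟨min ε' (min (c' / 2) (1 / (4 * (k + 1)))), by positivity, min_le_left _ _, ?_, ?_⟩
    · linarith [(min_le_right ε' _).trans (min_le_left (c' / 2) (1 / (4 * (k + 1))))]
    · have := (min_le_right ε' _).trans (min_le_right (c' / 2) (1 / (4 * ((k : ℝ) + 1))))
      rw [le_div_iff₀ (by positivity)] at this
      linarith
  obtain ⟨n1, hn1⟩ := exists_nat_ge (al χ ε' K0 / η)
  refine ⟨max n1 (K0 + 1), fun Q P A A' X Y _ _ _ _ _ _ _ _ _ _ β h hU hF hS => ?_⟩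
  have hR : 0 < β.R := by
    obtain ⟨C, hC⟩ := hS
    obtain ⟨ρ, z, g, ρ0, -, hs, -⟩ := hC 1 one_pos
    linarith [h.sub z (hs (mem_ball_self ρ0)), norm_nonneg z.1]
  obtain ⟨C, A0, A1, r, j0, z, hC, hr, hA1, h1⟩ := h.first hR hU hχ hε hε' c1 c2 hK0 (hF K0) η0 η1
    η2 η3 (by
      have : (n1 : ℝ) ≤ (max n1 (K0 + 1) : ℕ) := by exact_mod_cast le_max_left _ _
      rw [div_le_iff₀ η0] at hn1
      nlinarith) (le_max_right _ _) hS
  choose! G hG using h1
  obtain ⟨C3, -, hl⟩ := h.lim hU hχ hε hε' m0 hC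
  have h2 := fun p (hp : p ∈ ball z r) => hl j0 p (fun j => G j p) fun j hj => (hG j hj p hp).1
  choose! w hw _ using h2
  have sO : ball z r ⊆ β.Om := fun p hp =>
    (hG j0 le_rfl p hp).1.ar.sub (mem_ball_self (hG j0 le_rfl p hp).1.ar.pos)
  have tρ : Tendsto (rho χ) atTop (𝓝 0) :=
    tendsto_exp_atBot.comp (tendsto_natCast_atTop_atTop.const_mul_atTop_of_neg (by linarith))
  refine ⟨ball z (r / 4), w, isOpen_ball, nonempty_ball.2 (by positivity),
    (ball_subset_ball (by linarith)).trans sO, fun x hx =>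
      (N221.X.contDiffOn_of_apx (Ω := ball z (r / 4)) (fun s x0 hx0 => ?_) x hx).contDiffWithinAt,
    fun p hp => ?_⟩
  · obtain ⟨K, hK, hmK⟩ := mm_ge (a := a) hθ hχ (s * (χ / 2) + 1) K0
    have s0 : (0 : ℝ) ≤ s := s.cast_nonneg
    have m1 : 0 < mm a θ χ ε' K := lt_of_lt_of_le (by positivity) hmK
    obtain ⟨d, d0, d1, d2⟩ := cc K
    obtain ⟨C', hC', hst⟩ := h.step hR hχ hε hε' d1 d2 hK hK0 (hF K) A0
    obtain ⟨C4, hC4, hl'⟩ := h.lim hU hχ hε hε' m1 hC'
    obtain ⟨C5, hC5, hc5⟩ := h.cmpL hU hχ hε hε' K hC'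
    obtain ⟨J, hJ⟩ := eventually_atTop.1 ((hst C hC).and
      ((ev 1 (half_pos hr) (show -d < 0 by linarith)).and (eventually_ge_atTop j0)))
    have h3 : ∀ j, J + 1 ≤ j → ∀ p ∈ ball z (r / 2), ∃ G', β.Lv N χ ε' K C' j p G' ∧
        ‖G' p - G (j - 1) p p‖ ≤ C' * (1 + A1) * rho χ (j - 1) := by
      intro j hj p hp
      obtain ⟨i, rfl⟩ : ∃ i, j = i + 1 := ⟨j - 1, by omega⟩
      obtain ⟨e1, e2, e3⟩ := hJ i (by omega)
      have e4 : (j0 : ℝ) ≤ i := by exact_mod_cast e3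
      simp only [zero_mul, exp_zero, mul_one, one_mul] at e2
      exact e1 p (G i) A1 (hA1.trans (exp_le_exp.2 (by linarith))) fun p' hp' =>
        hG i e3 p' (ball_subset_ball' (by rw [mem_ball] at hp; linarith) hp')
    choose! G' hG' using h3
    have h4 : ∀ p ∈ ball z (r / 2), ∀ j, J + 1 ≤ j →
        ‖G' j p p - w p‖ ≤ C4 * exp (-mm a θ χ ε' K * j) := by
      intro p hp
      obtain ⟨v, hv, hv'⟩ := hl' (J + 1) p (fun j => G' j p) fun j hj => (hG' j hj p hp).1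
      have t1 := (hw p (ball_subset_ball (by linarith) hp)).comp (tendsto_sub_atTop_nat 1)
      have t2 := (tρ.comp (tendsto_sub_atTop_nat 1)).const_mul (C' * (1 + A1))
      have := le_of_tendsto_of_tendsto (hv.sub t1).norm t2
        ((eventually_ge_atTop (J + 1)).mono fun j hj => (hG' j hj p hp).2)
      rw [mul_zero, norm_le_zero_iff, sub_eq_zero] at this
      exact this ▸ hv'
    refine ⟨K + 1, (C4 + C5) * exp (s * (χ / 2)), min (r / 8) (rho χ (J + 1)),
      lt_min (by positivity) (rho_pos _ _), fun x hx ε ε0 hε1 => ?_⟩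
    obtain ⟨b1, b2⟩ := lt_min_iff.1 hε1
    obtain ⟨j, hj, l1, l2⟩ := exists_level (half_pos hχ) ε0 b2.le
    change rho χ (j + 1) < ε at l1
    change ε ≤ rho χ j at l2
    have hx' : dist x z < r / 4 + r / 8 := by
      linarith [dist_triangle x x0 z, mem_ball.1 hx0, (mem_ball.1 hx).trans_le (min_le_left _ _)]
    have hxz : x ∈ ball z (r / 2) := by rw [mem_ball]; linarith
    have g1 := (hG' j hj x hxz).1
    refine ⟨G' j x, g1.poly.sm.contDiffOn.of_le (li _), fun y hy => ⟨?_, by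
      rw [g1.poly.zero, norm_zero, zero_mul]; positivity⟩⟩
    have hyz : y ∈ ball z (r / 2) := by
      rw [mem_ball] at hy ⊢; linarith [dist_triangle y x z]
    have r0 := rho_pos χ j
    have a1 := hc5 j j j y x y _ _ (3 * rho χ j) le_rfl (Nat.le_succ j) le_rfl (Nat.le_succ j)
      (hG' j hj y hyz).1 g1 (by linarith) (by linarith [g1.ar.le]) (ball_subset_ball (by linarith))
      (ball_subset_ball' (by rw [mem_ball] at hy; linarith)) y (mem_ball_self (by positivity))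
    have a2 := h4 y hyz j hj
    have a3 : exp (-mm a θ χ ε' K * j) ≤ exp (s * (χ / 2)) * ε ^ s := by
      have j0' : (0 : ℝ) ≤ j := j.cast_nonneg
      have r1 := rho_pos χ (j + 1)
      calc _ ≤ exp (s * (χ / 2)) * rho χ (j + 1) ^ s := by
            rw [rho, ← exp_nat_mul, ← exp_add]
            refine exp_le_exp.2 ?_
            push_cast; nlinarith
        _ ≤ _ := by gcongr
    have a4 := norm_sub_le_norm_sub_add_norm_sub (w y) (G' j y y) (G' j x y)
    rw [norm_sub_rev (w y) (G' j y y)] at a4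
    rw [mul_assoc]
    linarith [mul_le_mul_of_nonneg_left a3 (add_nonneg hC4 hC5)]
  · have hp' : p ∈ ball z r := ball_subset_ball (by linarith) hp
    have t1 : Tendsto (fun j => ‖β.df p (G j p p)‖) atTop (𝓝 ‖β.df p (w p)‖) :=
      ((((β.D p).continuous.tendsto _).comp (hw p hp')).sub_const _).norm
    have al0 : 0 < al χ ε' K0 := by
      have : 0 ≤ a * (be ε' K0 + 1 + χ / 2) := by unfold be; positivity
      exact pos_of_mul_pos_left (by unfold mm at m0; linarith) hθ.le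
    have t2 : Tendsto (fun j : ℕ => C * exp (-al χ ε' K0 * j)) atTop (𝓝 (C * 0)) :=
      (tendsto_exp_atBot.comp (tendsto_natCast_atTop_atTop.const_mul_atTop_of_neg
        (by linarith))).const_mul C
    have := le_of_tendsto_of_tendsto t1 t2 ((eventually_ge_atTop j0).mono fun j hj =>
      (hG j hj p hp').1.ar.df p (mem_ball_self (hG j hj p hp').1.ar.pos))
    rwa [mul_zero, norm_le_zero_iff, Box.df, sub_eq_zero] at this

end Crest.Agent.N221.G0.L
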