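import Crest.Agent.N221.G0.Top

/-! Row 221, block G0 (helper67): `BxS`, the box of the ladder satisfies its axioms. -/

set_option autoImplicit false
set_option linter.unusedSectionVars false

open Set Metric Filter Topology
open scoped ContDiff

noncomputable section

namespace Crest.Agent.N221.G0

namespace Sm1

variable {E W : Type} [NormedAddCommGroup E] [NormedSpace ℝ E] [NormedAddCommGroup W]
  [NormedSpace ℝ W] {S : Sy E W}

lemma r1_le (h : S.Ok) : 12 * S.r1 ≤ S.R := by nlinarith [h.r1R, h.r1p, h.b01]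

lemma R_pos (h : S.Ok) : 0 < S.R := by linarith [r1_le h, h.r1p]

lemma R_le (h : S.Ok) : 8 * S.R ≤ S.R0 := by nlinarith [h.RR0, R_pos h, h.b01]

lemma b0_r2 (h : S.Ok) : S.b0 * S.r2 = S.r1 / 8 := by
  have := h.b01
  rw [Sy.r2]
  field_simp

lemma r2_pos (h : S.Ok) : 0 < S.r2 := by
  have := h.b01
  have := h.r1p
  rw [Sy.r2]
  positivity

lemma r2_le (h : S.Ok) : S.r2 ≤ S.r1 / 8 := by nlinarith [b0_r2 h, r2_pos h, h.b01]

/-- the graphs are `b0`-Lipschitz -/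
lemma g_lip (h : S.Ok) (i : Bool) (f : S.F) {z : E × E} (hz : ‖z‖ < S.R0) {y y' : E}
    (hy : y ∈ ball (0 : E) S.R0) (hy' : y' ∈ ball (0 : E) S.R0) :
    ‖S.g i f z y - S.g i f z y'‖ ≤ S.b0 * ‖y - y'‖ :=
  (convex_ball (0 : E) S.R0).norm_image_sub_le_of_norm_fderiv_le (𝕜 := ℝ)
    (fun x hx => (h.g_jet i f z hz x hx).1.differentiableAt (by simp))
    (h.g_slope i f z hz) hy' hy

/-- points of the working region label plaques of offset `r1 / 4` -/
lemma pq_of_small (h : S.Ok) (i : Bool) (f : S.F) {z : E × E} (hz : ‖z‖ < S.r2) :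
    S.Pq i f z (S.r1 / 4) := by
  have h1 := r1_le h
  have h2 := R_le h
  have h3 := r2_le h
  have h4 := h.r1p
  have hz0 : ‖z‖ < S.R0 := by linarith
  have h5 := g_lip h i f hz0 (y := 0) (y' := z.1) (mem_ball_self (by linarith))
    (mem_ball_zero_iff.2 ((norm_fst_le z).trans_lt hz0))
  rw [h.g_self i f z hz0, zero_sub, norm_neg] at h5
  have h6 : S.b0 * ‖z.1‖ ≤ S.r1 / 8 := by
    rw [← b0_r2 h]
    exact mul_le_mul_of_nonneg_left ((norm_fst_le z).trans hz.le) (by linarith [h.b01])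
  refine ⟨hz0, ?_⟩
  linarith [norm_sub_norm_le (S.g i f z 0) z.2, norm_snd_le z]

lemma pq_mono {i : Bool} {f : S.F} {z : E × E} {ρ ρ' : ℝ} (h : S.Pq i f z ρ) (e : ρ ≤ ρ') :
    S.Pq i f z ρ' := ⟨h.1, h.2.trans e⟩

/-- plaques stay in the box -/
lemma pt_mem (h : S.Ok) {i : Bool} {f : S.F} {z : E × E} (hz : S.Pq i f z S.r1) {y : E}
    (hy : y ∈ ball (0 : E) S.R) : ‖S.pt i f z y‖ < S.R0 := by
  have h1 := r1_le h
  have h2 := R_le h
  have h3 := R_pos h
  have hy' := mem_ball_zero_iff.1 hy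
  have h5 := g_lip h i f hz.1 (y := y) (y' := 0) (mem_ball_zero_iff.2 (by linarith))
    (mem_ball_self (by linarith))
  rw [sub_zero] at h5
  have h6 : S.b0 * ‖y‖ ≤ S.b0 * S.R := mul_le_mul_of_nonneg_left hy'.le (by linarith [h.b01])
  rw [Sy.pt, Prod.norm_def]
  refine max_lt (by linarith) ?_
  linarith [norm_sub_norm_le (S.g i f z y) (S.g i f z 0), hz.2, h.RR0]

lemma ub_of_uj {ι X Y : Type} [NormedAddCommGroup X] [NormedSpace ℝ X] [NormedAddCommGroup Y]
    [NormedSpace ℝ Y] {c : ℕ → ℝ} (hc : ∀ k, 1 ≤ c k) {U : ι → Set X} (hU : ∀ i, IsOpen (U i))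
    {φ : ι → X → Y} (h : ∀ i, ∀ x ∈ U i, UJ c (φ i) x) : Ex.UB U φ :=
  ⟨hU, fun i x hx => (h i x hx).1.contDiffWithinAt,
    fun k => ⟨c k, by linarith [hc k], fun i x hx => (h i x hx).2 k⟩⟩

lemma ub_prodL {ι X A B D : Type} [NormedAddCommGroup X] [NormedSpace ℝ X] [NormedAddCommGroup A]
    [NormedSpace ℝ A] [NormedAddCommGroup B] [NormedSpace ℝ B] [NormedAddCommGroup D]
    [NormedSpace ℝ D] {U : ι → Set X} {φ : ι → X → A →L[ℝ] B} (h : Ex.UB U φ) (ψ : A →L[ℝ] D) :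
    Ex.UB U fun i x => (φ i x).prod ψ :=
  (h.prod (Ex.UB.const (c := fun _ => ψ) h.op fun _ => le_rfl)).clm
    (ContinuousLinearMap.prodₗᵢ ℝ).toContinuousLinearEquiv.toContinuousLinearMap

end Sm1

open Sm1 in
theorem bxS : BxS := by
  intro E W _ _ _ _ _ _ S h n f ψ
  have h1 := r1_le h
  have h2 := R_le h
  have h3 := r2_le h
  have h4 := h.r1p
  have hsub : ball (0 : E) S.R ⊆ ball 0 S.R0 := ball_subset_ball (by linarith)
  have hpq : ∀ i, ∀ z ∈ ball (0 : E × E) S.r2, S.Pq i f z S.r1 := fun i z hz =>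
    pq_mono (pq_of_small h i f (mem_ball_zero_iff.1 hz)) (by linarith)
  refine ⟨fun z hz => ?_, ?_, ?_, ?_, ?_, fun z hz => ?_, S.b0, S.r1, h4, fun z hz => ?_⟩
  · have h5 : ‖z‖ < S.r2 := mem_ball_zero_iff.1 hz
    show ‖z.1‖ < S.R / 2
    linarith [norm_fst_le z]
  · exact ub_of_uj h.c1 (fun _ => isOpen_ball) fun x y hy => h.g_jet false f x x.2.1 y (hsub hy)
  · exact ub_of_uj h.c1 (fun _ => isOpen_ball) fun x y hy => h.g_jet true f x x.2.1 y (hsub hy)
  · choose ν hν using fun x : {z // S.Pq true f z S.r1} => h.M_jet f x x.2.1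
    have h5 : Ex.UB (fun _ => ball (0 : E) S.R) ν :=
      ub_of_uj h.c1 (fun _ => isOpen_ball) fun x y hy => (hν x y (hsub hy)).1
    have h6 : Ex.UB (fun _ => ball (0 : E) S.R)
        fun (x : {z // S.Pq true f z S.r1}) y => S.M f (S.pt true f x y) :=
      h5.congr fun x y hy => (hν x y (hsub hy)).2 (pt_mem h x.2 hy)
    exact ub_prodL (h6.clm (ioW n)) ψ
  · exact Ex.UB.const (c := fun _ => ((0, 1) : Vf W n × ℝ)) (fun _ => isOpen_ball) fun _ => le_rfl
  · exact ⟨⟨z, hpq false z hz⟩, h.g_self false f z (hpq false z hz).1⟩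
  · have h5 : ‖z‖ < S.r2 := mem_ball_zero_iff.1 hz
    have h6 := h.g_self true f z (hpq true z hz).1
    refine ⟨⟨z, hpq true z hz⟩, h6, fun x hx => ?_⟩
    have hx' : ‖S.g false f x z.1 - z.2‖ < S.r1 := hx
    obtain ⟨q, hq1, hq2⟩ := h.int f x z z.1 x.2.1 (hpq true z hz).1 (by linarith [norm_fst_le z])
      (by rw [h6, norm_sub_rev]; exact hx'.le)
    rw [h6, norm_sub_rev z.2] at hq2
    exact ⟨q, hq1, hq2⟩

end Crest.Agent.N221.G0
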