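import Crest.Agent.N221.G0.One
import Crest.Agent.N221.G0.Sm1

/-! Row 221, block G0 (helper62): `LbS`, the line box of a system. -/

set_option autoImplicit false
set_option linter.unusedSectionVars false

open Set Metric Filter Topology
open scoped ContDiff

noncomputable section

namespace Crest.Agent.N221.G0

namespace Lb

open Sm1

variable {E W : Type} [NormedAddCommGroup E] [NormedSpace ℝ E] [NormedAddCommGroup W]
  [NormedSpace ℝ W] {S : Sy E W}

/-- points of the doubled working region label plaques of offset `r1 / 2` -/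
lemma pq_two (h : S.Ok) (i : Bool) (f : S.F) {z : E × E} (hz : ‖z‖ < 2 * S.r2) :
    S.Pq i f z (S.r1 / 2) := by
  have h1 := r1_le h
  have h2 := R_le h
  have h3 := r2_le h
  have h4 := h.r1p
  have hz0 : ‖z‖ < S.R0 := by linarith
  have h5 := g_lip h i f hz0 (y := 0) (y' := z.1) (mem_ball_self (by linarith))
    (mem_ball_zero_iff.2 ((norm_fst_le z).trans_lt hz0))
  rw [h.g_self i f z hz0, zero_sub, norm_neg] at h5
  have h6 : S.b0 * ‖z.1‖ ≤ S.b0 * (2 * S.r2) :=
    mul_le_mul_of_nonneg_left ((norm_fst_le z).trans hz.le) (by linarith [h.b01])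
  refine ⟨hz0, ?_⟩
  linarith [norm_sub_norm_le (S.g i f z 0) z.2, norm_snd_le z, b0_r2 h]

lemma ok (h : S.Ok) (n : ℕ) (f : S.F) : (S.lb n f).Ok := by
  have h1 := r1_le h
  have h2 := R_le h
  have h3 := r2_le h
  have h4 := h.r1p
  have hsub : ball (0 : E) S.R ⊆ ball 0 S.R0 := ball_subset_ball (by linarith)
  refine ⟨r2_pos h, ?_, ?_, ?_, ?_, ?_, fun z hz => ?_⟩
  · show 4 * S.r2 ≤ S.R
    linarith
  · show S.R ≤ 1
    linarith [h.R01]
  · exact ub_of_uj h.c1 (fun _ => isOpen_ball) fun x y hy => h.g_jet false f x x.2.1 y (hsub hy)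
  · exact ub_of_uj h.c1 (fun _ => isOpen_ball) fun x y hy => h.g_jet true f x x.2.1 y (hsub hy)
  · choose ν hν using fun x : {z // S.Pq true f z S.r1} => h.M_jet f x x.2.1
    have h5 : Ex.UB (fun _ => ball (0 : E) S.R) ν :=
      ub_of_uj h.c1 (fun _ => isOpen_ball) fun x y hy => (hν x y (hsub hy)).1
    have h6 : Ex.UB (fun _ => ball (0 : E) S.R)
        fun (x : {z // S.Pq true f z S.r1}) y => S.M f (S.pt true f x y) :=
      h5.congr fun x y hy => (hν x y (hsub hy)).2 (pt_mem h x.2 hy)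
    have h7 := h6.clm (W := Vf W (n + 1) →L[ℝ] Vf W n) (ioW n)
    exact h7
  · have h5 := pq_two h false f hz
    exact ⟨⟨z, pq_mono h5 (by linarith)⟩, h.g_self false f z h5.1⟩

/-- a relation of the line box is a relation of the system -/
lemma sr (h : S.Ok) {n N : ℕ} {f : S.F} {x : {z // S.Pq false f z S.r1}}
    {Θ : E → Vf W (n + 1)} {q : E} {ρ ε b : ℝ} (hΘ : (S.lb n f).SR N x Θ q ρ ε b) :
    S.SR n N f (S.pt false f x q) Θ ρ ε b := by
  have h1 := r1_le h
  have h2 := R_le h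
  have h3 := r2_le h
  have h4 := h.r1p
  have h5 : ‖S.pt false f x q‖ < 2 * S.r2 := hΘ.mem
  have h6 := h.g_lab false f x q x.2.1 (by linarith)
  refine ⟨by linarith, hΘ.pos, hΘ.le, hΘ.one, hΘ.sm, fun y hy => ?_, hΘ.bd⟩
  rw [Sy.pt, h6]
  exact hΘ.df y hy

end Lb

theorem lbS : LbS := by
  intro E W _ _ _ _ _ _ S h n f
  refine ⟨Lb.ok h n f, fun N a θ ⟨C, hC⟩ => ⟨C, fun x Θ Θ' q ρ ε b h1 h2 ψ hψ => ?_⟩⟩
  exact hC f _ Θ Θ' ρ ε b (Lb.sr h h1) (Lb.sr h h2) ψ hψ

end Crest.Agent.N221.G0
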