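import Mathlib

/-!
Row 221, block G0/UQ (helper47): the algebra of forms.  `Al W r` = `r`-forms, `io v` = contraction
with `v`, `ev e` = value at a tuple, `lam e k Θ = Θ (e_1, .., ·, .., e_r)`, `wg l Θ = l ∧ Θ`.
`plk`: if `lam e k Θ ∧ Δ` is small for all `k` and `Δ e = 0` then `|Θ e| ^ r ‖Δ‖` is small.
-/

set_option autoImplicit false

open Set Function Finset

noncomputable section

namespace Crest.Agent.N221.G0.Uq

variable {W : Type} [NormedAddCommGroup W] [NormedSpace ℝ W] {n r : ℕ}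

/-- `r`-forms -/
abbrev Al (W : Type) [NormedAddCommGroup W] [NormedSpace ℝ W] (r : ℕ) := W [⋀^Fin r]→L[ℝ] ℝ

/-- contraction -/
def io (n : ℕ) (v : W) : Al W (n + 1) →L[ℝ] Al W n :=
  (ContinuousLinearMap.apply ℝ (Al W n) v).comp
    (ContinuousAlternatingMap.curryLeftLI (𝕜 := ℝ) (E := W) (F := ℝ) (n := n)).toContinuousLinearMap

@[simp] lemma io_eq (v : W) (Θ : Al W (n + 1)) : io n v Θ = Θ.curryLeft v := rfl

lemma io_apply (v : W) (Θ : Al W (n + 1)) (c : Fin n → W) :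
    io n v Θ c = Θ (Matrix.vecCons v c) := rfl

/-- contraction, linear in the vector -/
def ioL (n : ℕ) : W →L[ℝ] Al W (n + 1) →L[ℝ] Al W n :=
  (ContinuousAlternatingMap.curryLeftLI (𝕜 := ℝ) (E := W) (F := ℝ)
    (n := n)).toContinuousLinearMap.flip

@[simp] lemma ioL_apply (v : W) : ioL n v = io n v := rfl

lemma io_le (v : W) (Θ : Al W (n + 1)) : ‖io n v Θ‖ ≤ ‖Θ‖ * ‖v‖ := by
  have := Θ.curryLeft.le_opNorm v
  rwa [ContinuousAlternatingMap.norm_curryLeft] at this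

omit [NormedSpace ℝ W] in
lemma prod_le_one' {c : Fin r → W} (h : ∀ i, ‖c i‖ ≤ 1) : ∏ i, ‖c i‖ ≤ 1 :=
  prod_le_one (fun _ _ => norm_nonneg _) fun i _ => h i

lemma val_le (Θ : Al W r) {c : Fin r → W} (h : ∀ i, ‖c i‖ ≤ 1) : |Θ c| ≤ ‖Θ‖ :=
  (Θ.le_opNorm c).trans (mul_le_of_le_one_right (norm_nonneg _) (prod_le_one' h))

lemma norm_le_unit (Θ : Al W r) {C : ℝ} (hC : 0 ≤ C)
    (h : ∀ c : Fin r → W, (∀ i, ‖c i‖ ≤ 1) → |Θ c| ≤ C) : ‖Θ‖ ≤ C := by
  refine Θ.opNorm_le_bound hC fun m => ?_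
  by_cases h0 : ∃ i, m i = 0
  · obtain ⟨i, hi⟩ := h0
    rw [Θ.map_coord_zero i hi, norm_zero]
    positivity
  · push Not at h0
    have e : m = fun i => ‖m i‖ • (‖m i‖⁻¹ • m i) := by
      funext i
      rw [smul_smul, mul_inv_cancel₀ (norm_ne_zero_iff.2 (h0 i)), one_smul]
    have h1 := h (fun i => ‖m i‖⁻¹ • m i) fun i => by
      rw [norm_smul, norm_inv, norm_norm, inv_mul_cancel₀ (norm_ne_zero_iff.2 (h0 i))]
    have h2 : Θ m = (∏ i, ‖m i‖) • Θ fun i => ‖m i‖⁻¹ • m i := by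
      rw [← Θ.map_smul_univ, ← e]
    have h3 : 0 ≤ ∏ i, ‖m i‖ := prod_nonneg fun i _ => norm_nonneg _
    rw [h2, norm_smul, Real.norm_of_nonneg h3, mul_comm]
    exact mul_le_mul_of_nonneg_right h1 h3

/-- a tuple in the unit ball that almost realises the norm -/
lemma exists_tuple (Θ : Al W r) : ∃ e : Fin r → W, (∀ i, ‖e i‖ ≤ 1) ∧ ‖Θ‖ ≤ 2 * |Θ e| := by
  by_contra h
  push Not at h
  have h0 : 0 < ‖Θ‖ := lt_of_le_of_lt (by positivity) (h 0 (by simp))
  have := norm_le_unit Θ (C := ‖Θ‖ / 2) (by positivity) fun c hc => by linarith [h c hc]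
  linarith

/-- value at a tuple -/
def ev (e : Fin r → W) : Al W r →L[ℝ] ℝ :=
  (ContinuousMultilinearMap.apply ℝ (fun _ : Fin r => W) ℝ e).comp
    (ContinuousAlternatingMap.toContinuousMultilinearMapLI (𝕜 := ℝ) (E := W) (F := ℝ)
      (ι := Fin r)).toContinuousLinearMap

@[simp] lemma ev_apply (e : Fin r → W) (Θ : Al W r) : ev e Θ = Θ e := rfl

lemma norm_ev {e : Fin r → W} (h : ∀ i, ‖e i‖ ≤ 1) : ‖ev e‖ ≤ 1 :=
  ContinuousLinearMap.opNorm_le_bound _ zero_le_one fun Θ => by simpa using val_le Θ h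

lemma upd_le (Θ : Al W r) {e : Fin r → W} (h : ∀ i, ‖e i‖ ≤ 1) (k : Fin r) (u : W) :
    |Θ (update e k u)| ≤ ‖Θ‖ * ‖u‖ := by
  refine (Θ.le_opNorm _).trans (mul_le_mul_of_nonneg_left ?_ (norm_nonneg _))
  rw [← mul_prod_erase _ _ (mem_univ k), update_self]
  refine mul_le_of_le_one_right (norm_nonneg _) (prod_le_one (fun _ _ => norm_nonneg _) ?_)
  intro i hi
  rw [update_of_ne (ne_of_mem_erase hi)]
  exact h i

/-- the covector `Θ (e_1, .., ·, .., e_r)` -/
def lam (e : Fin r → W) (k : Fin r) : Al W r →L[ℝ] W →L[ℝ] ℝ :=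
  LinearMap.mkContinuous₂
    (LinearMap.mk₂ ℝ (fun (Θ : Al W r) (u : W) => Θ (update e k u)) (fun _ _ _ => rfl)
      (fun _ _ _ => rfl) (fun Θ _ _ => Θ.map_update_add _ _ _ _)
      fun _ Θ _ => Θ.map_update_smul _ _ _ _) (∏ i ∈ univ.erase k, ‖e i‖) fun Θ u => by
    refine (Θ.le_opNorm _).trans_eq ?_
    rw [← mul_prod_erase _ _ (mem_univ k), update_self,
      prod_congr rfl fun i hi => by rw [update_of_ne (ne_of_mem_erase hi)]]
    ring

@[simp] lemma lam_apply (e : Fin r → W) (k : Fin r) (Θ : Al W r) (u : W) :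
    lam e k Θ u = Θ (update e k u) := rfl

lemma lam_le {e : Fin r → W} (h : ∀ i, ‖e i‖ ≤ 1) (k : Fin r) (Θ : Al W r) : ‖lam e k Θ‖ ≤ ‖Θ‖ :=
  ContinuousLinearMap.opNorm_le_bound _ (norm_nonneg _) fun u => upd_le Θ h k u

lemma norm_lam {e : Fin r → W} (h : ∀ i, ‖e i‖ ≤ 1) (k : Fin r) : ‖lam e k‖ ≤ 1 :=
  ContinuousLinearMap.opNorm_le_bound _ zero_le_one fun Θ => by simpa using lam_le h k Θ

lemma lam_self (e : Fin r → W) (k : Fin r) (Θ : Al W r) : lam e k Θ (e k) = Θ e := by simp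

lemma lam_ne (e : Fin r → W) {k l : Fin r} (h : l ≠ k) (Θ : Al W r) : lam e k Θ (e l) = 0 :=
  Θ.map_eq_zero_of_eq _ (i := k) (j := l) (by rw [update_self, update_of_ne h]) h.symm

lemma upd_eq (Θ : Al W (n + 1)) (c : Fin (n + 1) → W) (k : Fin (n + 1)) (u : W) :
    Θ (update c k u) = (-1) ^ (k : ℕ) * io n u Θ (k.removeNth c) := by
  rw [← Fin.insertNth_removeNth, Θ.map_insertNth, io_apply]
  simp

/-- `lam e k Θ` kills what `Θ` kills -/
lemma lam_io {e : Fin (n + 1) → W} (h : ∀ i, ‖e i‖ ≤ 1) (k : Fin (n + 1)) (Θ : Al W (n + 1))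
    (v : W) : |lam e k Θ v| ≤ ‖io n v Θ‖ := by
  rw [lam_apply, upd_eq, abs_mul, abs_pow, abs_neg, abs_one, one_pow, one_mul]
  exact val_le _ fun i => h _

/-- exterior product with a covector -/
def wg (r : ℕ) : (W →L[ℝ] ℝ) →L[ℝ] Al W r →L[ℝ] Al W (r + 1) :=
  (ContinuousLinearMap.compL ℝ (Al W r) (W →L[ℝ] Al W r) (Al W (r + 1))
    (ContinuousAlternatingMap.alternatizeUncurryFinCLM ℝ W ℝ)).comp
      (ContinuousLinearMap.smulRightL ℝ W (Al W r))

lemma wg_eq (l : W →L[ℝ] ℝ) (Θ : Al W r) :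
    wg r l Θ = ContinuousAlternatingMap.alternatizeUncurryFin (l.smulRight Θ) := rfl

lemma wg_le (l : W →L[ℝ] ℝ) (Θ : Al W r) : ‖wg r l Θ‖ ≤ (r + 1) * (‖l‖ * ‖Θ‖) := by
  rw [wg_eq, ← ContinuousLinearMap.norm_smulRight_apply]
  exact ContinuousAlternatingMap.norm_alternatizeUncurryFin_le _

lemma wg_cons (l : W →L[ℝ] ℝ) (Θ : Al W (n + 1)) (u : W) (c : Fin (n + 1) → W) :
    wg (n + 1) l Θ (Matrix.vecCons u c) = l u * Θ c - ∑ i, l (c i) * Θ (update c i u) := by
  rw [wg_eq, ContinuousAlternatingMap.alternatizeUncurryFin_apply, Fin.sum_univ_succ,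
    sub_eq_add_neg, ← sum_neg_distrib]
  congr 1
  · simp [Matrix.vecCons]
  · refine sum_congr rfl fun i _ => ?_
    rw [upd_eq, io_apply]
    have : Fin.removeNth i.succ (Matrix.vecCons u c) = Matrix.vecCons u (i.removeNth c) := by
      funext j
      refine Fin.cases ?_ (fun j => ?_) j <;> simp [Fin.removeNth]
    rw [this]
    simp [pow_succ]
    ring

/-- contraction of a product -/
lemma io_wg (l : W →L[ℝ] ℝ) (Θ : Al W (n + 1)) (v : W) :
    ‖io (n + 1) v (wg (n + 1) l Θ)‖ ≤ |l v| * ‖Θ‖ + (n + 1) * (‖l‖ * ‖io n v Θ‖) := by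
  refine norm_le_unit _ (by positivity) fun c hc => ?_
  rw [io_apply, wg_cons]
  refine (abs_sub _ _).trans (add_le_add ?_ ((abs_sum_le_sum_abs _ _).trans ?_))
  · rw [abs_mul]
    exact mul_le_mul_of_nonneg_left (val_le _ hc) (abs_nonneg _)
  · refine (sum_le_card_nsmul _ _ (‖l‖ * ‖io n v Θ‖) fun i _ => ?_).trans_eq (by simp)
    rw [abs_mul]
    exact mul_le_mul ((l.le_opNorm _).trans (mul_le_of_le_one_right (norm_nonneg _) (hc i)))
      (lam_io hc i Θ v) (abs_nonneg _) (norm_nonneg _)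

lemma perm_zero {Δ : Al W r} {e : Fin r → W} (h : Δ e = 0) (σ : Fin r → Fin r) :
    Δ (fun i => e (σ i)) = 0 := by
  by_cases hσ : Injective σ
  · have := Δ.toAlternatingMap.map_perm e (Equiv.ofBijective σ hσ.bijective_of_finite)
    have h' : Δ.toAlternatingMap e = 0 := h
    rw [h', smul_zero] at this
    exact this
  · exact Δ.map_eq_zero_of_not_injective _ fun h => hσ (Injective.of_comp h)

/-- approximate Plücker relations -/
lemma plk_aux {Θ Δ : Al W (n + 1)} {e : Fin (n + 1) → W} (he : ∀ i, ‖e i‖ ≤ 1) (h0 : Δ e = 0)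
    {η B : ℝ} (hB : 1 ≤ B) (hΘ : ‖Θ‖ ≤ B) (hη : ∀ k, ‖wg (n + 1) (lam e k Θ) Δ‖ ≤ η) (j : ℕ) :
    ∀ (S : Finset (Fin (n + 1))) (σ : Fin (n + 1) → Fin (n + 1)) (c : Fin (n + 1) → W),
      n + 1 ≤ S.card + j → (∀ i, ‖c i‖ ≤ 1) → (∀ i ∈ S, c i = e (σ i)) →
      |Θ e| ^ j * |Δ c| ≤ ((n + 2) * B) ^ j * η := by
  have η0 : 0 ≤ η := (norm_nonneg _).trans (hη 0)
  have full : ∀ (S : Finset (Fin (n + 1))) (σ : Fin (n + 1) → Fin (n + 1)) (c : Fin (n + 1) → W),
      n + 1 ≤ S.card → (∀ i ∈ S, c i = e (σ i)) → Δ c = 0 := by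
    intro S σ c hS hc
    have : S = Finset.univ := eq_univ_of_card S (le_antisymm (card_le_univ S) (by simpa using hS))
    rw [show c = fun i => e (σ i) from funext fun i => hc i (this ▸ mem_univ i)]
    exact perm_zero h0 σ
  induction j with
  | zero =>
    intro S σ c hS _ hc
    simp [full S σ c hS hc, η0]
  | succ j ih =>
    intro S σ c hS hc1 hc
    by_cases hf : n + 1 ≤ S.card
    · rw [full S σ c hf hc, abs_zero, mul_zero]
      positivity
    obtain ⟨k, hk⟩ : ∃ k, k ∉ S.image σ := by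
      by_contra h
      push Not at h
      have : (S.image σ).card = n + 1 := by rw [Finset.eq_univ_of_forall h]; simp
      have := card_image_le (s := S) (f := σ)
      omega
    have x0 := abs_nonneg (Θ e)
    have xB : |Θ e| ≤ B := (val_le _ he).trans hΘ
    have e1 := wg_cons (lam e k Θ) Δ (e k) c
    have e2 : |wg (n + 1) (lam e k Θ) Δ (Matrix.vecCons (e k) c)| ≤ η :=
      (val_le _ fun i => Fin.cases (by simpa using he k) (fun i => by simpa using hc1 i) i).trans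
        (hη k)
    rw [lam_self] at e1
    have e3 : ∀ i, |Θ e| ^ j * |lam e k Θ (c i) * Δ (update c i (e k))| ≤
        B * (((n + 2) * B) ^ j * η) := by
      intro i
      by_cases hi : i ∈ S
      · rw [hc i hi, lam_ne e (fun h => hk (mem_image.2 ⟨i, hi, h⟩)), zero_mul, abs_zero, mul_zero]
        positivity
      · have := ih (insert i S) (update σ i k) (update c i (e k))
          (by rw [card_insert_of_notMem hi]; omega)
          (fun l => by
            by_cases hl : l = i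
            · rw [hl, update_self]; exact he k
            · rw [update_of_ne hl]; exact hc1 l)
          (fun l hl => by
            by_cases hl' : l = i
            · rw [hl', update_self, update_self]
            · rw [update_of_ne hl', update_of_ne hl']
              exact hc l ((mem_insert.1 hl).resolve_left hl'))
        have h1 : |lam e k Θ (c i)| ≤ B := (upd_le Θ he k _).trans
          ((mul_le_of_le_one_right (norm_nonneg _) (hc1 i)).trans hΘ)
        rw [abs_mul, mul_left_comm]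
        exact mul_le_mul h1 this (by positivity) (by positivity)
    have e4 : |Θ e| ^ j * |∑ i, lam e k Θ (c i) * Δ (update c i (e k))| ≤
        (n + 1) * (B * (((n + 2) * B) ^ j * η)) := by
      refine (mul_le_mul_of_nonneg_left (abs_sum_le_sum_abs _ _) (by positivity)).trans ?_
      rw [mul_sum]
      exact (sum_le_card_nsmul _ _ _ fun i _ => e3 i).trans_eq (by simp)
    have e5 : |Θ e| * |Δ c| ≤ η + |∑ i, lam e k Θ (c i) * Δ (update c i (e k))| := by
      rw [← abs_mul, eq_add_of_sub_eq e1.symm]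
      exact (abs_add_le _ _).trans (add_le_add_left e2 _)
    have e6 : |Θ e| ^ j ≤ ((n + 2) * B) ^ j :=
      pow_le_pow_left₀ x0 (xB.trans (le_mul_of_one_le_left (by positivity)
        (by linarith [(n.cast_nonneg : (0 : ℝ) ≤ n)]))) j
    have e7 : ((n + 2) * B) ^ j * η ≤ B * (((n + 2) * B) ^ j * η) :=
      le_mul_of_one_le_left (by positivity) hB
    calc |Θ e| ^ (j + 1) * |Δ c| = |Θ e| ^ j * (|Θ e| * |Δ c|) := by ring
      _ ≤ |Θ e| ^ j * (η + |∑ i, lam e k Θ (c i) * Δ (update c i (e k))|) :=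
        mul_le_mul_of_nonneg_left e5 (by positivity)
      _ ≤ B * (((n + 2) * B) ^ j * η) + (n + 1) * (B * (((n + 2) * B) ^ j * η)) := by
        rw [mul_add]
        exact add_le_add ((mul_le_mul_of_nonneg_right e6 η0).trans e7) e4
      _ = _ := by ring

theorem plk {Θ Δ : Al W (n + 1)} {e : Fin (n + 1) → W} (he : ∀ i, ‖e i‖ ≤ 1) (h0 : Δ e = 0)
    {η B : ℝ} (hB : 1 ≤ B) (hΘ : ‖Θ‖ ≤ B) (hη : ∀ k, ‖wg (n + 1) (lam e k Θ) Δ‖ ≤ η) :
    |Θ e| ^ (n + 1) * ‖Δ‖ ≤ ((n + 2) * B) ^ (n + 1) * η := by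
  have η0 : 0 ≤ η := (norm_nonneg _).trans (hη 0)
  rcases (abs_nonneg (Θ e)).eq_or_lt with h | h
  · rw [← h, zero_pow (by omega), zero_mul]
    positivity
  · rw [mul_comm, ← le_div_iff₀ (by positivity)]
    refine norm_le_unit _ (by positivity) fun c hc => ?_
    rw [le_div_iff₀ (by positivity), mul_comm]
    exact plk_aux he h0 hB hΘ hη (n + 1) ∅ id c (by simp) hc (by simp)

end Crest.Agent.N221.G0.Uq
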