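import Crest.Agent.N221.G0.Top
import Crest.Agent.N221.G0.UqA

/-! Row 221, block G0 (helper93): maximality `mxS : MxS`. -/

set_option autoImplicit false

open Set Metric Filter Topology Function
open scoped ContDiff

noncomputable section

namespace Crest.Agent.N221.G0

variable {E W : Type} [NormedAddCommGroup E] [NormedSpace ℝ E] [FiniteDimensional ℝ E]
  [NormedAddCommGroup W] [NormedSpace ℝ W] {S : Sy E W}

/-- `NR` with `ε = 0`: the germ of an exact relation vanishes -/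
lemma Sy.NR.exact {n : ℕ} (h : S.NR n) {f : S.F} {z : E × E} (hz : ‖z‖ ≤ S.R / 2)
    {Ψ : E → Vf W (n + 1)} (hΨ : ∀ᶠ y in 𝓝 z.1, ContDiffAt ℝ ∞ Ψ y ∧
      S.io n f (S.pt false f z y) (Ψ y) = 0) : Ψ z.1 = 0 := by
  obtain ⟨N, a, θ, C, hθ, h⟩ := h
  obtain ⟨ρ, hρ, hb⟩ := Metric.eventually_nhds_iff_ball.1 hΨ
  have := FiniteDimensional.proper_real E
  have h1 : ContDiffOn ℝ ∞ Ψ (ball z.1 ρ) := fun y hy => (hb y hy).1.contDiffWithinAt
  have h2 : ball z.1 (min (ρ / 2) 1) ⊆ closedBall z.1 (ρ / 2) :=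
    ball_subset_closedBall.trans (closedBall_subset_closedBall (min_le_left _ _))
  have h3 : closedBall z.1 (ρ / 2) ⊆ ball z.1 ρ := closedBall_subset_ball (by linarith)
  obtain ⟨B, hB, hbd⟩ := (Ex.UB.of_compact (ι := Unit) (U := fun _ => ball z.1 (min (ρ / 2) 1))
    isOpen_ball h1 (isCompact_closedBall _ _) h3 (fun _ => isOpen_ball) fun _ => h2).bdn N
  have := h f z Ψ _ 0 B ⟨hz, by positivity, min_le_right _ _, hB, h1.mono (h2.trans h3),
    fun y hy => by rw [(hb y (h3 (h2 hy))).2, norm_zero], fun y hy i hi => hbd i hi () y hy⟩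
  rwa [Real.zero_rpow hθ.ne', mul_zero, norm_le_zero_iff] at this

omit [FiniteDimensional ℝ E] in
lemma Sy.Ok.r2_le (h : S.Ok) : S.r2 ≤ S.R / 2 := by
  have := h.b01; have := h.r1p; have := h.r1R
  rw [Sy.r2, div_le_iff₀ (by positivity)]
  nlinarith [mul_nonneg (sub_nonneg.2 h.b01) (show 0 ≤ S.R by nlinarith)]

theorem mxS : MxS := by
  rintro E W _ _ _ _ _ _ S hS n f ψ hN ⟨U, w, hU, ⟨z0, hz0⟩, hsub, hw, hD⟩
  have h0 : ∀ z ∈ U, Uq.io n (S.M f z) (w z) = 0 := fun z hz => congrArg Prod.fst (hD z hz)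
  have h1 : w z0 ≠ 0 := fun e => by
    have : ψ (w z0) = 1 := congrArg Prod.snd (hD z0 hz0)
    simp [e] at this
  obtain ⟨e, he, h2⟩ := Uq.exists_tuple (w z0)
  have hR : U ⊆ ball 0 (S.R / 2) := hsub.trans (ball_subset_ball hS.r2_le)
  let Δ : Vf W (n + 1) →L[ℝ] W →L[ℝ] EuclideanSpace ℝ (Fin (n + 1)) :=
    ∑ k, ((ContinuousLinearMap.smulRightL ℝ W _).flip (EuclideanSpace.single k 1)).comp (Uq.lam e k)
  have hΔ : ∀ Θ v k, Δ Θ v k = Θ (update e k v) := fun Θ v k => by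
    simp [Δ, Pi.single_apply]
  refine ⟨f, U ∩ (fun z => Uq.ev e (w z)) ⁻¹' {0}ᶜ, n + 1, fun z => Δ (w z),
    ((Uq.ev e).continuous.comp_continuousOn hw.continuousOn).isOpen_inter_preimage hU
      isOpen_compl_singleton, ⟨z0, hz0, fun h => h1 ?_⟩, inter_subset_left.trans hR,
    (Δ.contDiff.comp_contDiffOn hw).mono inter_subset_left, fun z hz => ?_,
    fun z hz θ hθ v hv => ?_⟩
  · have : w z0 e = 0 := h
    rwa [this, abs_zero, mul_zero, norm_le_zero_iff] at h2
  · ext k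
    have := Uq.lam_io he k (w z) (S.M f z)
    rw [h0 z hz.1, norm_zero, abs_nonpos_iff] at this
    rw [hΔ]; exact this
  · have hz1 : ‖z‖ < S.R / 2 := mem_ball_zero_iff.1 (hR hz.1)
    have hR0 : S.R / 2 ≤ S.R0 := by
      have := hS.RR0; have := hS.r0p.le.trans hS.r0R
      nlinarith [mul_nonneg (sub_nonneg.2 hS.b01) this]
    have hz2 : ‖z‖ < S.R0 := hz1.trans_le hR0
    have e0 : S.pt false f z z.1 = z := Prod.ext rfl (hS.g_self false f z hz2)
    have hp : ∀ᶠ y in 𝓝 z.1, ContDiffAt ℝ ∞ (S.pt false f z) y := by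
      filter_upwards [isOpen_ball.mem_nhds (mem_ball_zero_iff.2 ((norm_fst_le z).trans_lt hz2))]
        with y hy using contDiffAt_id.prodMk (hS.g_jet false f z hz2 y hy).1
    have hU' : ∀ᶠ y in 𝓝 z.1, S.pt false f z y ∈ U :=
      hp.self_of_nhds.continuousAt.eventually (by rw [e0]; exact hU.mem_nhds hz.1)
    have := hN.exact hz1.le (Ψ := fun y => Uq.wg (n + 1) (θ y) (w (S.pt false f z y))) (f := f) (by
      filter_upwards [hθ, hp, hU'] with y a b c
      refine ⟨(contDiffAt_const.clm_apply a.1).clm_apply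
        ((hw.contDiffAt (hU.mem_nhds c)).comp y b), ?_⟩
      have := Uq.io_wg (θ y) (w (S.pt false f z y)) (S.M f (S.pt false f z y))
      rw [a.2, h0 _ c, abs_zero, norm_zero, zero_mul, mul_zero, mul_zero, add_zero,
        norm_le_zero_iff] at this
      exact this)
    have h3 := Uq.wg_cons (θ z.1) (w z) v e
    rw [e0] at this
    rw [this, Finset.sum_eq_zero fun i _ => by rw [← hΔ, hv]; simp, sub_zero] at h3
    exact (mul_eq_zero.1 h3.symm).resolve_right hz.2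

end Crest.Agent.N221.G0
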