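import Crest.Agent.N221.G0.Sys

/-!
Row 221, block G0 (helper91): chains of steps.  `Cd` = data of a chain, `c.Ok i T`, `c.orb i y j` =
orbit on the plaques, `c.amb w j` = ambient orbit.  `app`: every plaque is `q ^ t` close to a plaque
that starts a chain of length `τ + 1 + (t + 1)` ending `q ^ (τ + 1) R` close to a given point.
-/

set_option autoImplicit false

open Set Metric Filter Topology
open scoped ContDiff

noncomputable section

namespace Crest.Agent.N221.G0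

/-- backward recursion: `fam H G T j = H j (fam H G T (j + 1))` for `j < T`, `fam H G T T = G` -/
def bk {α : Type} (H : ℕ → α → α) (G : α) : ℕ → ℕ → α
  | 0, _ => G
  | k + 1, j => H j (bk H G k (j + 1))

def fam {α : Type} (H : ℕ → α → α) (G : α) (T j : ℕ) : α := bk H G (T - j) j

lemma fam_end {α : Type} (H : ℕ → α → α) (G : α) (T : ℕ) : fam H G T T = G := by
  simp [fam, bk]

lemma fam_step {α : Type} (H : ℕ → α → α) (G : α) {T j : ℕ} (h : j < T) :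
    fam H G T j = H j (fam H G T (j + 1)) := by
  unfold fam
  rw [show T - j = T - (j + 1) + 1 by omega, bk]

/-- backward induction -/
lemma bk_ind {P : ℕ → Prop} {T : ℕ} (h0 : P T) (h : ∀ j < T, P (j + 1) → P j) :
    ∀ j ≤ T, P j := fun _ hj => Nat.decreasingInduction (fun k hk => h k hk) h0 hj

lemma UJ.d1 {X Y : Type} [NormedAddCommGroup X] [NormedSpace ℝ X] [NormedAddCommGroup Y]
    [NormedSpace ℝ Y] {c : ℕ → ℝ} {f : X → Y} {x : X} (h : UJ c f x) : ‖fderiv ℝ f x‖ ≤ c 1 := by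
  simpa [norm_iteratedFDeriv_one] using h.2 1

lemma UJ.dif {X Y : Type} [NormedAddCommGroup X] [NormedSpace ℝ X] [NormedAddCommGroup Y]
    [NormedSpace ℝ Y] {c : ℕ → ℝ} {f : X → Y} {x : X} (h : UJ c f x) : DifferentiableAt ℝ f x :=
  h.1.differentiableAt (by simp)

namespace Sy

variable {E W : Type} [NormedAddCommGroup E] [NormedSpace ℝ E] [NormedAddCommGroup W]
  [NormedSpace ℝ W] {S : Sy E W} {i : Bool}

lemma Ok.b1 (h : S.Ok) : 1 ≤ S.b := h.b01.trans h.b0b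

lemma Ok.Rp (h : S.Ok) : 0 < S.R := h.r0p.trans_le h.r0R

lemma Ok.bR (h : S.Ok) : S.R ≤ S.b0 * S.R := le_mul_of_one_le_left h.Rp.le h.b01

lemma Ok.R8 (h : S.Ok) : 8 * S.R ≤ S.R0 := by have := h.bR; have := h.RR0; linarith

lemma Ok.R0p (h : S.Ok) : 0 < S.R0 := by have := h.R8; have := h.Rp; linarith

lemma Ok.r12 (h : S.Ok) : 12 * S.r1 ≤ S.R := by
  have := h.r1R; have := le_mul_of_one_le_left h.r1p.le h.b01; linarith

lemma Ok.q1 (h : S.Ok) : S.q < 1 := by have := h.q6; linarith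

lemma Ok.sub (h : S.Ok) : ball (0 : E) S.R ⊆ ball 0 S.R0 :=
  ball_subset_ball (by have := h.R8; have := h.Rp; linarith)

lemma Ok.zero (h : S.Ok) : ‖(0 : E × E)‖ < S.R0 := by simpa using h.R0p

lemma Ok.g_zero (h : S.Ok) (i : Bool) (f : S.F) : S.g i f 0 0 = 0 := h.g_self i f 0 h.zero

lemma Ok.pt_self (h : S.Ok) (i : Bool) (f : S.F) {z : E × E} (hz : ‖z‖ < S.R0) :
    S.pt i f z z.1 = z := Prod.ext rfl (h.g_self i f z hz)

lemma Ok.pt_zero (h : S.Ok) (i : Bool) (f : S.F) : S.pt i f 0 0 = 0 := h.pt_self i f h.zero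

lemma Ok.pq_zero (h : S.Ok) (i : Bool) (f : S.F) {ρ : ℝ} (hρ : 0 ≤ ρ) : S.Pq i f 0 ρ :=
  ⟨h.zero, by rw [h.g_zero]; simpa using hρ⟩

/-- the graphs are Lipschitz -/
lemma Ok.g_lip (h : S.Ok) (i : Bool) (f : S.F) {z : E × E} (hz : ‖z‖ < S.R0) {y y' : E}
    (hy : y ∈ ball (0 : E) S.R0) (hy' : y' ∈ ball (0 : E) S.R0) :
    ‖S.g i f z y - S.g i f z y'‖ ≤ S.b0 * ‖y - y'‖ :=
  (convex_ball _ _).norm_image_sub_le_of_norm_fderiv_le (𝕜 := ℝ)
    (fun x hx => (h.g_jet i f z hz x hx).dif) (h.g_slope i f z hz) hy' hy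

lemma Ok.pt_lip (h : S.Ok) (i : Bool) (f : S.F) {z : E × E} (hz : ‖z‖ < S.R0) {y y' : E}
    (hy : y ∈ ball (0 : E) S.R0) (hy' : y' ∈ ball (0 : E) S.R0) :
    ‖S.pt i f z y - S.pt i f z y'‖ ≤ S.b0 * ‖y - y'‖ := by
  rw [Prod.norm_def]
  exact max_le (le_mul_of_one_le_left (norm_nonneg _) h.b01) (h.g_lip i f hz hy hy')

lemma Ok.g_le (h : S.Ok) {f : S.F} {z : E × E} {ρ : ℝ} (hz : S.Pq i f z ρ) {y : E}
    (hy : y ∈ ball (0 : E) S.R0) : ‖S.g i f z y‖ ≤ ρ + S.b0 * ‖y‖ := by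
  have := h.g_lip i f hz.1 hy (mem_ball_self h.R0p)
  rw [sub_zero] at this
  have h2 := norm_le_insert' (S.g i f z y) (S.g i f z 0)
  have := hz.2
  linarith

/-- plaques of offset `r1` stay in the quarter box -/
lemma Ok.pt_le (h : S.Ok) {f : S.F} {z : E × E} (hz : S.Pq i f z S.r1) {y : E}
    (hy : y ∈ ball (0 : E) S.R) : ‖S.pt i f z y‖ ≤ S.R0 / 4 := by
  have h1 := h.g_le hz (h.sub hy)
  rw [mem_ball_zero_iff] at hy
  have h2 : S.b0 * ‖y‖ ≤ S.b0 * S.R :=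
    mul_le_mul_of_nonneg_left hy.le (by have := h.b01; linarith)
  have := h.RR0; have := h.R8; have := h.r12; have := h.Rp
  rw [Prod.norm_def]
  exact max_le (by change ‖y‖ ≤ _; linarith) (by change ‖S.g i f z y‖ ≤ _; linarith)

/-- offset of the leaves through a point near the centre -/
lemma Ok.pq_of (h : S.Ok) (i : Bool) (f : S.F) {z : E × E} (hz : ‖z‖ < S.R0) :
    S.Pq i f z (2 * S.b0 * ‖z‖) := by
  refine ⟨hz, ?_⟩
  have h1 := h.g_lip i f hz (mem_ball_self h.R0p)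
    (mem_ball_zero_iff.2 ((norm_fst_le z).trans_lt hz))
  rw [h.g_self i f z hz, zero_sub, norm_neg] at h1
  have h2 := norm_le_insert' (S.g i f z 0) z.2
  have h3 : S.b0 * ‖z.1‖ ≤ S.b0 * ‖z‖ :=
    mul_le_mul_of_nonneg_left (norm_fst_le z) (by have := h.b01; linarith)
  have h4 := (norm_snd_le z).trans (le_mul_of_one_le_left (norm_nonneg z) h.b01)
  linarith

lemma Pq.mono {f : S.F} {z : E × E} {ρ ρ' : ℝ} (h : S.Pq i f z ρ) (e : ρ ≤ ρ') : S.Pq i f z ρ' :=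
  ⟨h.1, h.2.trans e⟩

lemma Ok.ds_one (h : S.Ok) {f : S.F} {z z' : E × E} (hz : S.Pq i f z S.r1)
    (hz' : S.Pq i f z' S.r1) : S.Ds i f z z' 1 := fun y hy => by
  have h1 := (norm_snd_le _).trans (h.pt_le hz hy)
  have h2 := (norm_snd_le _).trans (h.pt_le hz' hy)
  have := norm_sub_le (S.g i f z y) (S.g i f z' y)
  have := h.R01
  change ‖S.g i f z y‖ ≤ _ at h1
  change ‖S.g i f z' y‖ ≤ _ at h2
  linarith

section step
variable {f f' : S.F} {z z' : E × E} {φ : E × E → E × E} {A : E × E → W →L[ℝ] W}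

lemma St.mem (h : S.St i f z f' z' φ A) {y : E} (hy : y ∈ ball (0 : E) S.R) :
    S.lf i f z φ y ∈ ball (0 : E) S.R := mem_ball_zero_iff.2 (h.mp y hy)

lemma St.lip (h : S.St i f z f' z' φ A) {y y' : E} (hy : y ∈ ball (0 : E) S.R)
    (hy' : y' ∈ ball (0 : E) S.R) : ‖S.lf i f z φ y - S.lf i f z φ y'‖ ≤ S.q * ‖y - y'‖ :=
  (convex_ball _ _).norm_image_sub_le_of_norm_fderiv_le (𝕜 := ℝ)
    (fun x hx => (h.jl x hx).dif) h.con hy' hy

lemma St.at (hS : S.Ok) (h : S.St i f z f' z' φ A) {y : E} (hy : y ∈ ball (0 : E) S.R) :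
    S.Am f f' φ A (S.pt i f z y) := h.am y hy _ (mem_ball_self hS.r0p)

lemma St.alip (h : S.St i f z f' z' φ A) {y : E} (hy : y ∈ ball (0 : E) S.R) {w w' : E × E}
    (hw : w ∈ ball (S.pt i f z y) S.r0) (hw' : w' ∈ ball (S.pt i f z y) S.r0) :
    ‖φ w - φ w'‖ ≤ S.c 1 * ‖w - w'‖ :=
  (convex_ball _ _).norm_image_sub_le_of_norm_fderiv_le (𝕜 := ℝ)
    (fun x hx => (h.am y hy x hx).jφ.dif) (fun x hx => (h.am y hy x hx).jφ.d1) hw' hw

end step

/-- data of a chain -/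
structure Cd (S : Sy E W) where
  f : ℕ → S.F
  z : ℕ → E × E
  φ : ℕ → E × E → E × E
  A : ℕ → E × E → W →L[ℝ] W

namespace Cd

variable (c : S.Cd)

def Ok (i : Bool) (T : ℕ) : Prop :=
  ∀ j < T, S.St i (c.f j) (c.z j) (c.f (j + 1)) (c.z (j + 1)) (c.φ j) (c.A j)

/-- the points of the `j`-th plaque -/
def pt (i : Bool) (j : ℕ) (y : E) : E × E := S.pt i (c.f j) (c.z j) y

/-- the `j`-th map of plaques -/
def ψ (i : Bool) (j : ℕ) (y : E) : E := S.lf i (c.f j) (c.z j) (c.φ j) y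

/-- orbit on the plaques -/
def orb (i : Bool) (y : E) : ℕ → E
  | 0 => y
  | j + 1 => c.ψ i j (orb i y j)

/-- ambient orbit -/
def amb (w : E × E) : ℕ → E × E
  | 0 => w
  | j + 1 => c.φ j (amb w j)

def cons (f : S.F) (z : E × E) (φ : E × E → E × E) (A : E × E → W →L[ℝ] W) : S.Cd where
  f j := Nat.casesOn j f c.f
  z j := Nat.casesOn j z c.z
  φ j := Nat.casesOn j φ c.φ
  A j := Nat.casesOn j A c.A

variable {c} {T : ℕ}

lemma orb_cons (f : S.F) (z : E × E) (φ : E × E → E × E) (A : E × E → W →L[ℝ] W) (y : E) (j : ℕ) :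
    (c.cons f z φ A).orb i y (j + 1) = c.orb i (S.lf i f z φ y) j := by
  induction j with
  | zero => rfl
  | succ j ih => rw [orb, ih]; rfl

lemma Ok.cons (h : c.Ok i T) {f : S.F} {z : E × E} {φ : E × E → E × E} {A : E × E → W →L[ℝ] W}
    (h0 : S.St i f z (c.f 0) (c.z 0) φ A) : (c.cons f z φ A).Ok i (T + 1) := fun j hj => by
  cases j with
  | zero => exact h0
  | succ j => exact h j (by omega)

lemma Ok.mono (h : c.Ok i T) {T' : ℕ} (e : T' ≤ T) : c.Ok i T' := fun j hj => h j (hj.trans_le e)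

lemma Ok.orb_mem (h : c.Ok i T) {y : E} (hy : y ∈ ball (0 : E) S.R) :
    ∀ j ≤ T, c.orb i y j ∈ ball (0 : E) S.R := fun j hj => by
  induction j with
  | zero => exact hy
  | succ j ih => exact (h j hj).mem (ih (by omega))

lemma Ok.orb_lip (hS : S.Ok) (h : c.Ok i T) {y y' : E} (hy : y ∈ ball (0 : E) S.R)
    (hy' : y' ∈ ball (0 : E) S.R) :
    ∀ j ≤ T, ‖c.orb i y j - c.orb i y' j‖ ≤ S.q ^ j * ‖y - y'‖ := fun j hj => by
  induction j with
  | zero => simp [orb]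
  | succ j ih =>
    refine ((h j hj).lip (h.orb_mem hy j (by omega)) (h.orb_mem hy' j (by omega))).trans ?_
    rw [pow_succ', mul_assoc]
    exact mul_le_mul_of_nonneg_left (ih (by omega)) hS.qp.le

lemma Ok.amb_pt (h : c.Ok i T) {y : E} (hy : y ∈ ball (0 : E) S.R) :
    ∀ j ≤ T, c.amb (c.pt i 0 y) j = c.pt i j (c.orb i y j) := fun j hj => by
  induction j with
  | zero => rfl
  | succ j ih =>
    rw [amb, ih (by omega)]
    exact (h j hj).gr _ (h.orb_mem hy j (by omega))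

/-- a thin tube round the first plaque stays in the tubes -/
lemma Ok.tube (hS : S.Ok) (h : c.Ok i T) {y : E} (hy : y ∈ ball (0 : E) S.R) {w : E × E}
    (hw : S.c 1 ^ T * ‖w - c.pt i 0 y‖ < S.r0) :
    ∀ j ≤ T, ‖c.amb w j - c.pt i j (c.orb i y j)‖ ≤ S.c 1 ^ j * ‖w - c.pt i 0 y‖ ∧
      c.amb w j ∈ ball (c.pt i j (c.orb i y j)) S.r0 := fun j hj => by
  have key : ∀ j ≤ T, ‖c.amb w j - c.pt i j (c.orb i y j)‖ ≤ S.c 1 ^ j * ‖w - c.pt i 0 y‖ →
      c.amb w j ∈ ball (c.pt i j (c.orb i y j)) S.r0 := fun j hj e => by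
    rw [mem_ball, dist_eq_norm]
    exact e.trans_lt (lt_of_le_of_lt (mul_le_mul_of_nonneg_right
      (pow_le_pow_right₀ (hS.c1 1) hj) (norm_nonneg _)) hw)
  suffices e : ‖c.amb w j - c.pt i j (c.orb i y j)‖ ≤ S.c 1 ^ j * ‖w - c.pt i 0 y‖ from
    ⟨e, key j hj e⟩
  induction j with
  | zero => simp [amb, orb]
  | succ j ih =>
    have ih := ih (by omega)
    have hm := h.orb_mem hy j (by omega)
    have e : c.pt i (j + 1) (c.orb i y (j + 1)) = c.φ j (c.pt i j (c.orb i y j)) :=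
      ((h j hj).gr _ hm).symm
    rw [e, amb, pow_succ', mul_assoc]
    exact ((h j hj).alip hm (key j (by omega) ih) (mem_ball_self hS.r0p)).trans
      (mul_le_mul_of_nonneg_left ih (by have := hS.c1 1; linarith))

/-- the chain ends on the leaf of `z1` in the chart `f1`, within `δ` of `z1` -/
def End (c : S.Cd) (i : Bool) (T : ℕ) (f1 : S.F) (z1 : E × E) (δ : ℝ) : Prop :=
  c.f T = f1 ∧ c.z T = z1 ∧ ∀ y ∈ ball (0 : E) S.R, ‖c.orb i y T - z1.1‖ ≤ δ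

lemma End.cons {f1 : S.F} {z1 : E × E} {δ : ℝ} (h : c.End i T f1 z1 δ) {f : S.F} {z : E × E}
    {φ : E × E → E × E} {A : E × E → W →L[ℝ] W} (h0 : S.St i f z (c.f 0) (c.z 0) φ A) :
    (c.cons f z φ A).End i (T + 1) f1 z1 δ :=
  ⟨h.1, h.2.1, fun y hy => by rw [orb_cons]; exact h.2.2 _ (h0.mem hy)⟩

end Cd

/-- a chain of central plaques that ends at a given point -/
theorem Ok.back (hS : S.Ok) (i : Bool) (f1 : S.F) {z1 : E × E} (h1 : ‖z1.1‖ ≤ 2 * S.R / 3)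
    (h2 : ‖z1.2‖ ≤ S.b0 * S.R) (τ : ℕ) : ∃ c : S.Cd, c.Ok i (τ + 1) ∧ c.f (τ + 1) = f1 ∧
      c.z (τ + 1) = z1 ∧ (∀ j ≤ τ, c.z j = 0 ∧ c.orb i 0 j = 0) ∧ c.orb i 0 (τ + 1) = z1.1 := by
  induction τ with
  | zero =>
    obtain ⟨f', φ, A, h, e⟩ := hS.bwd i f1 z1 h1 h2
    let c0 : S.Cd := ⟨fun _ => f1, fun _ => z1, fun _ => φ, fun _ => A⟩
    have h0 : c0.Ok i 0 := fun j hj => absurd hj (by omega)
    refine ⟨c0.cons f' 0 φ A, h0.cons h, rfl, rfl, fun j hj => ?_, ?_⟩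
    · obtain rfl : j = 0 := by omega
      exact ⟨rfl, rfl⟩
    · change (φ (S.pt i f' 0 0)).1 = _
      rw [hS.pt_zero, e]
  | succ τ ih =>
    obtain ⟨c, hc, e1, e2, e3, e4⟩ := ih
    have := hS.Rp; have := hS.bR
    obtain ⟨f', φ, A, h, e⟩ := hS.bwd i (c.f 0) 0 (by simp; positivity) (by simp; linarith)
    have l0 : S.lf i f' 0 φ 0 = 0 := by
      change (φ (S.pt i f' 0 0)).1 = _
      rw [hS.pt_zero, e]; rfl
    refine ⟨c.cons f' 0 φ A, hc.cons (by rwa [(e3 0 (by omega)).1]), e1, e2, fun j hj => ?_, ?_⟩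
    · cases j with
      | zero => exact ⟨rfl, rfl⟩
      | succ j => exact ⟨(e3 j (by omega)).1, by rw [Cd.orb_cons, l0]; exact (e3 j (by omega)).2⟩
    · rw [Cd.orb_cons, l0, e4]

/-- APPROACH: forward `t` steps along the plaque of `z0`, one step of specification, `τ + 1` steps
along the past of `z1` -/
theorem Ok.app (hS : S.Ok) (i : Bool) (f1 : S.F) {z1 : E × E} (h1 : ‖z1.1‖ ≤ 2 * S.R / 3)
    (h2 : ‖z1.2‖ ≤ S.b0 * S.R) (τ t : ℕ) : ∀ (f0 : S.F) (z0 : E × E), S.Pq i f0 z0 (S.r1 / 2) →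
    ∃ c : S.Cd, c.Ok i (τ + 1 + (t + 1)) ∧ c.f 0 = f0 ∧ S.Pq i f0 (c.z 0) S.r1 ∧
      S.Ds i f0 (c.z 0) z0 (S.q ^ t) ∧
      c.End i (τ + 1 + (t + 1)) f1 z1 (S.q ^ (τ + 1) * S.R) := by
  obtain ⟨c, hc, e1, e2, e3, e4⟩ := hS.back i f1 h1 h2 τ
  have hE : c.End i (τ + 1) f1 z1 (S.q ^ (τ + 1) * S.R) := ⟨e1, e2, fun y hy => by
    rw [← e4]
    refine (hc.orb_lip hS hy (mem_ball_self hS.Rp) _ le_rfl).trans ?_
    rw [sub_zero]
    exact mul_le_mul_of_nonneg_left (mem_ball_zero_iff.1 hy).le (pow_pos hS.qp _).le⟩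
  have r1 := hS.r1p
  induction t with
  | zero =>
    intro f0 z0 h0
    obtain ⟨z, φ, A, hz, h, -⟩ := hS.hit i f0 (c.f 0)
    rw [← (e3 0 (by omega)).1] at h
    exact ⟨c.cons f0 z φ A, hc.cons h, rfl, hz,
      by rw [pow_zero]; exact hS.ds_one hz (h0.mono (by linarith)), hE.cons h⟩
  | succ t ih =>
    intro f0 z0 h0
    obtain ⟨f', φ, A, h⟩ := hS.fwd i f0 z0 h0
    obtain ⟨c', hc', rfl, hp, hd, hE'⟩ := ih f' 0 (hS.pq_zero i f' (by linarith))
    obtain ⟨z, hz, hst, -, hds⟩ := h _ hp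
    exact ⟨c'.cons f0 z φ A, hc'.cons hst, rfl, hz, by rw [pow_succ']; exact hds _ hd,
      hE'.cons hst⟩

end Sy

end Crest.Agent.N221.G0
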