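import Crest.Agent.N221.G0.Top

/-! Row 221, block G0/NR (helper54): forms, contraction, pull back; the rank of the system. -/

set_option autoImplicit false

open Set Metric Filter
open scoped ContDiff Nat Topology

noncomputable section

namespace Crest.Agent.N221.G0

open Nr

variable {W : Type} [NormedAddCommGroup W] [NormedSpace ℝ W] {n : ℕ}


lemma norm_ioW_apply_le (v : W) (Ψ : Vf W (n + 1)) : ‖ioW n v Ψ‖ ≤ ‖Ψ‖ * ‖v‖ :=
  (Ψ.curryLeft.le_opNorm v).trans_eq (by rw [Ψ.norm_curryLeft])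

set_option maxSynthPendingDepth 3 in
lemma norm_ioW_le : ‖ioW (W := W) n‖ ≤ 1 := by
  refine ContinuousLinearMap.opNorm_le_bound _ zero_le_one fun v => ?_
  refine ContinuousLinearMap.opNorm_le_bound _ (by positivity) fun Ψ => ?_
  rw [one_mul, mul_comm]
  exact norm_ioW_apply_le v Ψ

set_option maxSynthPendingDepth 3 in
/-- jets of the contraction -/
lemma ioW_jet {X : Type} [NormedAddCommGroup X] [NormedSpace ℝ X] {c : ℕ → ℝ} {ν : X → W} {x : X}
    (h : UJ c ν x) : UJ c (fun y => ioW n (ν y)) x :=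
  ⟨(ioW (W := W) n).contDiff.contDiffAt.comp x h.1, fun k =>
    ((ioW (W := W) n).norm_iteratedFDeriv_comp_left (cda h.1 k) le_rfl).trans
      ((mul_le_of_le_one_left (norm_nonneg _) norm_ioW_le).trans (h.2 k))⟩

lemma ioW_pbk (A : W →L[ℝ] W) (v : W) (Ψ : Vf W (n + 1)) :
    ioW n v (pbk (n + 1) A Ψ) = pbk n A (ioW n (A v) Ψ) :=
  Ψ.curryLeft_compContinuousLinearMap A v

lemma norm_pbk_apply_le (A : W →L[ℝ] W) (Ψ : Vf W n) : ‖pbk n A Ψ‖ ≤ ‖A‖ ^ n * ‖Ψ‖ :=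
  (Ψ.norm_compContinuousLinearMap_le A).trans_eq (by rw [Fintype.card_fin, mul_comm])

lemma norm_pbk_le (A : W →L[ℝ] W) : ‖pbk n A‖ ≤ ‖A‖ ^ n :=
  ContinuousLinearMap.opNorm_le_bound _ (by positivity) (norm_pbk_apply_le A)

lemma pbk_comp (A B : W →L[ℝ] W) (Ψ : Vf W n) : pbk n A (pbk n B Ψ) = pbk n (B ∘L A) Ψ := rfl

lemma pbk_id (Ψ : Vf W n) : pbk n (ContinuousLinearMap.id ℝ W) Ψ = Ψ := rfl

/-- floor of the pull back -/
lemma pbk_floor [FiniteDimensional ℝ W] {A : W →L[ℝ] W} {b : ℝ} (hb : 0 ≤ b)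
    (h : ∀ v, ‖v‖ ≤ b * ‖A v‖) (Ψ : Vf W n) : ‖Ψ‖ ≤ b ^ n * ‖pbk n A Ψ‖ := by
  have inj : Function.Injective (A : W →ₗ[ℝ] W) := (injective_iff_map_eq_zero _).2 fun v hv => by
    have := h v
    rw [show A v = 0 from hv, norm_zero, mul_zero] at this
    exact norm_le_zero_iff.1 this
  let e := (LinearEquiv.ofInjectiveEndo _ inj).toContinuousLinearEquiv
  have he : ∀ v, A (e.symm v) = v := fun v => e.apply_symm_apply v
  have h1 : ‖(e.symm : W →L[ℝ] W)‖ ≤ b := ContinuousLinearMap.opNorm_le_bound _ hb fun v => by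
    simpa [he] using h (e.symm v)
  have h2 : pbk n (e.symm : W →L[ℝ] W) (pbk n A Ψ) = Ψ := by
    ext u
    simp [he]
  conv_lhs => rw [← h2]
  refine (norm_pbk_apply_le _ _).trans ?_
  gcongr

/-- forms of too high degree vanish -/
lemma vf_eq_zero [FiniteDimensional ℝ W] (h : Module.finrank ℝ W < n) (Ψ : Vf W n) : Ψ = 0 := by
  ext u
  refine Ψ.toAlternatingMap.map_linearDependent u fun hu => ?_
  have := hu.fintype_card_le_finrank
  rw [Fintype.card_fin] at this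
  omega

lemma contDiff_pbk [FiniteDimensional ℝ W] :
    ContDiff ℝ ∞ (pbk n : (W →L[ℝ] W) → Vf W n →L[ℝ] Vf W n) := by
  obtain ⟨g, hg⟩ := (ContinuousAlternatingMap.toContinuousMultilinearMapLI (𝕜 := ℝ) (ι := Fin n)
    (E := W) (F := ℝ)).toLinearMap.exists_leftInverse_of_injective
      (LinearMap.ker_eq_bot.2 (LinearIsometry.injective _))
  have : FiniteDimensional ℝ (W [×n]→L[ℝ] ℝ) := FiniteDimensional.of_injective
    ({ toFun := fun Ψ : W [×n]→L[ℝ] ℝ => Ψ.toMultilinearMap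
       map_add' := fun _ _ => rfl
       map_smul' := fun _ _ => rfl } : _ →ₗ[ℝ] MultilinearMap ℝ (fun _ : Fin n => W) ℝ)
    fun _ _ h => ContinuousMultilinearMap.ext fun u => DFunLike.congr_fun h u
  refine contDiff_clm_apply_iff.2 fun Ψ => ?_
  have h1 : ContDiff ℝ ∞ fun A : W →L[ℝ] W =>
      ContinuousMultilinearMap.compContinuousLinearMapContinuousMultilinear ℝ (fun _ : Fin n => W)
        (fun _ => W) ℝ (fun _ => A) Ψ.toContinuousMultilinearMap :=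
    ((ContinuousMultilinearMap.contDiff _).comp (contDiff_pi.2 fun _ => contDiff_id)).clm_apply
      contDiff_const
  convert (LinearMap.toContinuousLinearMap g).contDiff.comp h1 using 2 with A
  exact (LinearMap.congr_fun hg (pbk n A Ψ)).symm

/-- jets of a pull back -/
lemma pbk_jet [FiniteDimensional ℝ W] (n : ℕ) (c : ℕ → ℝ) :
    ∃ c' : ℕ → ℝ, ∀ (X : Type) [NormedAddCommGroup X] [NormedSpace ℝ X] (A : X → W →L[ℝ] W)
      (x : X), UJ c A x → UJ c' (fun y => pbk n (A y)) x := by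
  have : ProperSpace (W →L[ℝ] W) := FiniteDimensional.proper ℝ _
  have h := fun k : ℕ => (isCompact_closedBall (0 : W →L[ℝ] W) (c 0)).exists_bound_of_continuousOn
    ((contDiff_pbk (W := W) (n := n)).continuous_iteratedFDeriv (m := k)
      (by exact_mod_cast le_top)).continuousOn
  choose C hC using h
  choose D D1 D2 using cbound C
  choose P P1 P2 using cbound c
  refine ⟨fun k => k ! * D k * P k ^ k, fun X _ _ A x hA =>
    ⟨(contDiff_pbk (W := W) (n := n)).contDiffAt.comp x hA.1,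
      fun k => comp_at k (contDiff_pbk (W := W) (n := n)).contDiffAt hA.1
      (fun i hi => (hC i _ ?_).trans (D2 k i hi)) fun i i1 hi =>
        (hA.2 i).trans ((P2 k i hi).trans (le_self_pow₀ (P1 k) (by omega)))⟩⟩
  simpa using hA.2 0

/-- jets of a composition -/
lemma uj_comp (c d : ℕ → ℝ) : ∃ c' : ℕ → ℝ, ∀ (X Y Z : Type) [NormedAddCommGroup X]
    [NormedSpace ℝ X] [NormedAddCommGroup Y] [NormedSpace ℝ Y] [NormedAddCommGroup Z]
    [NormedSpace ℝ Z] (g : Y → Z) (f : X → Y) (x : X), UJ c g (f x) → ContDiffAt ℝ ∞ f x →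
    (∀ k, 1 ≤ k → ‖iteratedFDeriv ℝ k f x‖ ≤ d k) → UJ c' (fun y => g (f y)) x := by
  choose D D1 D2 using cbound c
  choose P P1 P2 using cbound d
  exact ⟨fun k => k ! * D k * P k ^ k, fun X Y Z _ _ _ _ _ _ g f x hg hf hd =>
    ⟨hg.1.comp x hf, fun k => comp_at k hg.1 hf (fun i hi => (hg.2 i).trans (D2 k i hi))
      fun i i1 hi => (hd i i1).trans ((P2 k i hi).trans (le_self_pow₀ (P1 k) (by omega)))⟩⟩

namespace Sy

variable {E W : Type} [NormedAddCommGroup E] [NormedSpace ℝ E] [NormedAddCommGroup W]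
  [NormedSpace ℝ W] (S : Sy E W)

theorem adm_spec {n : ℕ} (h : ¬ S.Gap n) : ∃ c : ℕ → ℝ, ∀ (N : ℕ) (o : ℝ), 0 < o →
    ∃ (f : S.F) (Ψ : E → Vf W (n + 1)) (y0 : E), ‖y0‖ ≤ 2 * S.R / 3 ∧ 1 / 2 < ‖Ψ y0‖ ∧
      ContDiffOn ℝ ∞ Ψ (ball 0 S.R) ∧
      (∀ k ≤ N, ∀ y ∈ ball (0 : E) S.R, ‖iteratedFDeriv ℝ k Ψ y‖ ≤ c k) ∧
      ∀ y ∈ ball (0 : E) S.R, ‖S.io n f (S.pt false f 0 y) (Ψ y)‖ ≤ o := by
  unfold Gap Nr.Gap at h
  push Not at h
  obtain ⟨c, h⟩ := h
  refine ⟨c, fun N o ho => ?_⟩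
  obtain ⟨f, Ψ, h1, h2, h3, y, h4, h5⟩ := h N o ho
  exact ⟨f, Ψ, y, h4, h5, h1, h2, h3⟩

/-- the rank -/
theorem rank [FiniteDimensional ℝ W] : S.Gap 0 ∨ ∃ n, ¬ S.Gap n ∧ S.Gap (n + 1) := by
  have h : ∃ n, S.Gap n := ⟨Module.finrank ℝ W, fun c => ⟨0, 1, one_pos, fun _ f _ _ _ x _ => by
    rw [vf_eq_zero (Nat.lt_succ_self _) (f x), norm_zero]
    norm_num⟩⟩
  classical
  cases hn : Nat.find h with
  | zero => exact Or.inl (hn ▸ Nat.find_spec h)
  | succ n => exact Or.inr ⟨n, Nat.find_min h (by omega), hn ▸ Nat.find_spec h⟩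

end Sy

theorem rkS : RkS := fun _ _ _ _ _ _ _ _ S _ => S.rank

end Crest.Agent.N221.G0
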