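import Crest.Agent.N221.G0.Nr2
import Crest.Agent.N221.G0.NrD
import Crest.Agent.N221.G0.Chn

/-! Row 221, block G0/NR (helper54): NR on the abstract system. -/

set_option autoImplicit false

open Set Metric Filter
open scoped ContDiff Topology

noncomputable section

namespace Crest.Agent.N221.G0

namespace Sy

open Nr

variable {E W : Type} [NormedAddCommGroup E] [NormedSpace ℝ E] [NormedAddCommGroup W]
  [NormedSpace ℝ W] {S : Sy E W}

lemma Ok.RR (h : S.Ok) : 8 * S.R ≤ S.R0 := by nlinarith [h.RR0, h.b01, h.Rp]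

/-- jets of the parametrisation of a plaque -/
lemma Ok.pt_jetN (h : S.Ok) (i : Bool) (f : S.F) {z : E × E} (hz : ‖z‖ < S.R0) {y : E}
    (hy : y ∈ ball (0 : E) S.R0) : ContDiffAt ℝ ∞ (S.pt i f z) y ∧
      ∀ k, 1 ≤ k → ‖iteratedFDeriv ℝ k (S.pt i f z) y‖ ≤ S.c k := by
  have hg := h.g_jet i f z hz y hy
  refine ⟨contDiffAt_id.prodMk hg.1, fun k hk => ?_⟩
  have := iteratedFDeriv_prodMk (𝕜 := ℝ) (f := fun y : E => y) (g := S.g i f z) (x := y) (i := k)
    (n := k) contDiffAt_id (cda hg.1 k) le_rfl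
  rw [show S.pt i f z = fun y => (y, S.g i f z y) from rfl, this,
    ContinuousMultilinearMap.opNorm_prod]
  refine max_le (le_trans ?_ (h.c1 k)) (hg.2 k)
  obtain ⟨j, rfl⟩ : ∃ j, k = j + 1 := ⟨k - 1, by omega⟩
  rw [← norm_iteratedFDeriv_fderiv, show (fderiv ℝ fun y : E => y) =
    fun _ => ContinuousLinearMap.id ℝ E from funext fun _ => fderiv_fun_id]
  cases j with
  | zero => rw [norm_iteratedFDeriv_zero]; exact ContinuousLinearMap.norm_id_le
  | succ j => rw [iteratedFDeriv_const_of_ne (by omega)]; simp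

/-- a step of the system acts on forms -/
theorem Ok.stp [FiniteDimensional ℝ W] (h : S.Ok) (n : ℕ) : ∃ c : ℕ → ℝ,
    ∀ {f z f' z' φ A} {R' : ℝ}, S.St false f z f' z' φ A →
      (∀ y ∈ ball (0 : E) S.R, ‖S.lf false f z φ y‖ ≤ R') →
      Stp S.R R' S.q (S.b ^ (n + 1)) c (fun (u : S.F × (E × E)) y => S.io n u.1 (S.pt false u.1 u.2 y)) (f, z) (f', z')
        (S.lf false f z φ) fun y => pbk (n + 1) (A (S.pt false f z y)) := by
  obtain ⟨c1, h1⟩ := uj_comp S.c S.c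
  obtain ⟨c2, h2⟩ := pbk_jet (W := W) (n + 1) c1
  refine ⟨fun k => max (S.c k) (c2 k), fun {f z f' z' φ A R'} st hm => ?_⟩
  have b0 : 0 < S.b := by linarith [h.b1]
  have am := fun y hy => st.am y hy _ (mem_ball_self h.r0p)
  have hj : ∀ y ∈ ball (0 : E) S.R, UJ c2 (fun y => pbk (n + 1) (A (S.pt false f z y))) y :=
    fun y hy => by
      have a := h.pt_jetN false f st.lab (ball_subset_ball (by linarith [h.RR, h.Rp]) hy)
      exact h2 _ _ _ (h1 _ _ _ A _ y (am y hy).jA a.1 a.2)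
  refine ⟨fun y hy => (st.jl y hy).1.contDiffWithinAt, fun y hy => (hj y hy).1.contDiffWithinAt,
    hm, st.con, fun y hy k _ => ((st.jl y hy).2 k).trans (le_max_left _ _),
    fun y hy k _ => ((hj y hy).2 k).trans (le_max_right _ _),
    fun y hy => (norm_pbk_le _).trans (pow_le_pow_left₀ (norm_nonneg _) (am y hy).nA _),
    fun y hy => pbk_floor b0.le (am y hy).iA, fun y hy v => ?_⟩
  obtain ⟨t, -, t2, t3⟩ := (am y hy).eqv
  simp only [io]
  rw [ioW_pbk, t3, st.gr y hy, map_smul, smul_apply]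
  refine (norm_pbk_apply_le _ _).trans ?_
  rw [norm_smul, pow_succ, mul_assoc]
  gcongr
  · exact (am y hy).nA
  · exact t2

lemma St.lf_le (h : S.Ok) {i f z f' z' φ A} (st : S.St i f z f' z' φ A) {y : E}
    (hy : y ∈ ball (0 : E) S.R) : ‖S.lf i f z φ y‖ ≤ ‖S.lf i f z φ 0‖ + S.R / 6 := by
  have a := (convex_ball _ _).norm_image_sub_le_of_norm_fderiv_le
    (fun u hu => (st.jl u hu).1.differentiableAt (by simp)) st.con (mem_ball_self h.Rp) hy
  rw [sub_zero] at a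
  have := mul_le_mul h.q6 (mem_ball_zero_iff.1 hy).le (norm_nonneg _) (by norm_num)
  linarith [norm_le_norm_add_norm_sub' (S.lf i f z φ y) (S.lf i f z φ 0)]

/-- NR: quantitative absence of relations of degree `n + 1`, on any small ball of any leaf -/
theorem Ok.nr [FiniteDimensional ℝ E] [FiniteDimensional ℝ W] (h : S.Ok) {n : ℕ} (hG : S.Gap n) :
    ∃ a : ℕ, ∀ L : ℕ, ∃ (N : ℕ) (C : ℝ), 0 < C ∧ ∀ (f : S.F) (z : E × E), ‖z‖ ≤ S.R / 2 →
      ∀ (Ψ : E → Vf W (n + 1)) (ρ s B t : ℝ), 0 < ρ → ρ ≤ 1 → 0 < t → t ≤ 1 →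
      (∀ y ∈ ball (0 : E) S.R, ‖y - z.1‖ < ρ → ContDiffAt ℝ ∞ Ψ y ∧ ‖S.io n f (S.pt false f z y) (Ψ y)‖ ≤ s ∧
        ∀ k ≤ N, ‖iteratedFDeriv ℝ k Ψ y‖ ≤ B) →
      ‖Ψ z.1‖ ≤ C / ρ ^ a * (s / t + t ^ L * B) := by
  have : CompleteSpace (Vf W (n + 1)) := FiniteDimensional.complete ℝ _
  obtain ⟨c, hc⟩ := h.stp n
  have R0 := h.Rp
  obtain ⟨a, ha⟩ := Nr.nr 
    (I := fun (u : S.F × (E × E)) y => S.io n u.1 (S.pt false u.1 u.2 y)) (c := c) (fun f => (f, 0))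
    (fun u x => ‖u.2‖ ≤ S.R / 2 ∧ x = u.2.1) hG (by linarith) (by linarith) h.qp.le
    (by linarith [h.q6]) (one_le_pow₀ (n := n + 1) h.b1) fun u x hu => by
      obtain ⟨f', φ, A, st, e⟩ := h.bwd false u.1 u.2 (by linarith [norm_fst_le u.2, hu.1])
        (by nlinarith [norm_snd_le u.2, hu.1, h.b01])
      have e0 : S.lf false f' 0 φ 0 = u.2.1 := by rw [lf, h.pt_zero, e]
      refine ⟨f', _, _, 0, hc st fun y hy => ?_, by rw [norm_zero]; linarith, e0.trans hu.2.symm,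
        by rw [norm_zero]; linarith, rfl⟩
      have := st.lf_le h hy
      rw [e0] at this
      linarith [norm_fst_le u.2, hu.1]
  refine ⟨a, fun L => ?_⟩
  obtain ⟨N, C, hC, hN⟩ := ha L
  exact ⟨N, C, hC, fun f z hz => hN (f, z) z.1 ⟨hz, rfl⟩⟩

/-- no exact smooth relation of degree `n + 1` -/
theorem Ok.nr0 [FiniteDimensional ℝ E] [FiniteDimensional ℝ W] (h : S.Ok) {n : ℕ} (hG : S.Gap n)
    (f : S.F) {z : E × E} (hz : ‖z‖ ≤ S.R / 2) {Ψ : E → Vf W (n + 1)}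
    (hΨ : ∀ᶠ y in 𝓝 z.1, ContDiffAt ℝ ∞ Ψ y ∧ S.io n f (S.pt false f z y) (Ψ y) = 0) : Ψ z.1 = 0 := by
  have : ProperSpace E := FiniteDimensional.proper ℝ E
  obtain ⟨a, ha⟩ := h.nr hG
  obtain ⟨N, C, hC, hN⟩ := ha 1
  obtain ⟨ε, ε0, hε⟩ := Metric.nhds_basis_closedBall.eventually_iff.1 hΨ
  have hb := fun k : ℕ => (isCompact_closedBall z.1 ε).exists_bound_of_continuousOn
    (f := iteratedFDeriv ℝ k Ψ) fun y hy =>
      ((hε hy).1.continuousAt_iteratedFDeriv (k := k)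
        (by exact_mod_cast le_top)).continuousWithinAt
  choose D hD using hb
  obtain ⟨B, B1, B2⟩ := cbound D N
  have key := fun t t0 t1 => hN f z hz Ψ (min ε 1) 0 B t (by positivity) (min_le_right _ _) t0 t1
    fun y _ hy => by
      have hy' : y ∈ closedBall z.1 ε :=
        mem_closedBall_iff_norm.2 (hy.le.trans (min_le_left _ _))
      exact ⟨(hε hy').1, by rw [(hε hy').2, norm_zero], fun k hk => (hD k y hy').trans (B2 k hk)⟩
  refine norm_le_zero_iff.1 (ge_of_tendsto (f := fun t : ℝ => C / min ε 1 ^ a * (0 / t + t ^ 1 * B))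
    (x := 𝓝[>] 0) ?_ ?_)
  · refine tendsto_nhdsWithin_of_tendsto_nhds ?_
    simp only [zero_div, zero_add]
    exact Continuous.tendsto' (by fun_prop) _ _ (by simp)
  · filter_upwards [Ioc_mem_nhdsGT one_pos] with t ht using key t ht.1 ht.2

end Sy

theorem nrS : NrS := by
  intro E W _ _ _ _ _ _ S h n hG
  obtain ⟨a, ha⟩ := h.nr hG
  obtain ⟨N, C, hC, hN⟩ := ha 1
  refine ⟨N, a + 1, 1 / 2, 2 * C + 1, by norm_num, fun f z Ψ ρ ε B r => ?_⟩
  have ρ0 := r.pos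
  have B1 := r.one
  have zz := mem_ball_self (x := z.1) ρ0
  have e0 := (norm_nonneg _).trans (r.df _ zz)
  have q1 : 1 ≤ B / ρ := (one_le_div ρ0).2 (r.le.trans B1)
  have hB : B ≤ (B / ρ) ^ (a + 1) :=
    ((le_div_iff₀ ρ0).2 (mul_le_of_le_one_right (by linarith) r.le)).trans
      (le_self_pow₀ q1 (by omega))
  have hyp : ∀ y ∈ ball (0 : E) S.R, ‖y - z.1‖ < ρ → ContDiffAt ℝ ∞ Ψ y ∧
      ‖S.io n f (S.pt false f z y) (Ψ y)‖ ≤ ε ∧ ∀ k ≤ N, ‖iteratedFDeriv ℝ k Ψ y‖ ≤ B :=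
    fun y _ hy =>
      have hy' := mem_ball_iff_norm.2 hy
      ⟨r.sm.contDiffAt (isOpen_ball.mem_nhds hy'), r.df y hy', r.bd y hy'⟩
  rw [← Real.sqrt_eq_rpow]
  rcases e0.eq_or_lt with rfl | e1
  · rw [h.nr0 hG f r.mem (Ψ := Ψ) (by
      filter_upwards [ball_mem_nhds z.1 ρ0] with y hy
      exact ⟨r.sm.contDiffAt (isOpen_ball.mem_nhds hy), norm_le_zero_iff.1 (r.df y hy)⟩)]
    simp
  have s0 := Real.sqrt_pos.2 e1
  rcases le_total ε 1 with e2 | e2
  · refine (hN f z r.mem Ψ ρ ε B (√ε) ρ0 r.le s0 (Real.sqrt_le_one.2 e2) hyp).trans ?_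
    rw [Real.div_sqrt, pow_one]
    have a1 : B / ρ ^ a ≤ (B / ρ) ^ (a + 1) := by
      rw [pow_succ, div_pow, div_eq_mul_one_div B, mul_comm]
      refine mul_le_mul (by gcongr; exact one_le_pow₀ B1)
        ((le_div_iff₀ ρ0).2 (mul_le_of_le_one_right (by linarith) r.le)) (by linarith)
        (by positivity)
    calc _ ≤ C / ρ ^ a * (√ε * B + √ε * B) := by
          gcongr
          exact le_mul_of_one_le_right s0.le B1
      _ = 2 * C * (B / ρ ^ a) * √ε := by ring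
      _ ≤ _ := by gcongr; linarith
  · have a1 := r.bd _ zz 0 (Nat.zero_le _)
    rw [norm_iteratedFDeriv_zero] at a1
    calc _ ≤ 1 * (B / ρ) ^ (a + 1) * 1 := by linarith
      _ ≤ _ := by gcongr; linarith; exact Real.one_le_sqrt.2 e2

end Crest.Agent.N221.G0
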