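import Mathlib

/-!
Row 221, block G0 (helper18): pointwise Lasota-Yorke inequality for `y ↦ A y (f (ψ y))` and the
crude bound along a chain of contractions (the exponential rate does not depend on the order).
-/

set_option autoImplicit false

open Set Metric Finset Filter
open scoped ContDiff Topology

namespace Crest.Agent.N221.G0

/-- Leibniz bound at a point -/
theorem bil_at {E X Y Z : Type} [NormedAddCommGroup E] [NormedSpace ℝ E] [NormedAddCommGroup X]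
    [NormedSpace ℝ X] [NormedAddCommGroup Y] [NormedSpace ℝ Y] [NormedAddCommGroup Z]
    [NormedSpace ℝ Z] (B : X →L[ℝ] Y →L[ℝ] Z) (n : ℕ) {f : E → X} {g : E → Y} {x : E}
    (hf : ContDiffAt ℝ n f x) (hg : ContDiffAt ℝ n g x) :
    ‖iteratedFDeriv ℝ n (fun y => B (f y) (g y)) x‖ ≤ ‖B‖ * ∑ i ∈ range (n + 1),
      n.choose i * ‖iteratedFDeriv ℝ i f x‖ * ‖iteratedFDeriv ℝ (n - i) g x‖ := by
  obtain ⟨s, h1, h2, h3⟩ := _root_.eventually_nhds_iff.1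
    ((hf.eventually (by simp)).and (hg.eventually (by simp)))
  have := B.norm_iteratedFDerivWithin_le_of_bilinear (fun t ht => (h1 t ht).1.contDiffWithinAt)
    (fun t ht => (h1 t ht).2.contDiffWithinAt) h2.uniqueDiffOn h3 le_rfl
  simpa only [iteratedFDerivWithin_of_isOpen _ h2 h3] using this

/-- Leibniz bound with uniform bounds on both factors -/
theorem bil_le {E X Y Z : Type} [NormedAddCommGroup E] [NormedSpace ℝ E] [NormedAddCommGroup X]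
    [NormedSpace ℝ X] [NormedAddCommGroup Y] [NormedSpace ℝ Y] [NormedAddCommGroup Z]
    [NormedSpace ℝ Z] (B : X →L[ℝ] Y →L[ℝ] Z) (n : ℕ) {f : E → X} {g : E → Y} {x : E} {β u v : ℝ}
    (β0 : 0 ≤ β) (hB : ∀ a p, ‖B a p‖ ≤ β * ‖a‖ * ‖p‖) (hf : ContDiffAt ℝ n f x) (hg : ContDiffAt ℝ n g x)
    (hu : ∀ i ≤ n, ‖iteratedFDeriv ℝ i f x‖ ≤ u) (hv : ∀ i ≤ n, ‖iteratedFDeriv ℝ i g x‖ ≤ v) :
    ‖iteratedFDeriv ℝ n (fun y => B (f y) (g y)) x‖ ≤ β * (2 ^ n * (u * v)) := by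
  have u0 : 0 ≤ u := (norm_nonneg _).trans (hu 0 n.zero_le)
  refine (bil_at B n hf hg).trans (mul_le_mul (B.opNorm_le_bound₂ β0 hB) ?_ (by positivity) β0)
  have e : (2 : ℝ) ^ n = ∑ i ∈ range (n + 1), (n.choose i : ℝ) := by
    exact_mod_cast (Nat.sum_range_choose n).symm
  rw [e, sum_mul]
  refine sum_le_sum fun i hi => ?_
  rw [mul_assoc]
  exact mul_le_mul_of_nonneg_left (mul_le_mul (hu i (Nat.lt_succ_iff.1 (mem_range.1 hi)))
    (hv _ (Nat.sub_le _ _)) (norm_nonneg _) u0) (Nat.cast_nonneg _)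

theorem bil_sm {E X Y Z : Type} [NormedAddCommGroup E] [NormedSpace ℝ E] [NormedAddCommGroup X]
    [NormedSpace ℝ X] [NormedAddCommGroup Y] [NormedSpace ℝ Y] [NormedAddCommGroup Z]
    [NormedSpace ℝ Z] (B : X →L[ℝ] Y →L[ℝ] Z) {n : WithTop ℕ∞} {f : E → X} {g : E → Y} {x : E}
    (hf : ContDiffAt ℝ n f x) (hg : ContDiffAt ℝ n g x) :
    ContDiffAt ℝ n (fun y => B (f y) (g y)) x :=
  (B.contDiff.contDiffAt.comp x hf).clm_apply hg

theorem lin_sm {E X Y : Type} [NormedAddCommGroup E] [NormedSpace ℝ E] [NormedAddCommGroup X]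
    [NormedSpace ℝ X] [NormedAddCommGroup Y] [NormedSpace ℝ Y] (B : X →L[ℝ] Y) {n : WithTop ℕ∞}
    {f : E → X} {x : E} (hf : ContDiffAt ℝ n f x) : ContDiffAt ℝ n (fun y => B (f y)) x :=
  B.contDiff.contDiffAt.comp x hf

theorem lin_le {E X Y : Type} [NormedAddCommGroup E] [NormedSpace ℝ E] [NormedAddCommGroup X]
    [NormedSpace ℝ X] [NormedAddCommGroup Y] [NormedSpace ℝ Y] (B : X →L[ℝ] Y) (n : ℕ)
    {f : E → X} {x : E} {β : ℝ} (β0 : 0 ≤ β) (hB : ∀ a, ‖B a‖ ≤ β * ‖a‖)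
    (hf : ContDiffAt ℝ n f x) :
    ‖iteratedFDeriv ℝ n (fun y => B (f y)) x‖ ≤ β * ‖iteratedFDeriv ℝ n f x‖ := by
  have := B.iteratedFDeriv_comp_left hf (i := n) le_rfl
  refine (le_of_eq (congrArg norm this)).trans ((B.norm_compContinuousMultilinearMap_le _).trans ?_)
  exact mul_le_mul_of_nonneg_right (B.opNorm_le_bound β0 hB) (norm_nonneg _)

/-- `flip` as a continuous linear map -/
noncomputable def flp (E V W : Type) [NormedAddCommGroup E] [NormedSpace ℝ E]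
    [NormedAddCommGroup V] [NormedSpace ℝ V] [NormedAddCommGroup W] [NormedSpace ℝ W] :
    (E →L[ℝ] V →L[ℝ] W) →L[ℝ] V →L[ℝ] E →L[ℝ] W :=
  (ContinuousLinearMap.flipₗᵢ ℝ E V W).toContinuousLinearEquiv.toContinuousLinearMap

/-- `(a, p) ↦ (L ↦ a ∘ L ∘ p)` -/
noncomputable def sw (E E' V W : Type) [NormedAddCommGroup E] [NormedSpace ℝ E]
    [NormedAddCommGroup E'] [NormedSpace ℝ E'] [NormedAddCommGroup V] [NormedSpace ℝ V]
    [NormedAddCommGroup W] [NormedSpace ℝ W] :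
    (V →L[ℝ] W) →L[ℝ] (E →L[ℝ] E') →L[ℝ] (E' →L[ℝ] V) →L[ℝ] E →L[ℝ] W :=
  (ContinuousLinearMap.compL ℝ (E' →L[ℝ] V) (E →L[ℝ] V) (E →L[ℝ] W)).bilinearComp
    (ContinuousLinearMap.compL ℝ E V W) (ContinuousLinearMap.compL ℝ E E' V).flip

section
variable {E E' V W : Type} [NormedAddCommGroup E] [NormedSpace ℝ E]
    [NormedAddCommGroup E'] [NormedSpace ℝ E'] [NormedAddCommGroup V] [NormedSpace ℝ V]
    [NormedAddCommGroup W] [NormedSpace ℝ W]

theorem sw_apply (a : V →L[ℝ] W) (p : E →L[ℝ] E') (L : E' →L[ℝ] V) :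
    sw E E' V W a p L = a ∘L L ∘L p := rfl

theorem norm_sw_le (a : V →L[ℝ] W) (p : E →L[ℝ] E') : ‖sw E E' V W a p‖ ≤ ‖a‖ * ‖p‖ :=
  ContinuousLinearMap.opNorm_le_bound _ (by positivity) fun L => by
    rw [sw_apply, mul_assoc, mul_comm ‖p‖]
    exact (a.opNorm_comp_le _).trans
      (mul_le_mul_of_nonneg_left (L.opNorm_comp_le p) (norm_nonneg _))

theorem norm_flp_le (a : E →L[ℝ] V →L[ℝ] W) : ‖flp E V W a‖ ≤ 1 * ‖a‖ := by
  rw [one_mul]; exact (ContinuousLinearMap.opNorm_flip a).le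

theorem flp_le {X : Type} [NormedAddCommGroup X] [NormedSpace ℝ X] (i : ℕ)
    {g : X → E →L[ℝ] V →L[ℝ] W} {x : X} (hg : ContDiffAt ℝ i g x) :
    ‖iteratedFDeriv ℝ i (fun y => flp E V W (g y)) x‖ ≤ ‖iteratedFDeriv ℝ i g x‖ := by
  have := lin_le (X := E →L[ℝ] V →L[ℝ] W) (Y := V →L[ℝ] E →L[ℝ] W) (flp E V W) i
    (f := g) (x := x) (β := 1) zero_le_one (fun a => by exact norm_flp_le a) hg
  rwa [one_mul] at this

theorem sw_le {X : Type} [NormedAddCommGroup X] [NormedSpace ℝ X] (i : ℕ)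
    {A : X → V →L[ℝ] W} {g : X → E →L[ℝ] E'} {x : X} {u v : ℝ} (hA : ContDiffAt ℝ i A x)
    (hg : ContDiffAt ℝ i g x) (hu : ∀ j ≤ i, ‖iteratedFDeriv ℝ j A x‖ ≤ u)
    (hv : ∀ j ≤ i, ‖iteratedFDeriv ℝ j g x‖ ≤ v) :
    ‖iteratedFDeriv ℝ i (fun y => sw E E' V W (A y) (g y)) x‖ ≤ 2 ^ i * (u * v) := by
  have := bil_le (X := V →L[ℝ] W) (Y := E →L[ℝ] E') (Z := (E' →L[ℝ] V) →L[ℝ] E →L[ℝ] W)
    (sw E E' V W) i (f := A) (g := g) (x := x) zero_le_one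
    (fun a p => by rw [one_mul]; exact norm_sw_le a p) hA hg hu hv
  rwa [one_mul] at this

theorem fderiv_coc {ψ : E → E'} {A : E → V →L[ℝ] W} {f : E' → V} {x : E}
    (hψ : ContDiffAt ℝ 1 ψ x) (hA : ContDiffAt ℝ 1 A x) (hf : ContDiffAt ℝ 1 f (ψ x)) :
    fderiv ℝ (fun y => A y (f (ψ y))) =ᶠ[𝓝 x] fun y => flp E V W (fderiv ℝ A y) (f (ψ y)) +
      sw E E' V W (A y) (fderiv ℝ ψ y) (fderiv ℝ f (ψ y)) := by
  filter_upwards [hψ.eventually (by simp), hA.eventually (by simp),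
    hψ.continuousAt.eventually (hf.eventually (by simp))] with y k1 k2 k3
  have := (k2.differentiableAt (by simp)).hasFDerivAt.clm_apply
    ((k3.differentiableAt (by simp)).hasFDerivAt.comp y (k1.differentiableAt (by simp)).hasFDerivAt)
  rw [add_comm]
  exact this.fderiv

end

/-- pointwise Lasota-Yorke inequality -/
theorem ly (k : ℕ) (c : ℝ) (hc : 0 ≤ c) : ∃ C : ℝ, 0 ≤ C ∧ ∀ (E E' V W : Type)
    [NormedAddCommGroup E] [NormedSpace ℝ E] [NormedAddCommGroup E'] [NormedSpace ℝ E']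
    [NormedAddCommGroup V] [NormedSpace ℝ V] [NormedAddCommGroup W] [NormedSpace ℝ W]
    (ψ : E → E') (A : E → V →L[ℝ] W) (f : E' → V) (x : E) (a b q : ℝ), ContDiffAt ℝ k ψ x →
    ContDiffAt ℝ k A x → ContDiffAt ℝ k f (ψ x) → ‖A x‖ ≤ b → ‖fderiv ℝ ψ x‖ ≤ q →
    (∀ i, 1 ≤ i → i ≤ k → ‖iteratedFDeriv ℝ i ψ x‖ ≤ c) →
    (∀ i ≤ k, ‖iteratedFDeriv ℝ i A x‖ ≤ a) →
    ‖iteratedFDeriv ℝ k (fun y => A y (f (ψ y))) x‖ ≤
      b * q ^ k * ‖iteratedFDeriv ℝ k f (ψ x)‖ +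
        C * a * ∑ i ∈ range k, ‖iteratedFDeriv ℝ i f (ψ x)‖ := by
  induction k with
  | zero =>
    refine ⟨0, le_rfl, fun E E' V W _ _ _ _ _ _ _ _ ψ A f x a b q _ _ _ hb _ _ _ => ?_⟩
    simp only [norm_iteratedFDeriv_zero, pow_zero, mul_one, zero_mul, add_zero]
    exact (A x).le_of_opNorm_le hb _
  | succ k ih =>
    obtain ⟨C, C0, ih⟩ := ih
    refine ⟨c ^ k + C + C * (2 ^ k * c), by positivity,
      fun E E' V W _ _ _ _ _ _ _ _ ψ A f x a b q hψ hA hf hb hq dψ dA => ?_⟩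
    have le1 : ((k : ℕ) : WithTop ℕ∞) ≤ ((k + 1 : ℕ) : WithTop ℕ∞) := by exact_mod_cast k.le_succ
    have le2 : (1 : WithTop ℕ∞) ≤ ((k + 1 : ℕ) : WithTop ℕ∞) := by exact_mod_cast k.succ_pos
    have a0 : 0 ≤ a := (norm_nonneg _).trans (dA 0 (Nat.zero_le _))
    have b0 : 0 ≤ b := (norm_nonneg _).trans hb
    have q0 : 0 ≤ q := (norm_nonneg _).trans hq
    have sA : ContDiffAt ℝ k (fderiv ℝ A) x := hA.fderiv_right (by simp)
    have sψ : ContDiffAt ℝ k (fderiv ℝ ψ) x := hψ.fderiv_right (by simp)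
    have sff : ContDiffAt ℝ k (fderiv ℝ f) (ψ x) := hf.fderiv_right (by simp)
    have s1 : ContDiffAt ℝ k (fun y => flp E V W (fderiv ℝ A y)) x :=
      lin_sm (X := E →L[ℝ] V →L[ℝ] W) (Y := V →L[ℝ] E →L[ℝ] W) (flp E V W) sA
    have s2 : ContDiffAt ℝ k (fun y => sw E E' V W (A y) (fderiv ℝ ψ y)) x :=
      bil_sm (X := V →L[ℝ] W) (Y := E →L[ℝ] E') (Z := (E' →L[ℝ] V) →L[ℝ] E →L[ℝ] W)
        (sw E E' V W) (f := A) (g := fderiv ℝ ψ) (hA.of_le le1) sψ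
    have d1 : ∀ i ≤ k, ‖iteratedFDeriv ℝ i (fun y => flp E V W (fderiv ℝ A y)) x‖ ≤ a := fun i hi => by
      refine (flp_le i (sA.of_le (by exact_mod_cast hi))).trans ?_
      rw [norm_iteratedFDeriv_fderiv]
      exact dA _ (by omega)
    have d2 : ∀ i ≤ k, ‖iteratedFDeriv ℝ i (fun y => sw E E' V W (A y) (fderiv ℝ ψ y)) x‖ ≤
        2 ^ k * c * a := fun i hi => by
      have lei : ((i : ℕ) : WithTop ℕ∞) ≤ ((k : ℕ) : WithTop ℕ∞) := by exact_mod_cast hi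
      refine (sw_le i
        (hA.of_le (lei.trans le1)) (sψ.of_le lei)
        (fun j hj => dA j (by omega)) (v := c) fun j hj => ?_).trans ?_
      · rw [norm_iteratedFDeriv_fderiv]
        exact dψ _ (by omega) (by omega)
      · have : (2 : ℝ) ^ i ≤ 2 ^ k := pow_le_pow_right₀ one_le_two hi
        nlinarith [mul_nonneg a0 hc]
    have hc1 : ‖fderiv ℝ ψ x‖ ≤ c := by
      have := dψ 1 le_rfl (by omega)
      rwa [← norm_iteratedFDeriv_fderiv, norm_iteratedFDeriv_zero] at this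
    have i1 := ih E E' V (E →L[ℝ] W) ψ _ f x a a c (hψ.of_le le1) s1 (hf.of_le le1)
      (by simpa using d1 0 k.zero_le) hc1 (fun i h1 h2 => dψ i h1 (by omega)) d1
    have i2 := ih E E' (E' →L[ℝ] V) (E →L[ℝ] W) ψ _ (fderiv ℝ f) x _ (b * q) q (hψ.of_le le1) s2 sff
      ((norm_sw_le _ _).trans (mul_le_mul hb hq (norm_nonneg _) b0)) hq
      (fun i h1 h2 => dψ i h1 (by omega)) d2
    rw [← norm_iteratedFDeriv_fderiv, ((fderiv_coc (hψ.of_le le2) (hA.of_le le2)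
      (hf.of_le le2)).iteratedFDeriv ℝ k).eq_of_nhds]
    have e := iteratedFDeriv_add_apply (s1.clm_apply ((hf.of_le le1).comp x (hψ.of_le le1)))
      (s2.clm_apply (sff.comp x (hψ.of_le le1)))
    refine (le_of_eq (congrArg norm e)).trans ((norm_add_le _ _).trans ((add_le_add i1 i2).trans ?_))
    simp only [norm_iteratedFDeriv_fderiv]
    have m1 : ∑ i ∈ range k, ‖iteratedFDeriv ℝ (i + 1) f (ψ x)‖ ≤
        ∑ i ∈ range (k + 1), ‖iteratedFDeriv ℝ i f (ψ x)‖ := by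
      rw [sum_range_succ']; exact le_add_of_nonneg_right (norm_nonneg _)
    have m2 : ∑ i ∈ range k, ‖iteratedFDeriv ℝ i f (ψ x)‖ ≤
        ∑ i ∈ range (k + 1), ‖iteratedFDeriv ℝ i f (ψ x)‖ := by
      rw [sum_range_succ]; exact le_add_of_nonneg_right (norm_nonneg _)
    have m3 : ‖iteratedFDeriv ℝ k f (ψ x)‖ ≤ ∑ i ∈ range (k + 1), ‖iteratedFDeriv ℝ i f (ψ x)‖ := by
      rw [sum_range_succ]; exact le_add_of_nonneg_left (sum_nonneg fun _ _ => norm_nonneg _)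
    have n1 := mul_le_mul_of_nonneg_left m1 (show 0 ≤ C * (2 ^ k * c * a) by positivity)
    have n2 := mul_le_mul_of_nonneg_left m2 (show 0 ≤ C * a by positivity)
    have n3 := mul_le_mul_of_nonneg_left m3 (show 0 ≤ a * c ^ k by positivity)
    rw [pow_succ]
    nlinarith

/-- the same constant for all orders `≤ k` -/
theorem ly_le (k : ℕ) (c : ℝ) (hc : 0 ≤ c) : ∃ C : ℝ, 0 ≤ C ∧ ∀ (E E' V W : Type)
    [NormedAddCommGroup E] [NormedSpace ℝ E] [NormedAddCommGroup E'] [NormedSpace ℝ E']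
    [NormedAddCommGroup V] [NormedSpace ℝ V] [NormedAddCommGroup W] [NormedSpace ℝ W]
    (ψ : E → E') (A : E → V →L[ℝ] W) (f : E' → V) (x : E) (a b q : ℝ), ContDiffAt ℝ k ψ x →
    ContDiffAt ℝ k A x → ContDiffAt ℝ k f (ψ x) → ‖A x‖ ≤ b → ‖fderiv ℝ ψ x‖ ≤ q →
    (∀ i, 1 ≤ i → i ≤ k → ‖iteratedFDeriv ℝ i ψ x‖ ≤ c) →
    (∀ i ≤ k, ‖iteratedFDeriv ℝ i A x‖ ≤ a) → ∀ l ≤ k,
    ‖iteratedFDeriv ℝ l (fun y => A y (f (ψ y))) x‖ ≤
      b * q ^ l * ‖iteratedFDeriv ℝ l f (ψ x)‖ +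
        C * a * ∑ i ∈ range l, ‖iteratedFDeriv ℝ i f (ψ x)‖ := by
  choose C C0 h using fun l => ly l c hc
  refine ⟨∑ l ∈ range (k + 1), C l, sum_nonneg fun _ _ => C0 _,
    fun E E' V W _ _ _ _ _ _ _ _ ψ A f x a b q hψ hA hf hb hq dψ dA l hl => ?_⟩
  have le : ((l : ℕ) : WithTop ℕ∞) ≤ ((k : ℕ) : WithTop ℕ∞) := by exact_mod_cast hl
  have a0 : 0 ≤ a := (norm_nonneg _).trans (dA 0 (Nat.zero_le _))
  refine (h l E E' V W ψ A f x a b q (hψ.of_le le) (hA.of_le le) (hf.of_le le) hb hq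
    (fun i h1 h2 => dψ i h1 (h2.trans hl)) fun i h2 => dA i (h2.trans hl)).trans ?_
  gcongr
  exact single_le_sum (f := C) (fun _ _ => C0 _) (mem_range.2 (by omega))

/-- one step of a chain, read at the point `x` of an orbit -/
structure Stp {E V : Type} [NormedAddCommGroup E] [NormedSpace ℝ E] [NormedAddCommGroup V]
    [NormedSpace ℝ V] (k : ℕ) (b q c : ℝ) (ψ : E → E) (A : E → V →L[ℝ] V) (f f' : E → V)
    (x x' : E) : Prop where
  sψ : ContDiffAt ℝ k ψ x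
  sA : ContDiffAt ℝ k A x
  map : ψ x = x'
  nA : ‖A x‖ ≤ b
  nψ : ‖fderiv ℝ ψ x‖ ≤ q
  dψ : ∀ i, 1 ≤ i → i ≤ k → ‖iteratedFDeriv ℝ i ψ x‖ ≤ c
  dA : ∀ i ≤ k, ‖iteratedFDeriv ℝ i A x‖ ≤ c
  rel : f =ᶠ[𝓝 x] fun y => A y (f' (ψ y))

/-- crude bound along an orbit: for `q = 1` the rate `2 b` does not depend on `k` -/
theorem cr (k : ℕ) (b q c : ℝ) (hb : 1 ≤ b) (hq : 1 ≤ q) (hc : 0 ≤ c) : ∃ C : ℝ, 1 ≤ C ∧
    ∀ (E V : Type) [NormedAddCommGroup E] [NormedSpace ℝ E] [NormedAddCommGroup V]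
    [NormedSpace ℝ V] (T : ℕ) (ψ : ℕ → E → E) (A : ℕ → E → V →L[ℝ] V) (f : ℕ → E → V) (x : ℕ → E)
    (d : ℝ), (∀ j < T, Stp k b q c (ψ j) (A j) (f j) (f (j + 1)) (x j) (x (j + 1))) →
    ContDiffAt ℝ k (f T) (x T) → (∀ i ≤ k, ‖iteratedFDeriv ℝ i (f T) (x T)‖ ≤ d) →
    ∀ j ≤ T, ContDiffAt ℝ k (f j) (x j) ∧
      ∀ i ≤ k, ‖iteratedFDeriv ℝ i (f j) (x j)‖ ≤ C * (2 * b * q ^ k) ^ (T - j) * d := by
  obtain ⟨C, C0, h⟩ := ly_le k c hc
  set L := 1 + C * c * k with hL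
  have L1 : 1 ≤ L := le_add_of_nonneg_right (by positivity)
  refine ⟨L ^ k, one_le_pow₀ L1, fun E V _ _ _ _ T ψ A f x d hs hT dT => ?_⟩
  have d0 : 0 ≤ d := (norm_nonneg _).trans (dT 0 k.zero_le)
  have qk : 1 ≤ q ^ k := one_le_pow₀ hq
  suffices H : ∀ j ≤ T, ContDiffAt ℝ k (f j) (x j) ∧
      ∀ i ≤ k, ‖iteratedFDeriv ℝ i (f j) (x j)‖ ≤ L ^ i * (2 * b * q ^ k) ^ (T - j) * d by
    refine fun j hj => ⟨(H j hj).1, fun i hi => ((H j hj).2 i hi).trans ?_⟩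
    gcongr
  intro j hj
  induction hj using Nat.decreasingInduction with
  | self =>
    refine ⟨hT, fun i hi => (dT i hi).trans ?_⟩
    rw [Nat.sub_self, pow_zero, mul_one]
    exact le_mul_of_one_le_left d0 (one_le_pow₀ L1)
  | of_succ j hj ih =>
    have s := hs j hj
    have ih1 := ih.1
    have ih2 := ih.2
    rw [← s.map] at ih1 ih2
    refine ⟨(s.sA.clm_apply (ih1.comp _ s.sψ)).congr_of_eventuallyEq s.rel, fun i hi => ?_⟩
    rw [(s.rel.iteratedFDeriv ℝ i).eq_of_nhds]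
    refine (h E E V V _ _ _ _ c b q s.sψ s.sA ih1 s.nA s.nψ s.dψ s.dA i hi).trans ?_
    rw [show T - j = T - (j + 1) + 1 by omega, pow_succ]
    set P := (2 * b * q ^ k) ^ (T - (j + 1)) with hP
    have P0 : 0 ≤ P := by positivity
    have h1 : b * q ^ i * ‖iteratedFDeriv ℝ i (f (j + 1)) (ψ j (x j))‖ ≤
        b * q ^ k * (L ^ i * P * d) := by
      gcongr
      exact ih2 i hi
    have h2 : C * c * ∑ l ∈ range i, ‖iteratedFDeriv ℝ l (f (j + 1)) (ψ j (x j))‖ ≤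
        L ^ i * P * d := by
      rcases i with _ | i
      · simp only [range_zero, sum_empty, mul_zero]; positivity
      · have h3 : ∑ l ∈ range (i + 1), ‖iteratedFDeriv ℝ l (f (j + 1)) (ψ j (x j))‖ ≤
            k * (L ^ i * P * d) := by
          refine (sum_le_card_nsmul _ _ (L ^ i * P * d) fun l hl => ?_).trans ?_
          · have := mem_range.1 hl
            refine (ih2 l (by omega)).trans ?_
            gcongr
            omega
          · rw [card_range, nsmul_eq_mul]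
            gcongr
        refine (mul_le_mul_of_nonneg_left h3 (by positivity)).trans ?_
        have h4 : 0 ≤ L ^ i * P * d := by positivity
        rw [pow_succ]
        nlinarith
    have h5 : 0 ≤ L ^ i * P * d := by positivity
    have h6 : 1 ≤ b * q ^ k := one_le_mul_of_one_le_of_one_le hb qk
    nlinarith

end Crest.Agent.N221.G0
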