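import Crest.Agent.N221.G0.SgP
import Crest.Agent.N221.G0.Ly

/-! Row 221, block G0, Siegel source (helper81): the rescaled core. -/

set_option autoImplicit false

open Set Metric
open scoped ContDiff

namespace Crest.Agent.N221.G0.Sg

section ty

variable {X V V' V'' : Type} [NormedAddCommGroup X] [NormedSpace ℝ X] [NormedAddCommGroup V]
  [NormedSpace ℝ V] [NormedAddCommGroup V'] [NormedSpace ℝ V'] [NormedAddCommGroup V'']
  [NormedSpace ℝ V''] {n j j' : ℕ} {κ C C' : ℝ} {x : X}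

lemma le_inf (i : ℕ) : (i : WithTop ℕ∞) ≤ ∞ := by exact_mod_cast le_top

lemma Ty.le {f : X → V} (h : Ty n j κ C f x) : ‖f x‖ ≤ C := by
  simpa using h.2 0 n.zero_le

lemma Ty.mo {f : X → V} (h : Ty n j κ C f x) (h0 : 0 ≤ κ) (h1 : κ ≤ 1) (hj : j ≤ j')
    (hC : C ≤ C') : Ty n j' κ C' f x :=
  ⟨h.1, fun i hi => (h.2 i hi).trans (mul_le_mul hC
    (pow_le_pow_of_le_one h0 h1 (by omega)) (by positivity) (h.nn.trans hC))⟩

lemma Ty.bi (B : V →L[ℝ] V' →L[ℝ] V'') (hB : ‖B‖ ≤ 1) {f : X → V} {g : X → V'}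
    (hf : Ty n j κ C f x) (hg : Ty n j' κ C' g x) (h0 : 0 ≤ κ) (h1 : κ ≤ 1) :
    Ty n (j + j') κ (2 ^ n * (C * C')) (fun y => B (f y) (g y)) x := by
  refine ⟨bil_sm B hf.1 hg.1, fun i hi => ?_⟩
  have hC := hf.nn
  have hC' := hg.nn
  refine (bil_at B i (hf.1.of_le (le_inf i)) (hg.1.of_le (le_inf i))).trans ?_
  refine (mul_le_of_le_one_left (by positivity) hB).trans ?_
  have : ∀ l ∈ Finset.range (i + 1), (i.choose l : ℝ) * ‖iteratedFDeriv ℝ l f x‖ *
      ‖iteratedFDeriv ℝ (i - l) g x‖ ≤ (i.choose l : ℝ) * (C * C' * κ ^ (i - (j + j'))) := by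
    intro l hl
    have hl' : l ≤ i := Nat.lt_succ_iff.1 (Finset.mem_range.1 hl)
    rw [mul_assoc]
    refine mul_le_mul_of_nonneg_left ?_ (by positivity)
    refine (mul_le_mul (hf.2 l (by omega)) (hg.2 (i - l) (by omega)) (norm_nonneg _)
      (by positivity)).trans ?_
    rw [mul_mul_mul_comm, ← pow_add]
    exact mul_le_mul_of_nonneg_left (pow_le_pow_of_le_one h0 h1 (by omega)) (by positivity)
  refine (Finset.sum_le_sum this).trans ?_
  rw [← Finset.sum_mul, ← Nat.cast_sum, Nat.sum_range_choose, mul_assoc (2 ^ n : ℝ)]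
  refine mul_le_mul_of_nonneg_right ?_ (by positivity)
  push_cast
  exact pow_le_pow_right₀ one_le_two hi

lemma Ty.ad {f g : X → V} (hf : Ty n j κ C f x) (hg : Ty n j κ C' g x) :
    Ty n j κ (C + C') (fun y => f y + g y) x := by
  refine ⟨hf.1.add hg.1, fun i hi => ?_⟩
  rw [show (fun y => f y + g y) = f + g from rfl,
    iteratedFDeriv_add_apply (hf.1.of_le (le_inf i)) (hg.1.of_le (le_inf i)), add_mul]
  exact (norm_add_le _ _).trans (add_le_add (hf.2 i hi) (hg.2 i hi))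

lemma Ty.li (L : V →L[ℝ] V') {β : ℝ} (hβ : 0 ≤ β) (hL : ∀ a, ‖L a‖ ≤ β * ‖a‖) {f : X → V}
    (hf : Ty n j κ C f x) : Ty n j κ (β * C) (fun y => L (f y)) x :=
  ⟨lin_sm L hf.1, fun i hi => (lin_le L i hβ hL (hf.1.of_le (le_inf i))).trans (by
    rw [mul_assoc]; exact mul_le_mul_of_nonneg_left (hf.2 i hi) hβ)⟩

lemma Ty.su {f g : X → V} (hf : Ty n j κ C f x) (hg : Ty n j κ C' g x) :
    Ty n j κ (C + C') (fun y => f y - g y) x := by
  have := hf.ad (hg.li (-ContinuousLinearMap.id ℝ V) zero_le_one (fun a => by simp))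
  simpa [sub_eq_add_neg] using this

lemma ty_const (v : V) (h0 : 0 ≤ κ) (hv : ‖v‖ ≤ C) : Ty n j κ C (fun _ : X => v) x := by
  refine ⟨contDiffAt_const, fun i _ => ?_⟩
  rcases i with _ | i
  · simpa using hv
  · rw [iteratedFDeriv_succ_const]
    have := (norm_nonneg _).trans hv
    simp only [Pi.zero_apply, norm_zero]
    positivity

lemma ty_sum {ι : Type} (s : Finset ι) {f : ι → X → V} (h0 : 0 ≤ κ)
    (hf : ∀ a ∈ s, Ty n j κ C (f a) x) :
    Ty n j κ (s.card * C) (fun y => ∑ a ∈ s, f a y) x := by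
  classical
  induction s using Finset.induction_on with
  | empty => simpa using ty_const (X := X) (0 : V) h0 (C := 0) (by simp)
  | insert a s ha ih =>
    have := (hf a (Finset.mem_insert_self _ _)).ad
      (ih fun b hb => hf b (Finset.mem_insert_of_mem hb))
    simp only [Finset.sum_insert ha, Finset.card_insert_of_notMem ha]
    convert this using 1
    push_cast; ring

lemma ty_lin (L : X →L[ℝ] V) (h0 : 0 ≤ κ) (h1 : ‖L x‖ ≤ C) (h2 : ‖L‖ ≤ C) :
    Ty n 1 κ C (fun y => L y) x := by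
  refine ⟨L.contDiff.contDiffAt, fun i _ => ?_⟩
  have hC := (norm_nonneg _).trans h2
  rcases i with _ | _ | i
  · simpa using h1
  · rw [norm_iteratedFDeriv_one]
    simpa using h2
  · rw [← norm_iteratedFDeriv_fderiv]
    have : fderiv ℝ (fun y => L y) = fun _ => L := funext fun _ => L.fderiv
    rw [this, iteratedFDeriv_succ_const]
    simp only [Pi.zero_apply, norm_zero]
    positivity

lemma Ty.sh {f : X → V} {a : X} (h : Ty n j κ C f (a + x)) :
    Ty n j κ C (fun y => f (a + y)) x :=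
  ⟨h.1.comp x (contDiffAt_const.add contDiffAt_id), fun i hi => by
    rw [iteratedFDeriv_comp_add_left]; exact h.2 i hi⟩

end ty

variable {E W W' : Type} [NormedAddCommGroup E] [NormedSpace ℝ E] [NormedAddCommGroup W]
  [NormedSpace ℝ W] [NormedAddCommGroup W'] [NormedSpace ℝ W']

/-- a contraction of a ball has a fixed point -/
lemma fix4 [CompleteSpace E] {G : E → E} (hd : ∀ w ∈ closedBall (0 : E) 4, DifferentiableAt ℝ G w)
    (hD : ∀ w ∈ closedBall (0 : E) 4, ‖fderiv ℝ G w‖ ≤ 1 / 2)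
    (hm : ∀ w ∈ closedBall (0 : E) 4, ‖G w‖ ≤ 4) : ∃ w ∈ closedBall (0 : E) 4, G w = w := by
  have hmaps : MapsTo G (closedBall (0 : E) 4) (closedBall 0 4) := fun w hw =>
    mem_closedBall_zero_iff.2 (hm w hw)
  have hl : LipschitzOnWith (1 / 2 : NNReal) G (closedBall 0 4) :=
    (convex_closedBall _ _).lipschitzOnWith_of_nnnorm_fderiv_le hd fun w hw => by
      rw [← NNReal.coe_le_coe]; simpa using hD w hw
  have hc : ContractingWith (1 / 2 : NNReal) (hmaps.restrict G _ _) :=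
    ⟨by norm_num, hl.mapsToRestrict hmaps⟩
  obtain ⟨y, hy, hf, -⟩ := ContractingWith.exists_fixedPoint' isClosed_closedBall.isComplete hmaps
    hc (x := 0) (mem_closedBall_self (by norm_num)) (edist_ne_top _ _)
  exact ⟨y, hy, hf⟩

/-- the dimension count -/
lemma siegel [FiniteDimensional ℝ W] {α β : Type} [Fintype α] [Fintype β] (p : β → α → ℝ)
    (Θ : β → W) (hΘ : ∀ b, Θ b ≠ 0) (h : Module.finrank ℝ W * Fintype.card β <
      Module.finrank ℝ W * Fintype.card α + Fintype.card β) :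
    ∃ c : α → W, (∀ a, ‖c a‖ ≤ 1) ∧ (∃ a, ‖c a‖ = 1) ∧
      ∀ b, ∃ t : ℝ, ∑ a, p b a • c a = t • Θ b := by
  let Φ : ((α → W) × (β → ℝ)) →ₗ[ℝ] (β → W) :=
    { toFun := fun u b => ∑ a, p b a • u.1 a - u.2 b • Θ b
      map_add' := fun u v => by
        ext b
        simp only [Prod.fst_add, Prod.snd_add, Pi.add_apply, smul_add, add_smul,
          Finset.sum_add_distrib]
        abel
      map_smul' := fun t u => by
        ext b
        simp only [Prod.smul_fst, Prod.smul_snd, Pi.smul_apply, RingHom.id_apply, smul_sub,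
          Finset.smul_sum, smul_eq_mul, mul_smul, smul_comm t] }
  obtain ⟨u, hu, hu0⟩ : ∃ u, Φ u = 0 ∧ u ≠ 0 := by
    have := LinearMap.ker_ne_bot_of_finrank_lt (f := Φ) (by
      simpa [Module.finrank_prod, Module.finrank_pi_fintype, mul_comm] using h)
    obtain ⟨u, hu, hu0⟩ := Submodule.exists_mem_ne_zero_of_ne_bot this
    exact ⟨u, hu, hu0⟩
  have key : ∀ b, ∑ a, p b a • u.1 a = u.2 b • Θ b := fun b => sub_eq_zero.1 (congrFun hu b)
  have h1 : u.1 ≠ 0 := fun e => hu0 (Prod.ext e (funext fun b => by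
    have := key b
    simp only [e, Pi.zero_apply, smul_zero, Finset.sum_const_zero] at this
    exact (smul_eq_zero.1 this.symm).resolve_right (hΘ b)))
  obtain ⟨a₁, ha₁⟩ := Function.ne_iff.1 h1
  obtain ⟨a₀, -, ha₀⟩ := Finset.exists_max_image Finset.univ (fun a => ‖u.1 a‖)
    ⟨a₁, Finset.mem_univ _⟩
  have hp : 0 < ‖u.1 a₀‖ := (norm_pos_iff.2 ha₁).trans_le (ha₀ a₁ (Finset.mem_univ _))
  refine ⟨fun a => ‖u.1 a₀‖⁻¹ • u.1 a, fun a => ?_, ⟨a₀, ?_⟩, fun b => ⟨‖u.1 a₀‖⁻¹ * u.2 b, ?_⟩⟩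
  · rw [norm_smul, norm_inv, norm_norm, inv_mul_le_one₀ hp]
    exact ha₀ a (Finset.mem_univ _)
  · rw [norm_smul, norm_inv, norm_norm, inv_mul_cancel₀ hp.ne']
  · rw [mul_smul, ← key b, Finset.smul_sum]
    exact Finset.sum_congr rfl fun a _ => smul_comm _ _ _

/-- the polynomial with coefficients `c` -/
noncomputable def pol (L : Lag E) (c : Fin L.n × Fin L.n → W) (z : E × E) : W :=
  ∑ a, (L.e a.1 z.1 * L.e a.2 z.2) • c a

lemma pol_node [FiniteDimensional ℝ E] {d : ℕ} {L : Lag E} (h : L.Ok d) (c : Fin L.n × Fin L.n → W)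
    (a : Fin L.n × Fin L.n) : pol L c (L.ν a.1, L.ν a.2) = c a := by
  rw [pol, Finset.sum_eq_single a]
  · simp [h.dual]
  · intro b _ hb
    simp only [h.dual]
    by_cases e : b.1 = a.1
    · rw [if_neg (fun e' : b.2 = a.2 => hb (Prod.ext e e'))]; simp
    · rw [if_neg e]; simp
  · simp

lemma pol_sm [FiniteDimensional ℝ E] {d : ℕ} {L : Lag E} (h : L.Ok d) (c : Fin L.n × Fin L.n → W) :
    ContDiff ℝ ∞ (pol L c) :=
  ContDiff.sum fun a _ =>
    (((Pd.smooth (h.mem a.1)).comp contDiff_fst).mul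
      ((Pd.smooth (h.mem a.2)).comp contDiff_snd)).smul contDiff_const

lemma pol_ty [FiniteDimensional ℝ E] {d : ℕ} {L : Lag E} (h : L.Ok d) (n : ℕ) (γ : ℝ) : ∃ C : ℝ, 0 ≤ C ∧
    ∀ (X : Type) [NormedAddCommGroup X] [NormedSpace ℝ X] (j j' : ℕ) (κ : ℝ) (y t : X → E) (x : X)
      (c : Fin L.n × Fin L.n → W), (∀ a, ‖c a‖ ≤ 1) → 0 ≤ κ → κ ≤ 1 →
      Ty n j κ γ y x → Ty n j' κ γ t x →
      Ty n (d * j + d * j') κ C (fun w => pol L c (y w, t w)) x := by
  obtain ⟨C, hC, H⟩ := h.ty n γ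
  refine ⟨(Finset.univ : Finset (Fin L.n × Fin L.n)).card * (2 ^ n * (2 ^ n * (C * C) * 1)),
    by positivity, ?_⟩
  intro X _ _ j j' κ y t x c hc h0 h1 hy ht
  refine ty_sum _ h0 fun a _ => ?_
  exact Ty.bi (j' := 0) (ContinuousLinearMap.lsmul ℝ ℝ) (ContinuousLinearMap.opNorm_lsmul_le)
    (Ty.bi (ContinuousLinearMap.mul ℝ ℝ) (ContinuousLinearMap.opNorm_mul_le ℝ ℝ)
      (H X j κ y x h0 h1 hy a.1) (H X j' κ t x h0 h1 ht a.2) h0 h1)
    (ty_const (c a) h0 (hc a)) h0 h1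

/-- a rescaled good stable leaf near the node `t₀` -/
structure SL (io : E × E → W →L[ℝ] W') (n : ℕ) (κ γ η X : ℝ) (t₀ : E) (t : E → E) (Θ : E → W) :
    Prop where
  nr : ∀ w ∈ ball (0 : E) 9, ‖t w - t₀‖ ≤ η
  ty : ∀ w ∈ ball (0 : E) 9, Ty n 0 κ γ t w
  th : ∀ w ∈ ball (0 : E) 9, Ty n 0 κ (γ * X) Θ w
  fl : ∀ w ∈ ball (0 : E) 9, 1 ≤ X * ‖Θ w‖
  rel : ∀ w ∈ ball (0 : E) 9, ‖io (w - t w, t w) (Θ w)‖ ≤ κ ^ n

/-- a rescaled unstable leaf through `z` -/
structure UL (io : E × E → W →L[ℝ] W') (n : ℕ) (κ γ η : ℝ) (z : E × E) (y : E → E) : Prop where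
  pt : y (z.1 + z.2) = z.1
  nr : ∀ w ∈ ball (0 : E) 9, ‖y w - z.1‖ ≤ η
  ty : ∀ w ∈ ball (0 : E) 9, Ty n 0 κ γ y w
  io : ∀ w ∈ ball (0 : E) 9, Ty n 0 κ γ (fun w => io (y w, w - y w)) w

omit [NormedSpace ℝ E] in
lemma mem9 {a x : E} {ρ : ℝ} (ha : ‖a‖ < ρ) (hx : x ∈ ball (0 : E) 4) (hρ : ρ ≤ 5) :
    a + x ∈ ball (0 : E) 9 := by
  rw [mem_ball_zero_iff] at hx ⊢
  linarith [norm_add_le a x]

lemma ty_sub {n : ℕ} {κ γ : ℝ} {t : E → E} {w : E} (hw : w ∈ ball (0 : E) 9) (hγ : 9 ≤ γ)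
    (h0 : 0 ≤ κ) (h1 : κ ≤ 1) (h : Ty n 0 κ γ t w) : Ty n 1 κ (2 * γ) (fun w => w - t w) w := by
  have := (ty_lin (n := n) (C := γ) (x := w) (ContinuousLinearMap.id ℝ E) h0
    ((mem_ball_zero_iff.1 hw).le.trans hγ)
    (ContinuousLinearMap.norm_id_le.trans (by linarith))).su (h.mo h0 h1 zero_le_one le_rfl)
  rwa [two_mul]

theorem core [FiniteDimensional ℝ E] [FiniteDimensional ℝ W] [CompleteSpace W'] (k : ℕ) :
    ∃ n : ℕ, ∀ γ : ℝ, 9 ≤ γ → ∃ (η : ℝ) (C : ℕ → ℝ), 0 < η ∧ (∀ i, 1 ≤ C i) ∧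
    ∀ (κ X : ℝ) (io : E × E → W →L[ℝ] W'), 0 < κ → κ ≤ η → 1 ≤ X →
      (∀ t₀ : E, ‖t₀‖ < 1 → ∃ t Θ, SL io n κ γ η X t₀ t Θ) →
      (∀ z : E × E, ‖z‖ < 2 → ∃ y, UL io n κ γ η z y) →
      ∃ (z₁ : E × E) (Q : E × E → W), ‖z₁‖ < 1 ∧ ContDiff ℝ ∞ Q ∧ ‖Q z₁‖ = 1 ∧
        ∀ z ∈ ball z₁ 1, (∀ i, ‖iteratedFDeriv ℝ i Q z‖ ≤ C i) ∧
          ‖io z (Q z)‖ ≤ C 0 * X ^ 2 * κ ^ k := by
  have := FiniteDimensional.complete ℝ E
  have := FiniteDimensional.complete ℝ W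
  choose Lg hLg using exists_lag (E := E)
  obtain ⟨d, hd⟩ := count (fun d => (hLg d).pos) (fun d => (hLg d).le) k (Module.finrank ℝ W)
  refine ⟨d + k + 1, fun γ hγ => ?_⟩
  set n := d + k + 1 with hn
  set L := Lg d
  set M := Lg (d + k)
  have hL : L.Ok d := hLg d
  have hM : M.Ok (d + k) := hLg (d + k)
  obtain ⟨CI, ηI, hCI, hηI, -, HI⟩ := hM.int (R := 4) (by norm_num)
  obtain ⟨CP, hCP, HP⟩ := pol_ty (W := W) hL n (2 * γ)
  choose CQ hCQ HQ using fun i => pol_ty (W := W) hL i 2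
  have hγ0 : 0 < γ := by linarith
  set e₁ : ℝ := 2 ^ n * (γ * CP) with he₁
  have he₁0 : 0 ≤ e₁ := by positivity
  refine ⟨min (ηI / 2) (1 / (4 * γ)), fun i => 1 + CQ i + CI * (γ * (CI * (2 * e₁)) + CP + e₁),
    by positivity, fun i => by
      have := hCQ i
      simp only [add_assoc, le_add_iff_nonneg_right]
      positivity, ?_⟩
  set η := min (ηI / 2) (1 / (4 * γ)) with hη
  intro κ X io hκ hκη hX hs hu
  have hη1 : η ≤ ηI / 2 := min_le_left _ _
  have hη2 : γ * η ≤ 1 / 4 := by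
    have : η ≤ 1 / (4 * γ) := min_le_right _ _
    rw [le_div_iff₀ (by positivity)] at this
    linarith
  have hη0 : 0 < η := hκ.trans_le hκη
  have hη3 : η ≤ 1 / 4 := by nlinarith
  have hκ1 : κ ≤ 1 := by linarith
  choose t Θ hS using fun l => hs (M.ν l) (hM.lt l)
  have hnu : ∀ a, M.ν a ∈ ball (0 : E) 4 := fun a =>
    mem_ball_zero_iff.2 (by linarith [hM.lt a])
  have hΘ : ∀ l, ∀ w ∈ ball (0 : E) 9, 0 < ‖Θ l w‖ := fun l w hw => by
    have := (hS l).fl w hw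
    refine (norm_nonneg _).lt_of_ne fun e => ?_
    rw [← e] at this
    linarith
  obtain ⟨c, hc, ⟨a₀, ha₀⟩, hnode⟩ := siegel (α := Fin L.n × Fin L.n) (β := Fin M.n × Fin M.n)
    (fun b a => L.e a.1 (M.ν b.1 + M.ν b.2 - t b.1 (M.ν b.1 + M.ν b.2)) *
      L.e a.2 (t b.1 (M.ν b.1 + M.ν b.2))) (fun b => Θ b.1 (M.ν b.1 + M.ν b.2))
    (fun b => norm_pos_iff.1 (hΘ _ _ (mem9 (hM.lt b.1) (hnu b.2) (by norm_num))))
    (by simpa [sq] using hd)
  have hz₁ : ‖(L.ν a₀.1, L.ν a₀.2)‖ < 1 := by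
    rw [Prod.norm_mk]; exact max_lt (hL.lt _) (hL.lt _)
  refine ⟨(L.ν a₀.1, L.ν a₀.2), pol L c, hz₁, pol_sm hL c, by rw [pol_node hL, ha₀], ?_⟩
  intro z hz
  have hz2 : ‖z‖ < 2 := by
    have := norm_le_norm_add_norm_sub' z (L.ν a₀.1, L.ν a₀.2)
    rw [mem_ball, dist_eq_norm] at hz
    linarith
  have hz21 : ‖z.1‖ < 2 := (norm_fst_le z).trans_lt hz2
  have hz22 : ‖z.2‖ < 2 := (norm_snd_le z).trans_lt hz2
  have hrest : 0 ≤ CI * (γ * (CI * (2 * e₁)) + CP + e₁) := by positivity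
  refine ⟨fun i => ?_, ?_⟩
  · have := (HQ i (E × E) 1 1 1 (fun w => ContinuousLinearMap.fst ℝ E E w)
      (fun w => ContinuousLinearMap.snd ℝ E E w) z c hc zero_le_one le_rfl
      (ty_lin _ zero_le_one hz21.le ((ContinuousLinearMap.norm_fst_le ℝ E E).trans one_le_two))
      (ty_lin _ zero_le_one hz22.le
        ((ContinuousLinearMap.norm_snd_le ℝ E E).trans one_le_two))).2 i le_rfl
    simp only [one_pow, mul_one] at this
    exact this.trans (by linarith)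
  obtain ⟨y, hy⟩ := hu z hz2
  have hb : ∀ w ∈ closedBall (0 : E) 4, w ∈ ball (0 : E) 9 := fun w hw =>
    closedBall_subset_ball (by norm_num) hw
  have hcr : ∀ l, ∃ w ∈ closedBall (0 : E) 4, t l w + y w = w := fun l => by
    have d1 := fun w hw => (((hS l).ty w (hb w hw)).1.differentiableAt (by simp))
    have d2 := fun w hw => ((hy.ty w (hb w hw)).1.differentiableAt (by simp))
    refine fix4 (G := fun w => t l w + y w) (fun w hw => (d1 w hw).add (d2 w hw))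
      (fun w hw => ?_) fun w hw => ?_
    · have k1 := ((hS l).ty w (hb w hw)).2 1 (by omega)
      have k2 := (hy.ty w (hb w hw)).2 1 (by omega)
      rw [norm_iteratedFDeriv_one] at k1 k2
      rw [fderiv_fun_add (d1 w hw) (d2 w hw)]
      refine (norm_add_le _ _).trans ?_
      simp only [Nat.sub_zero, pow_one] at k1 k2
      nlinarith
    · have k1 := norm_le_norm_add_norm_sub' (t l w) (M.ν l)
      have k2 := norm_le_norm_add_norm_sub' (y w) z.1
      have := norm_add_le (t l w) (y w)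
      linarith [(hS l).nr w (hb w hw), hy.nr w (hb w hw), hM.lt l]
  choose w hw hx using hcr
  have hk1 : κ ^ (n - d) ≤ κ ^ k := pow_le_pow_of_le_one hκ.le hκ1 (by omega)
  have hk2 : κ ^ n ≤ κ ^ k := pow_le_pow_of_le_one hκ.le hκ1 (by omega)
  have hkk : 0 < κ ^ k := by positivity
  have hat : ∀ l, ‖io (y (w l), w l - y (w l)) (pol L c (y (w l), w l - y (w l)))‖ ≤
      (γ * (CI * (2 * e₁)) + CP) * X ^ 2 * κ ^ k := by
    intro l
    have hw9 := hb _ (hw l)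
    have hio := (hy.io _ hw9).le
    have e1 : (y (w l), w l - y (w l)) = (w l - t l (w l), t l (w l)) :=
      Prod.ext (eq_sub_of_add_eq' (hx l)) (eq_sub_of_add_eq (hx l)).symm
    simp only [e1] at hio ⊢
    obtain ⟨ψ, hψ, hψ1⟩ := exists_dual_vector'' ℝ (Θ l (w l))
    have hψ' : ∀ v, ‖ψ v‖ ≤ 1 * ‖v‖ := fun v => ψ.le_of_opNorm_le hψ v
    have hQ : ∀ v ∈ ball (0 : E) 9,
        Ty n d κ CP (fun v => pol L c (v - t l v, t l v)) v := fun v hv => by
      simpa using HP E 1 0 κ _ _ v c hc hκ.le hκ1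
        (ty_sub hv hγ hκ.le hκ1 ((hS l).ty v hv))
        (((hS l).ty v hv).mo hκ.le hκ1 le_rfl (by linarith))
    set F : E → W := fun v => ψ (Θ l v) • pol L c (v - t l v, t l v) -
      ψ (pol L c (v - t l v, t l v)) • Θ l v with hF
    have hT : ∀ v ∈ ball (0 : E) 9, Ty n d κ (2 * e₁ * X) F v := fun v hv => by
      have k1 := Ty.bi (ContinuousLinearMap.lsmul ℝ ℝ) ContinuousLinearMap.opNorm_lsmul_le
        (((hS l).th v hv).li ψ zero_le_one hψ') (hQ v hv) hκ.le hκ1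
      have k2 := Ty.bi (ContinuousLinearMap.lsmul ℝ ℝ) ContinuousLinearMap.opNorm_lsmul_le
        ((hQ v hv).li ψ zero_le_one hψ') ((hS l).th v hv) hκ.le hκ1
      rw [zero_add] at k1
      exact (k1.su k2).mo hκ.le hκ1 le_rfl (le_of_eq (by rw [he₁]; ring))
    have hm : w l - M.ν l ∈ ball (0 : E) 4 := by
      have k2 := norm_le_norm_add_norm_sub' (y (w l)) z.1
      have k3 := norm_add_le (t l (w l) - M.ν l) (y (w l))
      rw [sub_add_eq_add_sub, hx l] at k3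
      rw [mem_ball_zero_iff]
      linarith [(hS l).nr _ hw9, hy.nr _ hw9]
    have hFw := HI W (fun v => F (M.ν l + v)) M.ν 0 (2 * e₁ * X * κ ^ (n - d))
      (fun v hv => (hT _ (mem9 (hM.lt l) hv (by norm_num))).sh.1.contDiffWithinAt)
      (fun v hv => (hT _ (mem9 (hM.lt l) hv (by norm_num))).sh.2 _ le_rfl)
      (fun a => by simpa using hηI.le) (fun a => by
        obtain ⟨τ, hτ⟩ := hnode (l, a)
        have : pol L c (M.ν l + M.ν a - t l (M.ν l + M.ν a), t l (M.ν l + M.ν a)) =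
          τ • Θ l (M.ν l + M.ν a) := hτ
        simp only [hF, this, map_smul, smul_smul, smul_eq_mul, mul_comm, sub_self, norm_zero,
          le_refl]) _ hm
    simp only [add_sub_cancel, zero_add] at hFw
    have hQw := (hQ _ hw9).le
    set q := pol L c (w l - t l (w l), t l (w l))
    set I := io (w l - t l (w l), t l (w l))
    have k1 : ‖Θ l (w l)‖ • I q = I (F (w l)) + ψ q • I (Θ l (w l)) := by
      have : F (w l) = ‖Θ l (w l)‖ • q - ψ q • Θ l (w l) := by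
        simp only [hF]; rw [hψ1]; rfl
      rw [this, map_sub, map_smul, map_smul, sub_add_cancel]
    have k2 : ‖Θ l (w l)‖ * ‖I q‖ ≤ γ * (CI * (2 * e₁ * X * κ ^ k)) + CP * κ ^ k := by
      rw [← norm_norm (Θ l (w l)), ← norm_smul, k1]
      refine (norm_add_le _ _).trans (add_le_add ?_ ?_)
      · refine (I.le_opNorm _).trans (mul_le_mul hio (hFw.trans ?_) (norm_nonneg _) hγ0.le)
        gcongr
      · rw [norm_smul]
        exact mul_le_mul ((hψ' q).trans (by linarith)) (((hS l).rel _ hw9).trans hk2)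
          (norm_nonneg _) hCP
    have k3 := (hS l).fl _ hw9
    calc ‖I q‖ ≤ X * ‖Θ l (w l)‖ * ‖I q‖ := le_mul_of_one_le_left (norm_nonneg _) k3
      _ ≤ X * (γ * (CI * (2 * e₁ * X * κ ^ k)) + CP * κ ^ k) := by
        rw [mul_assoc]; exact mul_le_mul_of_nonneg_left k2 (by linarith)
      _ = γ * (CI * (2 * e₁)) * X ^ 2 * κ ^ k + CP * X * κ ^ k := by ring
      _ ≤ γ * (CI * (2 * e₁)) * X ^ 2 * κ ^ k + CP * X ^ 2 * κ ^ k := by
        have : X ≤ X ^ 2 := by nlinarith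
        gcongr
      _ = _ := by ring
  set G : E → W' := fun v => io (y v, v - y v) (pol L c (y v, v - y v)) with hG
  have hT : ∀ v ∈ ball (0 : E) 9, Ty n d κ e₁ G v := fun v hv => by
    have hQ : Ty n d κ CP (fun v => pol L c (y v, v - y v)) v := by
      simpa using HP E 0 1 κ _ _ v c hc hκ.le hκ1
        ((hy.ty v hv).mo hκ.le hκ1 le_rfl (by linarith)) (ty_sub hv hγ hκ.le hκ1 (hy.ty v hv))
    have := Ty.bi (ContinuousLinearMap.id ℝ (W →L[ℝ] W')) ContinuousLinearMap.norm_id_le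
      (hy.io v hv) hQ hκ.le hκ1
    rwa [zero_add] at this
  have hnd : ∀ l, ‖w l - z.1 - M.ν l‖ ≤ 2 * η := fun l => by
    have k3 := norm_add_le (t l (w l) - M.ν l) (y (w l) - z.1)
    rw [show t l (w l) - M.ν l + (y (w l) - z.1) = t l (w l) + y (w l) - z.1 - M.ν l by abel,
      hx l] at k3
    linarith [(hS l).nr _ (hb _ (hw l)), hy.nr _ (hb _ (hw l))]
  have hGw := HI W' (fun v => G (z.1 + v)) (fun l => w l - z.1) _ (e₁ * κ ^ (n - d))
    (fun v hv => (hT _ (mem9 hz21 hv (by norm_num))).sh.1.contDiffWithinAt)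
    (fun v hv => (hT _ (mem9 hz21 hv (by norm_num))).sh.2 _ le_rfl)
    (fun l => (hnd l).trans (by linarith))
    (fun l => by simpa only [add_sub_cancel] using hat l) z.2
    (mem_ball_zero_iff.2 (by linarith))
  simp only [hG, hy.pt, add_sub_cancel_left] at hGw
  refine hGw.trans ?_
  have hX2 : 1 ≤ X ^ 2 := one_le_pow₀ hX
  calc CI * ((γ * (CI * (2 * e₁)) + CP) * X ^ 2 * κ ^ k + e₁ * κ ^ (n - d))
      ≤ CI * ((γ * (CI * (2 * e₁)) + CP) * X ^ 2 * κ ^ k + e₁ * X ^ 2 * κ ^ k) := by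
        gcongr
        exact le_mul_of_one_le_right he₁0 hX2
    _ = CI * (γ * (CI * (2 * e₁)) + CP + e₁) * X ^ 2 * κ ^ k := by ring
    _ ≤ _ := by
        gcongr
        linarith [hCQ 0]

end Crest.Agent.N221.G0.Sg
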