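import Crest.Agent.N221.G0.SgD
import Crest.Agent.N221.G0.Sg1

/-! Row 221, block G0, Siegel source (helper81): rescaling, `sgS : SgS`. -/

set_option autoImplicit false

open Set Metric
open scoped ContDiff

namespace Crest.Agent.N221.G0

namespace Sg

variable {E : Type} [NormedAddCommGroup E] [NormedSpace ℝ E]

lemma mem_sc {σ r : ℝ} {w : E} (hσ : 0 < σ) (hw : w ∈ ball (0 : E) 9) (h : 9 * σ ≤ r) :
    σ • w ∈ ball (0 : E) r := by
  rw [mem_ball_zero_iff] at hw ⊢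
  rw [norm_smul, Real.norm_of_nonneg hσ.le]
  nlinarith

/-- a rescaled graph in the adapted coordinates is slow -/
lemma leaf {S J : E →L[ℝ] E} {r θ σ κ c' B γ : ℝ} {c : ℕ → ℝ} {n : ℕ} {s : E → E} {w₀ : E}
    (h : Gr S r θ c s) (hθ : 0 < θ) (hθ1 : θ ≤ 1) (hc : ∀ i ≤ n + 1, c i ≤ c') (hc0 : 0 ≤ c')
    (hσ : 0 < σ)
    (hσ1 : 9 * σ ≤ 1) (hκ : 0 < κ) (hκ1 : κ ≤ 1) (hκσ : κ ^ 2 = σ ^ θ) (hB : 0 ≤ B)
    (hr : (9 + B + 13 * c') * σ < r) (hw₀ : ‖w₀‖ ≤ 4) (hs : ‖s (σ • w₀)‖ ≤ B * σ)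
    (h3 : ‖σ⁻¹ • J (s (σ • w₀) - S (σ • w₀))‖ ≤ 3)
    (hγ : 3 + 14 * (‖J‖ * c' * (9 + B + 13 * c')) + ‖J‖ * (c' + ‖S‖) ≤ γ) :
    ∀ w ∈ ball (0 : E) 9,
      ‖σ⁻¹ • J (s (σ • w) - S (σ • w)) - σ⁻¹ • J (s (σ • w₀) - S (σ • w₀))‖ ≤
        13 * (‖J‖ * c' * (9 + B + 13 * c')) * κ ∧
      Ty n 0 κ γ (fun w => σ⁻¹ • J (s (σ • w) - S (σ • w))) w := by
  set B' := 9 + B + 13 * c' with hB'
  set l := ‖J‖ * c' * B' with hl
  have hl0 : 0 ≤ l := by positivity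
  have h9 : 9 * σ ≤ r := by nlinarith
  have hsub : ball (0 : E) (9 * σ) ⊆ ball 0 r := ball_subset_ball h9
  have hat : ∀ q ∈ ball (0 : E) (9 * σ), ContDiffAt ℝ ∞ s q := fun q hq =>
    h.sm.contDiffAt (isOpen_ball.mem_nhds (hsub hq))
  have hd : ∀ q ∈ ball (0 : E) (9 * σ), DifferentiableAt ℝ s q := fun q hq =>
    (hat q hq).differentiableAt (by simp)
  have hq₀ : σ • w₀ ∈ ball (0 : E) (9 * σ) :=
    mem_sc hσ (mem_ball_zero_iff.2 (by linarith)) le_rfl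
  have hq₀' : ‖σ • w₀‖ ≤ 4 * σ := by
    rw [norm_smul, Real.norm_of_nonneg hσ.le]; nlinarith
  have h13 : ∀ q ∈ ball (0 : E) (9 * σ), ‖q - σ • w₀‖ ≤ 13 * σ := fun q hq => by
    linarith [norm_sub_le q (σ • w₀), mem_ball_zero_iff.1 hq]
  have hpt : ∀ q ∈ ball (0 : E) (9 * σ), ‖(q, s q)‖ ≤ B' * σ := fun q hq => by
    have k1 := (convex_ball (0 : E) (9 * σ)).norm_image_sub_le_of_norm_fderiv_le (C := c') hd
      (fun x hx => by
        have := h.bd 1 x (hsub hx)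
        rw [norm_iteratedFDeriv_one] at this
        exact this.trans (hc 1 (by omega))) hq₀ hq
    have k2 := norm_le_norm_add_norm_sub' (s q) (s (σ • w₀))
    have k3 := mul_le_mul_of_nonneg_left (h13 q hq) hc0
    rw [Prod.norm_mk]
    refine max_le ?_ ?_
    · nlinarith [mem_ball_zero_iff.1 hq]
    · nlinarith
  set f : E → E := fun q => J (s q - S q) with hf
  have hfd : ∀ q ∈ ball (0 : E) (9 * σ), HasFDerivAt f (J ∘L (fderiv ℝ s q - S)) q := fun q hq =>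
    J.hasFDerivAt.comp q ((hd q hq).hasFDerivAt.sub S.hasFDerivAt)
  have hκ2 : κ ^ 2 ≤ κ := by nlinarith
  have hDf : ∀ q ∈ ball (0 : E) (9 * σ), ‖fderiv ℝ f q‖ ≤ l * κ := fun q hq => by
    rw [(hfd q hq).fderiv]
    refine (J.opNorm_comp_le _).trans ?_
    have k1 := h.hol q ((hpt q hq).trans_lt hr)
    have k2 : ‖(q, s q)‖ ^ θ ≤ B' * κ := by
      refine (Real.rpow_le_rpow (norm_nonneg _) (hpt q hq) hθ.le).trans ?_
      rw [Real.mul_rpow (by positivity) hσ.le, ← hκσ]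
      refine mul_le_mul ?_ hκ2 (by positivity) (by positivity)
      simpa using Real.rpow_le_rpow_of_exponent_le (x := B') (by linarith) hθ1
    have k3 : c 0 * ‖(q, s q)‖ ^ θ ≤ c' * (B' * κ) :=
      mul_le_mul (hc 0 (by omega)) k2 (by positivity) hc0
    calc _ ≤ ‖J‖ * (c' * (B' * κ)) := mul_le_mul_of_nonneg_left (k1.trans k3) (norm_nonneg _)
      _ = _ := by rw [hl]; ring
  intro w hw
  have hq := mem_sc hσ hw le_rfl
  have k1 := (convex_ball (0 : E) (9 * σ)).norm_image_sub_le_of_norm_fderiv_le (C := l * κ)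
    (fun q hq => (hfd q hq).differentiableAt) hDf hq₀ hq
  have k2 : ‖f (σ • w) - f (σ • w₀)‖ ≤ 13 * l * κ * σ := by
    refine k1.trans ((mul_le_mul_of_nonneg_left (h13 _ hq) (by positivity)).trans_eq (by ring))
  have k3 : ‖σ⁻¹ • f (σ • w) - σ⁻¹ • f (σ • w₀)‖ ≤ 13 * l * κ := by
    rw [← smul_sub, norm_smul, norm_inv, Real.norm_of_nonneg hσ.le, inv_mul_le_iff₀ hσ]
    linarith
  refine ⟨k3, ?_⟩
  have hJS : 0 ≤ ‖J‖ * (c' + ‖S‖) := by positivity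
  have hty : Ty n 1 1 (‖J‖ * (c' + ‖S‖)) f (σ • w) := by
    refine Ty.clm (Ty.su ⟨hat _ hq, fun i hi => ?_⟩ (ty_lin S zero_le_one ?_ le_rfl)) J
    · simpa using (h.bd i _ (hsub hq)).trans (hc i (by omega))
    · exact (S.le_opNorm _).trans (mul_le_of_le_one_right (norm_nonneg _)
        ((mem_ball_zero_iff.1 hq).le.trans hσ1))
  have hlκ : l * κ ≤ l := mul_le_of_le_one_right hl0 hκ1
  have := Ty.scale_div (n := n) (C := γ) (f := f) (x := w) 0 hσ hκ.le hκ1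
    (by rw [hκσ]; simpa using Real.rpow_le_rpow_of_exponent_ge hσ (by linarith) hθ1)
    (by simpa using hty.1) (by
      have k4 := norm_le_norm_add_norm_sub' (σ⁻¹ • f (σ • w)) (σ⁻¹ • f (σ • w₀))
      have k5 : ‖σ⁻¹ • f (σ • w)‖ ≤ γ := by linarith
      rw [norm_smul, norm_inv, Real.norm_of_nonneg hσ.le, inv_mul_le_iff₀ hσ] at k5
      simpa [mul_comm] using k5)
    (by
      rw [zero_add]
      exact (hDf _ hq).trans (mul_le_mul_of_nonneg_right (by linarith) hκ.le))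
    (fun i _ hi => by
      have := hty.2 i hi
      simp only [one_pow, mul_one] at this
      rw [zero_add]
      linarith)
  simpa only [zero_add] using this

variable {W W' : Type} [NormedAddCommGroup W] [NormedSpace ℝ W] [NormedAddCommGroup W']
  [NormedSpace ℝ W'] {S U J : E →L[ℝ] E} {io : E × E → W →L[ℝ] W'} {r θ a : ℝ} {c : ℕ → ℝ}

/-- adapted linear coordinates -/
noncomputable def Li (S U : E →L[ℝ] E) : E × E →L[ℝ] E × E :=
  (ContinuousLinearMap.fst ℝ E E + ContinuousLinearMap.snd ℝ E E).prod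
    (S ∘L ContinuousLinearMap.fst ℝ E E + U ∘L ContinuousLinearMap.snd ℝ E E)

/-- their inverse -/
noncomputable def Co (S U J : E →L[ℝ] E) : E × E →L[ℝ] E × E :=
  (J ∘L (U ∘L ContinuousLinearMap.fst ℝ E E - ContinuousLinearMap.snd ℝ E E)).prod
    (J ∘L (ContinuousLinearMap.snd ℝ E E - S ∘L ContinuousLinearMap.fst ℝ E E))

lemma Li_ap (z : E × E) : Li S U z = (z.1 + z.2, S z.1 + U z.2) := rfl

lemma Co_ap (z : E × E) : Co S U J z = (J (U z.1 - z.2), J (z.2 - S z.1)) := rfl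

lemma Co_Li (h : ∀ v, J (U v - S v) = v) (z : E × E) : Co S U J (Li S U z) = z := by
  rw [Co_ap, Li_ap]
  refine Prod.ext ?_ ?_
  · simpa only [map_add, add_sub_add_right_eq_sub] using h z.1
  · simpa only [map_add, add_sub_add_left_eq_sub] using h z.2

lemma Li_Co [FiniteDimensional ℝ E] (h : ∀ v, J (U v - S v) = v) (z : E × E) :
    Li S U (Co S U J z) = z := by
  have h1 : (Co S U J : E × E →ₗ[ℝ] E × E) * (Li S U : E × E →ₗ[ℝ] E × E) = 1 :=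
    LinearMap.ext (Co_Li h)
  exact LinearMap.congr_fun (mul_eq_one_comm.1 h1) z

/-- the numerical constraints -/
structure Nu (S U J : E →L[ℝ] E) (r θ : ℝ) (c : ℕ → ℝ) (n : ℕ) (c' γ η σ κ : ℝ) : Prop where
  hc : ∀ i ≤ n + 1, c i ≤ c'
  hc0 : 0 ≤ c'
  hσ : 0 < σ
  hσ1 : 9 * σ ≤ 1
  hκ : 0 < κ
  hκ1 : κ ≤ 1
  hκσ : κ ^ 2 = σ ^ θ
  hσκ : σ ≤ κ
  hr : (9 + (2 * ‖Li S U‖ + 1) + 13 * c') * σ < r
  hγ : 9 + 14 * (‖J‖ * c' * (9 + (2 * ‖Li S U‖ + 1) + 13 * c')) + ‖J‖ * (c' + ‖S‖) +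
    ‖J‖ * (c' + ‖U‖) + c' ≤ γ
  hη : 13 * (‖J‖ * c' * (9 + (2 * ‖Li S U‖ + 1) + 13 * c')) * κ + ‖J‖ * κ ≤ η
  hJ : ‖J‖ * κ ≤ 1

variable {n : ℕ} {c' γ η σ κ : ℝ}

lemma Nu.z (N : Nu S U J r θ c n c' γ η σ κ) {z : E × E} (hz : ‖z‖ < 2) :
    ‖σ • Li S U z‖ ≤ 2 * ‖Li S U‖ * σ ∧ ‖σ • Li S U z‖ < r ∧ 9 * σ ≤ r := by
  have k0 := N.hσ
  have k1 : ‖σ • Li S U z‖ ≤ 2 * ‖Li S U‖ * σ := by
    rw [norm_smul, Real.norm_of_nonneg N.hσ.le, mul_comm, mul_comm 2]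
    exact mul_le_mul_of_nonneg_right (((Li S U).le_opNorm z).trans
      (mul_le_mul_of_nonneg_left hz.le (norm_nonneg _))) N.hσ.le
  have k2 := mul_nonneg N.hc0 k0.le
  have k3 := mul_nonneg (norm_nonneg (Li S U)) k0.le
  have k4 := N.hr
  exact ⟨k1, by linarith, by linarith⟩

lemma mkS [FiniteDimensional ℝ E] (H : SG S U J io r θ a c) (N : Nu S U J r θ c n c' γ η σ κ)
    {t₀ : E} (ht₀ : ‖t₀‖ < 1) : ∃ t Θ, SL (fun z => io (σ • Li S U z)) n κ γ η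
      ((1 + c') / (σ ^ 2) ^ a) t₀ t Θ := by
  obtain ⟨hc, hc0, hσ, hσ1, hκ, hκ1, hκσ, hσκ, hr, hγ, hη, hJ⟩ := id N
  have h0 : ‖((0 : E), t₀)‖ < 2 := by rw [Prod.norm_mk]; simp; linarith
  obtain ⟨k0, hzr, h9⟩ := N.z h0
  have hσ2 : σ ^ 2 ≤ σ := by rw [sq]; exact mul_le_of_le_one_left hσ.le (by linarith)
  obtain ⟨s, Θ, hs, hG, hΘ, hq⟩ := H.st _ hzr (σ ^ 2) (by positivity) (by linarith) n
    (κ ^ n) (by positivity)
  set e : ℝ := (σ ^ 2) ^ a with he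
  have he0 : 0 < e := by positivity
  have he1 : e ≤ 1 := Real.rpow_le_one (by positivity) (by linarith) H.ha
  have hX : 1 ≤ (1 + c') / e := by rw [le_div_iff₀ he0]; linarith
  replace k0 := (norm_snd_le _).trans k0
  simp only [Li_ap, zero_add, map_zero, Prod.smul_mk] at hs k0
  have k1 : ‖σ⁻¹ • J (s (σ • t₀) - S (σ • t₀)) - t₀‖ ≤ ‖J‖ * κ := by
    have : σ⁻¹ • J (s (σ • t₀) - S (σ • t₀)) - t₀ = σ⁻¹ • J (s (σ • t₀) - σ • U t₀) := by
      rw [sub_eq_iff_eq_add, ← sub_add_sub_cancel _ (σ • U t₀), map_add, smul_add, map_smul,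
        ← smul_sub, map_smul, H.inv, smul_smul, inv_mul_cancel₀ hσ.ne', one_smul]
    rw [this, norm_smul, norm_inv, Real.norm_of_nonneg hσ.le, inv_mul_le_iff₀ hσ]
    calc _ ≤ ‖J‖ * σ ^ 2 := (J.le_opNorm _).trans (mul_le_mul_of_nonneg_left hs (norm_nonneg J))
      _ = σ * (‖J‖ * σ) := by ring
      _ ≤ _ := by gcongr
  have hJ1 : 0 ≤ ‖J‖ * (c' + ‖S‖) := by positivity
  have hJ2 : 0 ≤ ‖J‖ * (c' + ‖U‖) := by positivity
  have hl : 0 ≤ ‖J‖ * c' * (9 + (2 * ‖Li S U‖ + 1) + 13 * c') := by positivity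
  have k2 := leaf (J := J) (γ := γ) (w₀ := t₀) hG H.hθ H.hθ1 hc hc0 hσ hσ1 hκ hκ1 hκσ
    (by positivity) hr (by linarith) (by
      linarith [norm_le_norm_add_norm_sub' (s (σ • t₀)) (σ • U t₀)]) (by
      linarith [norm_le_norm_add_norm_sub' (σ⁻¹ • J (s (σ • t₀) - S (σ • t₀))) t₀])
    (by linarith)
  refine ⟨fun w => σ⁻¹ • J (s (σ • w) - S (σ • w)), fun w => Θ (σ • w), fun w hw => ?_,
    fun w hw => (k2 w hw).2, fun w hw => ?_, fun w hw => ?_, fun w hw => ?_⟩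
  · linarith [norm_sub_le_norm_sub_add_norm_sub (σ⁻¹ • J (s (σ • w) - S (σ • w)))
      (σ⁻¹ • J (s (σ • t₀) - S (σ • t₀))) t₀, (k2 w hw).1]
  · have hm := mem_sc hσ hw h9
    simpa only [zero_add] using Ty.scale (n := n) (C := γ * ((1 + c') / e)) (f := Θ) (x := w) 0
      hσ.le hσκ (by simpa using hΘ.contDiffAt (isOpen_ball.mem_nhds hm)) fun i hi => by
        rw [zero_add]
        exact ((hq _ hm).2.2 i hi).trans ((div_le_div_of_nonneg_right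
          (by linarith [hc i (by omega)]) he0.le).trans (le_mul_of_one_le_left
            (zero_le_one.trans hX) (by linarith)))
  · have := (hq _ (mem_sc hσ hw h9)).2.1
    rw [div_mul_eq_mul_div, le_div_iff₀ he0, one_mul]
    exact this.trans (mul_le_mul_of_nonneg_right (by linarith [hc 0 (by omega)])
      (norm_nonneg _))
  · have : σ • Li S U (w - σ⁻¹ • J (s (σ • w) - S (σ • w)), σ⁻¹ • J (s (σ • w) - S (σ • w))) =
        (σ • w, s (σ • w)) := by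
      rw [← Li_Co H.inv (σ • w, s (σ • w)), ← map_smul, Co_ap]
      congr 1
      simp only [Prod.smul_mk, smul_sub, smul_smul, mul_inv_cancel₀ hσ.ne', one_smul]
      refine Prod.ext ?_ rfl
      simp only
      rw [sub_eq_iff_eq_add, ← map_add, sub_add_sub_cancel, H.inv]
    simp only [this]
    exact (hq _ (mem_sc hσ hw h9)).1

lemma mkU [FiniteDimensional ℝ E] (H : SG S U J io r θ a c) (N : Nu S U J r θ c n c' γ η σ κ)
    {z : E × E} (hz2 : ‖z‖ < 2) : ∃ y, UL (fun z => io (σ • Li S U z)) n κ γ η z y := by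
  obtain ⟨hc, hc0, hσ, hσ1, hκ, hκ1, hκσ, hσκ, hr, hγ, hη, hJ⟩ := id N
  obtain ⟨k0, hzr, h9⟩ := N.z hz2
  obtain ⟨u, hu, hG, hio, hq⟩ := H.un _ hzr
  replace k0 := (norm_snd_le _).trans k0
  simp only [Li_ap, Prod.smul_mk] at hu k0
  have k1 : σ⁻¹ • (-J) (u (σ • (z.1 + z.2)) - U (σ • (z.1 + z.2))) = z.1 := by
    rw [hu, map_smul, ← smul_sub, map_smul, smul_smul, inv_mul_cancel₀ hσ.ne', one_smul,
      neg_apply, ← map_neg, neg_sub, map_add, add_sub_add_right_eq_sub,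
      H.inv]
  have hz1 := (norm_fst_le z).trans_lt hz2
  have hz3 := (norm_snd_le z).trans_lt hz2
  have hJ1 : 0 ≤ ‖J‖ * (c' + ‖S‖) := by positivity
  have hJ2 : 0 ≤ ‖J‖ * (c' + ‖U‖) := by positivity
  have hJ3 : 0 ≤ ‖J‖ * κ := by positivity
  have hl : 0 ≤ ‖J‖ * c' * (9 + (2 * ‖Li S U‖ + 1) + 13 * c') := by positivity
  have k2 := leaf (J := -J) (γ := γ) (w₀ := z.1 + z.2) hG H.hθ H.hθ1 hc hc0 hσ hσ1 hκ hκ1
    hκσ (by positivity) hr (by linarith [norm_add_le z.1 z.2]) (by rw [hu]; linarith)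
    (by rw [k1]; linarith) (by rw [norm_neg]; linarith)
  rw [k1, norm_neg] at k2
  refine ⟨fun w => σ⁻¹ • (-J) (u (σ • w) - U (σ • w)), k1, fun w hw => ?_,
    fun w hw => (k2 w hw).2, fun w hw => ?_⟩
  · linarith [(k2 w hw).1]
  · have hm := mem_sc hσ hw h9
    have : ∀ w : E, σ • Li S U (σ⁻¹ • (-J) (u (σ • w) - U (σ • w)),
        w - σ⁻¹ • (-J) (u (σ • w) - U (σ • w))) = (σ • w, u (σ • w)) := fun w => by
      rw [← Li_Co H.inv (σ • w, u (σ • w)), ← map_smul, Co_ap, neg_apply,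
        ← map_neg, neg_sub]
      congr 1
      simp only [Prod.smul_mk, smul_sub, smul_smul, mul_inv_cancel₀ hσ.ne', one_smul]
      refine Prod.ext rfl ?_
      simp only
      rw [sub_eq_iff_eq_add', ← map_add, sub_add_sub_cancel, H.inv]
    simp only [this]
    simpa only [zero_add] using Ty.scale (n := n) (C := γ) (f := fun q => io (q, u q)) (x := w) 0
      hσ.le hσκ (by simpa using hio.contDiffAt (isOpen_ball.mem_nhds hm)) fun i hi => by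
        rw [zero_add]
        exact (hq i _ hm).trans (by linarith [hc i (by omega)])

/-- back to the original scale -/
lemma back [FiniteDimensional ℝ E] (h : ∀ v, J (U v - S v) = v) {K : ℕ} {C : ℕ → ℝ} {ρ A : ℝ}
    (hρ : 0 < ρ) (hA : 0 ≤ A) (hC : 0 ≤ C 0) (hσ' : σ = ρ * (‖Co S U J‖ + 1)) {z₁ : E × E}
    {Q : E × E → W} (hz₁ : ‖z₁‖ < 1) (hQ : ContDiff ℝ ∞ Q) (hQ1 : ‖Q z₁‖ = 1)
    (hQz : ∀ z ∈ ball z₁ 1, (∀ i, ‖iteratedFDeriv ℝ i Q z‖ ≤ C i) ∧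
      ‖io (σ • Li S U z) (Q z)‖ ≤ A * ρ ^ K) :
    Src io K (fun i => C i + (A + (‖Co S U J‖ + 1) * ‖Li S U‖)) ρ (σ • Li S U z₁)
      (Q ∘ (σ⁻¹ • Co S U J :)) := by
  have hσ : 0 < σ := by rw [hσ']; positivity
  set T : E × E →L[ℝ] E × E := σ⁻¹ • Co S U J with hT
  have hT1 : T (σ • Li S U z₁) = z₁ := by
    rw [hT, map_smul, smul_apply, Co_Li h, smul_smul, mul_inv_cancel₀ hσ.ne',
      one_smul]
  have hTn : ‖T‖ ≤ ‖Co S U J‖ / σ := by
    rw [hT, norm_smul, norm_inv, Real.norm_of_nonneg hσ.le, div_eq_inv_mul]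
  have hTρ : ‖T‖ * ρ < 1 := by
    refine (mul_le_mul_of_nonneg_right hTn hρ.le).trans_lt ?_
    rw [div_mul_eq_mul_div, div_lt_one hσ, hσ']
    linarith
  have hmem : ∀ z ∈ ball (σ • Li S U z₁) ρ, T z ∈ ball z₁ 1 := fun z hz => by
    rw [mem_ball, dist_eq_norm] at hz ⊢
    rw [show T z - z₁ = T (z - σ • Li S U z₁) by rw [map_sub, hT1]]
    exact (T.le_opNorm _).trans_lt
      ((mul_le_mul_of_nonneg_left hz.le (norm_nonneg _)).trans_lt hTρ)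
  have hL : 0 ≤ (‖Co S U J‖ + 1) * ‖Li S U‖ := by positivity
  refine ⟨?_, hQ.comp T.contDiff, by simpa only [Function.comp, hT1] using hQ1,
    fun i z hz => ?_, fun z hz => ?_⟩
  · rw [norm_smul, Real.norm_of_nonneg hσ.le]
    have k1 := ((Li S U).le_opNorm z₁).trans (mul_le_of_le_one_right (norm_nonneg _) hz₁.le)
    calc _ ≤ σ * ‖Li S U‖ := mul_le_mul_of_nonneg_left k1 hσ.le
      _ = (‖Co S U J‖ + 1) * ‖Li S U‖ * ρ := by rw [hσ']; ring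
      _ ≤ _ := mul_le_mul_of_nonneg_right (by linarith) hρ.le
  · rw [T.iteratedFDeriv_comp_right hQ z (le_inf i)]
    refine (ContinuousMultilinearMap.norm_compContinuousLinearMap_le _ _).trans ?_
    rw [Finset.prod_const, Finset.card_univ, Fintype.card_fin, le_div_iff₀ (by positivity),
      mul_assoc, ← mul_pow]
    refine (mul_le_of_le_one_right (norm_nonneg _)
      (pow_le_one₀ (by positivity) hTρ.le)).trans ?_
    linarith [(hQz _ (hmem z hz)).1 i]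
  · have k1 := (hQz _ (hmem z hz)).2
    rw [hT, smul_apply, map_smul, Li_Co h, smul_smul, mul_inv_cancel₀ hσ.ne',
      one_smul] at k1
    exact k1.trans (mul_le_mul_of_nonneg_right (by linarith) (by positivity))

end Sg

open Sg in
theorem sgS : SgS := by
  intro E W W' _ _ _ _ _ _ _ _ _ S U J io r θ a c H K
  have hθ := H.hθ
  have ha := H.ha
  obtain ⟨k, hk⟩ := exists_nat_ge ((K + 4 * a) / (θ / 2))
  rw [div_le_iff₀ (by positivity)] at hk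
  obtain ⟨n, hn⟩ := core (E := E) (W := W) (W' := W') k
  obtain ⟨c', hc0, hc⟩ : ∃ c', 0 ≤ c' ∧ ∀ i ≤ n + 1, c i ≤ c' :=
    ⟨∑ i ∈ Finset.range (n + 2), |c i|, Finset.sum_nonneg fun _ _ => abs_nonneg _,
      fun i hi => (le_abs_self _).trans (Finset.single_le_sum (f := fun i => |c i|)
        (fun _ _ => abs_nonneg _) (Finset.mem_range.2 (by omega)))⟩
  obtain ⟨B, hB⟩ : ∃ B, B = 9 + (2 * ‖Li S U‖ + 1) + 13 * c' := ⟨_, rfl⟩
  have hB0 : 0 < B := by rw [hB]; positivity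
  obtain ⟨l, hl⟩ : ∃ l, l = ‖J‖ * c' * B := ⟨_, rfl⟩
  have hl0 : 0 ≤ l := by rw [hl]; positivity
  have hJ1 : 0 ≤ ‖J‖ * (c' + ‖S‖) := by positivity
  have hJ2 : 0 ≤ ‖J‖ * (c' + ‖U‖) := by positivity
  obtain ⟨η, C, hη, hC, hcore⟩ := hn (9 + 14 * l + ‖J‖ * (c' + ‖S‖) + ‖J‖ * (c' + ‖U‖) + c')
    (by linarith)
  obtain ⟨L, hL⟩ : ∃ L, L = ‖Co S U J‖ + 1 := ⟨_, rfl⟩
  have hL0 : 0 < L := by rw [hL]; positivity
  obtain ⟨κ₀, hκ₀⟩ : ∃ κ₀, κ₀ = min η 1 / (13 * l + ‖J‖ + 1) := ⟨_, rfl⟩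
  have hκ₀0 : 0 < κ₀ := by rw [hκ₀]; positivity
  have hr := H.hr
  have hC0 : 0 ≤ C 0 := zero_le_one.trans (hC 0)
  have hA : 0 ≤ C 0 * (1 + c') ^ 2 * L ^ K := by positivity
  have hrest : 0 ≤ (‖Co S U J‖ + 1) * ‖Li S U‖ := by positivity
  refine ⟨fun i => C i + (C 0 * (1 + c') ^ 2 * L ^ K + (‖Co S U J‖ + 1) * ‖Li S U‖),
    min (min (1 / 9) (r / B)) (κ₀ ^ (θ / 2)⁻¹) / L, by positivity,
    fun i => by linarith [hC i], fun ρ hρ hρ₀ => ?_⟩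
  rw [lt_div_iff₀ hL0, lt_min_iff, lt_min_iff, lt_div_iff₀ (by positivity : (0 : ℝ) < 9),
    lt_div_iff₀ hB0] at hρ₀
  obtain ⟨⟨hσ1, hσr⟩, hσκ⟩ := hρ₀
  obtain ⟨σ, hσ'⟩ : ∃ σ, σ = ρ * L := ⟨_, rfl⟩
  rw [← hσ'] at hσ1 hσr hσκ
  have hσ : 0 < σ := by rw [hσ']; positivity
  obtain ⟨κ, hκ'⟩ : ∃ κ, κ = σ ^ (θ / 2) := ⟨_, rfl⟩
  have hκ : 0 < κ := by rw [hκ']; positivity
  have hκκ : κ ≤ κ₀ := by
    have := Real.rpow_le_rpow hσ.le hσκ.le (by positivity : 0 ≤ θ / 2)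
    rwa [Real.rpow_inv_rpow hκ₀0.le (by positivity), ← hκ'] at this
  have hκm : κ * (13 * l + ‖J‖ + 1) ≤ min η 1 := by
    rwa [hκ₀, le_div_iff₀ (by positivity)] at hκκ
  have hm1 := min_le_left η 1
  have hm2 := min_le_right η 1
  have hlκ : 0 ≤ l * κ := by positivity
  have hJκ : 0 ≤ ‖J‖ * κ := by positivity
  have N : Nu S U J r θ c n c' (9 + 14 * l + ‖J‖ * (c' + ‖S‖) + ‖J‖ * (c' + ‖U‖) + c') η σ κ :=
    ⟨hc, hc0, hσ, by linarith, hκ, by linarith,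
      by rw [hκ', ← Real.rpow_natCast, ← Real.rpow_mul hσ.le]; norm_num,
      by simpa [hκ'] using Real.rpow_le_rpow_of_exponent_ge hσ (by linarith)
          (by linarith [H.hθ1] : θ / 2 ≤ 1),
      by rw [← hB]; linarith, by rw [← hB, ← hl], by rw [← hB, ← hl]; linarith, by linarith⟩
  have he0 : 0 < (σ ^ 2) ^ a := by positivity
  have he1 : (σ ^ 2) ^ a ≤ 1 :=
    Real.rpow_le_one (by positivity) (pow_le_one₀ hσ.le (by linarith)) ha
  obtain ⟨z₁, Q, hz₁, hQ, hQ1, hQz⟩ := hcore κ _ _ hκ (by linarith)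
    (by rw [le_div_iff₀ he0]; linarith) (fun _ => mkS H N) fun _ => mkU H N
  refine ⟨_, _, back H.inv hρ hA hC0 (hL ▸ hσ') hz₁ hQ hQ1 fun z hz =>
    ⟨(hQz z hz).1, (hQz z hz).2.trans ?_⟩⟩
  have k2 : κ ^ k ≤ σ ^ K * ((σ ^ 2) ^ a) ^ 2 := by
    rw [hκ', ← Real.rpow_natCast, ← Real.rpow_natCast, ← Real.rpow_natCast,
      ← Real.rpow_natCast, ← Real.rpow_mul hσ.le, ← Real.rpow_mul hσ.le,
      ← Real.rpow_mul hσ.le, ← Real.rpow_add hσ]
    refine Real.rpow_le_rpow_of_exponent_ge hσ (by linarith) ?_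
    push_cast
    linarith
  generalize (σ ^ 2) ^ a = e at he0 k2 ⊢
  calc C 0 * ((1 + c') / e) ^ 2 * κ ^ k ≤ C 0 * ((1 + c') / e) ^ 2 * (σ ^ K * e ^ 2) := by gcongr
    _ = _ := by rw [hσ']; field_simp; ring

end Crest.Agent.N221.G0
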