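import Crest.Agent.N221.G0.Top

/-!
Row 221, block G0: uniqueness for normalised relations (leaf UbS, helper38).
-/

set_option autoImplicit false

open Set Metric Filter Topology
open scoped ContDiff

noncomputable section

namespace Crest.Agent.N221.G0

namespace Ub

variable {E W : Type} [NormedAddCommGroup E] [NormedSpace ℝ E] [NormedAddCommGroup W]
  [NormedSpace ℝ W] {S : Sy E W}

lemma r2_le (hS : S.Ok) : S.r2 ≤ S.R / 2 ∧ S.R / 2 ≤ S.R0 := by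
  have h1 := hS.b01
  have h2 := hS.r1p
  have h3 := hS.r1R
  have h4 := hS.RR0
  have h5 : 0 ≤ S.R := by nlinarith
  refine ⟨?_, by nlinarith⟩
  rw [Sy.r2, div_le_iff₀ (by linarith)]
  nlinarith

/-- a relation of the box is a relation of the system, normalised by `ψ` -/
lemma sr (hS : S.Ok) {n N : ℕ} {f : S.F} {ψ : Vf W (n + 1) →L[ℝ] ℝ} {x : {z // S.Pq false f z S.r1}}
    {g : E → Vf W (n + 1)} {q : E} {ρ ε B : ℝ} (h : (S.bx n f ψ).SR N x g q ρ ε B) :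
    S.SR n N f (S.pt false f x q) g ρ ε B ∧ |ψ (g q) - 1| ≤ ε ∧ ‖g q‖ ≤ B := by
  have hq : q ∈ ball q ρ := mem_ball_self h.pos
  have h1 : ‖S.pt false f x q‖ < S.r2 := mem_ball_zero_iff.1 (h.sub q hq)
  have h2 := hS.g_lab false f x q x.2.1 (by linarith [(r2_le hS).1, (r2_le hS).2])
  have h3 : ∀ y ∈ ball q ρ, ‖S.io n f (S.pt false f x y) (g y)‖ ≤ ε ∧ |ψ (g y) - 1| ≤ ε := fun y hy => by
    have := norm_prod_le_iff.1 (h.df y hy)
    simpa [L.Box.df, Sy.bx, L.Box.gs, Sy.pt] using this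
  refine ⟨⟨by linarith [(r2_le hS).1], h.pos, h.le, h.one, h.sm, fun y hy => ?_, h.bd⟩, (h3 q hq).2, ?_⟩
  · rw [Sy.pt, h2]
    exact (h3 y hy).1
  · simpa using h.bd q hq 0 (Nat.zero_le N)

end Ub

theorem ubS : UbS := by
  intro E W _ _ _ _ _ _ S hS n f N a θ hθ ⟨C, hC⟩ a' θ' ha h1 h0 hθ' hθ1 ψ hψ
  refine ⟨2 ^ (n + 1) * |C| + 4, fun x g g' q ρ ε B hg hg' => ?_⟩
  obtain ⟨s1, s2, s3⟩ := Ub.sr hS hg
  obtain ⟨t1, t2, t3⟩ := Ub.sr hS hg'
  have e0 : 0 ≤ ε := (abs_nonneg _).trans s2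
  have b1 : B ≤ B / ρ := le_div_self (by linarith [hg.one]) hg.pos hg.le
  have b2 : 1 ≤ B / ρ := hg.one.trans b1
  have b3 : B ≤ (B / ρ) ^ a' := b1.trans (le_self_pow₀ b2 (by omega))
  have b4 : (B / ρ) ^ a ≤ (B / ρ) ^ a' := pow_le_pow_right₀ b2 ha
  have p0 : 0 ≤ ε ^ θ' := Real.rpow_nonneg e0 _
  have p1 : 0 ≤ (2 : ℝ) ^ (n + 1) * |C| * (B / ρ) ^ a' * ε ^ θ' := by positivity
  have B0 : 0 ≤ B := by linarith [hg.one]
  by_cases hε : 1 / 2 ≤ ε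
  · have c1 : (1 / 2 : ℝ) ^ (1 : ℝ) ≤ (1 / 2) ^ θ' :=
      Real.rpow_le_rpow_of_exponent_ge (by norm_num) (by norm_num) hθ1
    have c2 : (1 / 2 : ℝ) ^ θ' ≤ ε ^ θ' := Real.rpow_le_rpow (by norm_num) hε h0.le
    rw [Real.rpow_one] at c1
    have c3 : B * (1 / 2) ≤ (B / ρ) ^ a' * ε ^ θ' := mul_le_mul b3 (c1.trans c2) (by norm_num) (by positivity)
    nlinarith [norm_sub_le (g q) (g' q)]
  · have hε1 : ε ≤ 1 := by linarith
    have c1 : ε ^ θ ≤ ε ^ θ' := Real.rpow_le_rpow_of_exponent_ge' e0 hε1 h0.le hθ'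
    have c2 : ε ^ (1 : ℝ) ≤ ε ^ θ' := Real.rpow_le_rpow_of_exponent_ge' e0 hε1 h0.le hθ1
    rw [Real.rpow_one] at c2
    have c3 : 1 / 2 ≤ ‖g q‖ := by
      have := ψ.le_of_opNorm_le hψ (g q)
      rw [Real.norm_eq_abs, one_mul] at this
      linarith [le_abs_self (ψ (g q)), (abs_le.1 s2).1]
    have u := hC f _ g g' ρ ε B s1 t1 ψ hψ
    change ‖g q‖ ^ (n + 1) * ‖ψ (g q) • g' q - ψ (g' q) • g q‖ ≤ _ at u
    set X := ‖ψ (g q) • g' q - ψ (g' q) • g q‖ with hX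
    have X0 : 0 ≤ X := norm_nonneg _
    have u1 : (1 / 2) ^ (n + 1) * X ≤ |C| * (B / ρ) ^ a' * ε ^ θ' :=
      (mul_le_mul_of_nonneg_right (pow_le_pow_left₀ (by norm_num) c3 _) X0).trans (u.trans (by
        have := Real.rpow_nonneg e0 θ
        gcongr
        exact le_abs_self C))
    have u2 : X ≤ 2 ^ (n + 1) * |C| * (B / ρ) ^ a' * ε ^ θ' := by
      have := mul_le_mul_of_nonneg_left u1 (show (0 : ℝ) ≤ 2 ^ (n + 1) by positivity)
      rw [← mul_assoc, ← mul_pow, show (2 : ℝ) * (1 / 2) = 1 by norm_num, one_pow, one_mul] at this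
      linarith
    have d : g q - g' q = (ψ (g q) - 1) • g' q - (ψ (g' q) - 1) • g q -
        (ψ (g q) • g' q - ψ (g' q) • g q) := by module
    have n1 : ‖(ψ (g q) - 1) • g' q‖ ≤ ε * B := by
      rw [norm_smul]; exact mul_le_mul s2 t3 (norm_nonneg _) e0
    have n2 : ‖(ψ (g' q) - 1) • g q‖ ≤ ε * B := by
      rw [norm_smul]; exact mul_le_mul t2 s3 (norm_nonneg _) e0
    have n3 : ε * B ≤ ε ^ θ' * (B / ρ) ^ a' := mul_le_mul c2 b3 B0 p0
    have n4 := mul_nonneg e0 B0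
    rw [d]
    refine (norm_sub_le _ _).trans ((add_le_add (norm_sub_le _ _) u2).trans ?_)
    nlinarith

end Crest.Agent.N221.G0
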