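import Crest.Agent.N221.G0.Top
import Crest.Agent.N221.G0.ApB

/-! Row 221, block G0: the start of the ladder (`StS`, helper43). -/

set_option autoImplicit false

open Set Metric Filter Topology
open scoped ContDiff

noncomputable section

namespace Crest.Agent.N221.G0

namespace St

variable {X V : Type} [NormedAddCommGroup X] [NormedSpace ℝ X] [NormedAddCommGroup V]
  [NormedSpace ℝ V]

/-- jets of the inverse on a compact interval -/
lemma gb_inv {ι : Type} (K : ℕ) (B : ℝ) (t : ι → ℝ) (ht : ∀ i, t i ∈ Icc (1 / 2) B) :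
    GB K (fun _ (s : ℝ) => s⁻¹) t (fun _ => 1) (fun _ => 1) := by
  have h : ∀ s ∈ Icc (1 / 2 : ℝ) B, ContDiffAt ℝ ∞ (fun s : ℝ => s⁻¹) s := fun s hs =>
    contDiffAt_inv ℝ (by linarith [hs.1])
  choose c hc using fun k : ℕ => isCompact_Icc.exists_bound_of_continuousOn
    (f := iteratedFDeriv ℝ k fun s : ℝ => s⁻¹) fun s hs =>
      ((cda (h s hs) k).continuousAt_iteratedFDeriv le_rfl).continuousWithinAt
  refine ⟨fun i => h _ (ht i), fun _ => le_rfl, 1 + ∑ k ∈ Finset.range (K + 1), |c k|, by positivity,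
    fun i k hk => (hc k _ (ht i)).trans ?_⟩
  have := Finset.single_le_sum (f := fun k => |c k|) (fun _ _ => abs_nonneg _)
    (Finset.mem_range.2 (Nat.lt_succ_of_le hk))
  rw [one_pow, mul_one, mul_one]
  linarith [le_abs_self (c k)]

/-- jets of the normalised source -/
lemma jets (K : ℕ) (C : ℕ → ℝ) (hC : ∀ i, 1 ≤ C i) (ψ : V →L[ℝ] ℝ) (hψ : ‖ψ‖ ≤ 1) :
    ∃ C' : ℝ, 0 < C' ∧ ∀ (ρ : ℝ) (Q : X → V) (y : X), 0 < ρ → ρ ≤ 1 → ContDiff ℝ ∞ Q →
      (∀ i, ‖iteratedFDeriv ℝ i Q y‖ ≤ C i / ρ ^ i) → 1 / 2 ≤ ψ (Q y) →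
      ∀ i ≤ K, ‖iteratedFDeriv ℝ i (fun y => (ψ (Q y))⁻¹ • Q y) y‖ ≤ C' / ρ ^ i := by
  let ι := {p : ℝ × (X → V) × X // 0 < p.1 ∧ p.1 ≤ 1 ∧ ContDiff ℝ ∞ p.2.1 ∧
    (∀ i, ‖iteratedFDeriv ℝ i p.2.1 p.2.2‖ ≤ C i / p.1 ^ i) ∧ 1 / 2 ≤ ψ (p.2.1 p.2.2)}
  have h1 : GB K (fun p : ι => p.1.2.1) (fun p => p.1.2.2) (fun _ => 1) (fun p => p.1.1⁻¹) := by
    refine ⟨fun p => p.2.2.2.1.contDiffAt, fun p => (one_le_inv₀ p.2.1).2 p.2.2.1,
      1 + ∑ k ∈ Finset.range (K + 1), C k, ?_, fun p k hk => (p.2.2.2.2.1 k).trans ?_⟩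
    · exact add_pos_of_pos_of_nonneg one_pos (Finset.sum_nonneg fun k _ => zero_le_one.trans (hC k))
    · have := Finset.single_le_sum (f := C) (fun k _ => zero_le_one.trans (hC k))
        (Finset.mem_range.2 (Nat.lt_succ_of_le hk))
      have := p.2.1
      rw [mul_one, div_eq_mul_inv, inv_pow]
      exact mul_le_mul_of_nonneg_right (by linarith) (by positivity)
  have h2 := (gb_inv K (C 0) (fun p : ι => ψ (p.1.2.1 p.1.2.2)) fun p => ⟨p.2.2.2.2.2, by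
    have h := p.2.2.2.2.1 0
    rw [norm_iteratedFDeriv_zero, pow_zero, div_one] at h
    exact (le_abs_self _).trans ((ψ.le_of_opNorm_le hψ _).trans (by rwa [one_mul]))⟩).comp'
      (h1.clm ψ) fun _ => rfl
  obtain ⟨c, hc, hb⟩ := ((h2.mono le_rfl (fun _ => le_rfl) fun _ => (one_mul _).le).fsmul h1).bd
  refine ⟨c, hc, fun ρ Q y h0 h1 hQ hj hy i hi => ?_⟩
  simpa [div_eq_mul_inv] using hb ⟨(ρ, Q, y), h0, h1, hQ, hj, hy⟩ i hi

end St

theorem stS : StS := by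
  intro E W _ _ _ _ _ _ S hS n f hs K
  obtain ⟨C, ρ₀, hρ₀, hC, h⟩ := hs K
  have hr : ∀ m : ℕ, 0 < ρ₀ / (m + 2) ∧ ρ₀ / (m + 2) < ρ₀ := fun m =>
    ⟨by positivity, div_lt_self hρ₀ (by linarith [(Nat.cast_nonneg m : (0 : ℝ) ≤ m)])⟩
  choose z Q hQ using fun m : ℕ => h _ (hr m).1 (hr m).2
  choose φ hφ1 hφ using fun m => exists_dual_vector'' ℝ (Q m (z m))
  have := FiniteDimensional.proper_real (Vf W (n + 1) →L[ℝ] ℝ)
  obtain ⟨ψ, hψ, σ, hσ, hlim⟩ := (isCompact_closedBall (0 : Vf W (n + 1) →L[ℝ] ℝ) 1).tendsto_subseq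
    (x := φ) fun m => mem_closedBall_zero_iff.2 (hφ1 m)
  have hψ1 := mem_closedBall_zero_iff.1 hψ
  obtain ⟨C', hC', hj⟩ := St.jets (X := E × E) K C hC ψ hψ1
  have c0 := hC 0
  have c1 := hC 1
  have r2 : 0 < S.r2 := by have := hS.r1p; have := hS.b01; unfold Sy.r2; positivity
  refine ⟨ψ, hψ1, C' + 2 * C 0 * (4 * C 1) ^ K, fun ρ1 hρ1 => ?_⟩
  have t1 : Tendsto (fun m => ρ₀ / ((σ m : ℝ) + 2)) atTop (𝓝 0) :=
    tendsto_const_nhds.div_atTop (tendsto_atTop_add_const_right _ _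
      (tendsto_natCast_atTop_atTop.comp hσ.tendsto_atTop))
  obtain ⟨m, m1, m2⟩ := ((t1.eventually (gt_mem_nhds (lt_min (lt_min hρ1 one_pos)
    (div_pos r2 (by linarith : 0 < C 0 + 1))))).and
    (hlim.eventually (ball_mem_nhds ψ (by norm_num : (0 : ℝ) < 1 / 4)))).exists
  obtain ⟨a1, -⟩ := hr (σ m)
  have H := hQ (σ m)
  have hφ' := hφ (σ m)
  rw [Function.comp_apply, dist_eq_norm] at m2
  generalize ρ₀ / ((σ m : ℝ) + 2) = ρ at *
  generalize z (σ m) = z₁ at *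
  generalize Q (σ m) = Q₁ at *
  simp only [lt_min_iff] at m1
  obtain ⟨⟨a2, a3⟩, a4⟩ := m1
  have b1 : ρ / (4 * C 1) ≤ ρ := div_le_self a1.le (by linarith)
  have b0 : 0 < ρ / (4 * C 1) := by positivity
  have sub : ball z₁ (ρ / (4 * C 1)) ⊆ ball z₁ ρ := ball_subset_ball b1
  have low : ∀ y ∈ ball z₁ (ρ / (4 * C 1)), 1 / 2 ≤ ψ (Q₁ y) := fun y hy => by
    have d1 : ‖Q₁ y - Q₁ z₁‖ ≤ C 1 / ρ * ‖y - z₁‖ :=
      (convex_ball z₁ ρ).norm_image_sub_le_of_norm_fderiv_le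
        (fun x _ => H.sm.differentiable (by simp) x)
        (fun x hx => by simpa using H.bd 1 x hx) (mem_ball_self a1) (sub hy)
    have d2 : C 1 / ρ * ‖y - z₁‖ ≤ 1 / 4 := by
      refine (mul_le_mul_of_nonneg_left (mem_ball_iff_norm.1 hy).le (by positivity)).trans_eq ?_
      field_simp
    have d3 := (ψ.le_of_opNorm_le hψ1 (Q₁ y - Q₁ z₁))
    have d4 := (φ (σ m) - ψ).le_of_opNorm_le m2.le (Q₁ z₁)
    rw [map_sub, Real.norm_eq_abs] at d3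
    rw [sub_apply, hφ', H.one, Real.norm_eq_abs] at d4
    simp only [RCLike.ofReal_one] at d4
    linarith [(abs_le.1 d3).1, (abs_le.1 d4).2]
  refine ⟨ρ / (4 * C 1), z₁, fun y => (ψ (Q₁ y))⁻¹ • Q₁ y, b0, b1.trans_lt a2, fun y hy => ?_, ?_,
    fun y hy => ⟨?_, fun i hi => ?_⟩⟩
  · rw [lt_div_iff₀ (by linarith)] at a4
    have := norm_add_le (y - z₁) z₁
    rw [sub_add_cancel] at this
    exact mem_ball_zero_iff.2 (by linarith [mem_ball_iff_norm.1 (sub hy), H.near])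
  · exact ((ψ.contDiff.comp H.sm).contDiffOn.inv fun y hy =>
      (by linarith [low y hy] : 0 < ψ (Q₁ y)).ne').smul H.sm.contDiffOn
  · have p0 : 0 < ψ (Q₁ y) := by linarith [low y hy]
    have e : (S.bx n f ψ).df y ((ψ (Q₁ y))⁻¹ • Q₁ y) = ((ψ (Q₁ y))⁻¹ • S.io n f y (Q₁ y), 0) := by
      simp [L.Box.df, Sy.bx, p0.ne']
    have i2 : (ψ (Q₁ y))⁻¹ ≤ 2 := by
      rw [inv_le_comm₀ p0 two_pos]; linarith [low y hy]
    have e2 : ρ ^ K = (4 * C 1) ^ K * (ρ / (4 * C 1)) ^ K := by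
      rw [← mul_pow]; congr 1; field_simp
    rw [e, Prod.norm_mk, norm_zero, max_eq_left (norm_nonneg _), norm_smul, Real.norm_eq_abs,
      abs_of_pos (inv_pos.2 p0)]
    refine (mul_le_mul i2 (H.rel y (sub hy)) (norm_nonneg _) zero_le_two).trans ?_
    rw [e2]
    nlinarith [mul_pos hC' (pow_pos b0 K)]
  · refine (hj ρ Q₁ y a1 a3.le H.sm (fun i => H.bd i y (sub hy)) (low y hy) i hi).trans ?_
    exact div_le_div₀ (by positivity) (le_add_of_nonneg_right (by positivity)) (pow_pos b0 i)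
      (pow_le_pow_left₀ b0.le b1 i)

end Crest.Agent.N221.G0
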