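import Crest.Agent.N221.G0.Top

/-!
Row 221, block G0: rank zero (helper36).  `NR` with `ε = 0` kills every local exact relation.
-/

set_option autoImplicit false

open Set Metric Filter Topology
open scoped ContDiff

noncomputable section

namespace Crest.Agent.N221.G0

namespace Sm4

variable {E W : Type} [NormedAddCommGroup E] [NormedSpace ℝ E] [NormedAddCommGroup W]
  [NormedSpace ℝ W] {S : Sy E W}

/-- a local exact relation is a slice relation with `ε = 0` -/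
theorem sr_of {n : ℕ} (N : ℕ) {f : S.F} {z : E × E} (hz : ‖z‖ ≤ S.R / 2) {Ψ : E → Vf W (n + 1)}
    (h : ∀ᶠ y in 𝓝 z.1, ContDiffAt ℝ ∞ Ψ y ∧ S.io n f (S.pt false f z y) (Ψ y) = 0) :
    ∃ ρ B, S.SR n N f z Ψ ρ 0 B := by
  set B := 1 + ∑ i ∈ Finset.range (N + 1), ‖iteratedFDeriv ℝ i Ψ z.1‖
  have h1 : ∀ᶠ y in 𝓝 z.1, ∀ i ∈ Finset.range (N + 1), ‖iteratedFDeriv ℝ i Ψ y‖ ≤ B := by
    refine (eventually_all_finset _).2 fun i hi => ?_
    have c : ContinuousAt (fun y => ‖iteratedFDeriv ℝ i Ψ y‖) z.1 :=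
      (h.self_of_nhds.1.continuousAt_iteratedFDeriv (by exact_mod_cast le_top)).norm
    have := Finset.single_le_sum (f := fun i => ‖iteratedFDeriv ℝ i Ψ z.1‖) (fun _ _ => norm_nonneg _) hi
    exact (c.eventually_lt_const (by simp only [B]; linarith)).mono fun _ => le_of_lt
  obtain ⟨ρ, hρ, k⟩ := Metric.eventually_nhds_iff_ball.1 (h.and h1)
  have k' : ∀ y ∈ ball z.1 (min ρ 1), _ := fun y hy => k y (ball_subset_ball (min_le_left _ _) hy)
  exact ⟨min ρ 1, B, hz, lt_min hρ one_pos, min_le_right _ _,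
    le_add_of_nonneg_right (Finset.sum_nonneg fun _ _ => norm_nonneg _),
    fun y hy => (k' y hy).1.1.contDiffWithinAt, fun y hy => by rw [(k' y hy).1.2, norm_zero],
    fun y hy i hi => (k' y hy).2 i (Finset.mem_range_succ_iff.2 hi)⟩

/-- no local exact relations -/
theorem nr_zero {n : ℕ} (hN : S.NR n) {f : S.F} {z : E × E} (hz : ‖z‖ ≤ S.R / 2) {Ψ : E → Vf W (n + 1)}
    (h : ∀ᶠ y in 𝓝 z.1, ContDiffAt ℝ ∞ Ψ y ∧ S.io n f (S.pt false f z y) (Ψ y) = 0) : Ψ z.1 = 0 := by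
  obtain ⟨N, a, θ, C, hθ, hN⟩ := hN
  obtain ⟨ρ, B, hs⟩ := sr_of N hz h
  have := hN f z Ψ ρ 0 B hs
  rwa [Real.zero_rpow hθ.ne', mul_zero, norm_le_zero_iff] at this

end Sm4

theorem z0S : Z0S := by
  intro E W _ _ _ _ _ _ S hS hN
  obtain ⟨f⟩ := hS.ne
  have hR : 0 < S.R / 2 := by linarith [hS.r0p, hS.r0R]
  refine ⟨f, ball 0 (S.R / 2), 0, fun _ => 0, isOpen_ball, nonempty_ball.2 hR, subset_rfl, contDiffOn_const,
    fun _ _ => rfl, fun z hz θ hθ v _ => ?_⟩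
  let L : (W →L[ℝ] ℝ) ≃ₗᵢ[ℝ] Vf W 1 := ContinuousAlternatingMap.ofSubsingletonLIE (0 : Fin 1)
  have h := Sm4.nr_zero (n := 0) hN (f := f) (mem_ball_zero_iff.1 hz).le (Ψ := fun y => L (θ y))
    (hθ.mono fun y hy => ⟨L.contDiff.contDiffAt.comp y hy.1, by ext w; exact hy.2⟩)
  rw [L.map_eq_zero_iff.1 h]
  rfl

end Crest.Agent.N221.G0
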