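import Crest.Agent.N221.G0.UqA
import Crest.Agent.N221.G0.ApB

/-!
Row 221, block G0/UQ (helper47): two approximate relations on one piece of a leaf are approximately
proportional, if approximate relations of degree one higher are small (`Loc`).
-/

set_option autoImplicit false

open Set Function Finset Metric
open scoped ContDiff

noncomputable section

namespace Crest.Agent.N221.G0.Uq

variable {E W : Type} [NormedAddCommGroup E] [NormedSpace ℝ E] [NormedAddCommGroup W]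
  [NormedSpace ℝ W] {n r : ℕ}

/-- `Θ` is a relation of `m` up to `ε` on `ball q ρ`, with `C^N` norm `≤ B` -/
structure Apx (n N : ℕ) (m : E → W) (q : E) (ρ ε B : ℝ) (Θ : E → Al W (n + 1)) : Prop where
  sm : ContDiffOn ℝ ∞ Θ (ball q ρ)
  rel : ∀ y ∈ ball q ρ, ‖io n (m y) (Θ y)‖ ≤ ε
  bd : ∀ y ∈ ball q ρ, ∀ k ≤ N, ‖iteratedFDeriv ℝ k Θ y‖ ≤ B

lemma Apx.val {N : ℕ} {m : E → W} {q : E} {ρ ε B : ℝ} {Θ : E → Al W (n + 1)}
    (h : Apx n N m q ρ ε B Θ) {y : E} (hy : y ∈ ball q ρ) : ‖Θ y‖ ≤ B := by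
  simpa using h.bd y hy 0 (Nat.zero_le _)

lemma bil_bd {X Y Y' Z : Type} [NormedAddCommGroup X] [NormedSpace ℝ X] [NormedAddCommGroup Y]
    [NormedSpace ℝ Y] [NormedAddCommGroup Y'] [NormedSpace ℝ Y'] [NormedAddCommGroup Z]
    [NormedSpace ℝ Z] (L : Y →L[ℝ] Y' →L[ℝ] Z) {f : X → Y} {g : X → Y'} {x : X} {N : ℕ}
    {A B c : ℝ} (c0 : 0 ≤ c) (hL : ∀ u v, ‖L u v‖ ≤ c * (‖u‖ * ‖v‖)) (hf : ContDiffAt ℝ ∞ f x)
    (hg : ContDiffAt ℝ ∞ g x) (hA : ∀ k ≤ N, ‖iteratedFDeriv ℝ k f x‖ ≤ A)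
    (hB : ∀ k ≤ N, ‖iteratedFDeriv ℝ k g x‖ ≤ B) : ContDiffAt ℝ ∞ (fun y => L (f y) (g y)) x ∧
    ∀ k ≤ N, ‖iteratedFDeriv ℝ k (fun y => L (f y) (g y)) x‖ ≤ c * (2 ^ N * (A * B)) := by
  refine ⟨(L.contDiff.contDiffAt.comp x hf).clm_apply hg, fun k hk => ?_⟩
  have hL' : ‖L‖ ≤ c := L.opNorm_le_bound₂ c0 fun u v => by rw [mul_assoc]; exact hL u v
  have A0 : 0 ≤ A := (norm_nonneg _).trans (hA 0 (Nat.zero_le _))
  have B0 : 0 ≤ B := (norm_nonneg _).trans (hB 0 (Nat.zero_le _))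
  refine (bilin_at L k hf hg).trans (mul_le_mul hL' ?_ (by positivity) c0)
  calc _ ≤ ∑ i ∈ range (k + 1), (k.choose i : ℝ) * (A * B) := sum_le_sum fun i hi => by
        rw [mul_assoc]
        exact mul_le_mul_of_nonneg_left (mul_le_mul (hA i (by have := mem_range.1 hi; omega))
          (hB _ (by omega)) (norm_nonneg _) A0) (by positivity)
    _ = 2 ^ k * (A * B) := by
        rw [← sum_mul, ← Nat.cast_sum, Nat.sum_range_choose]; push_cast; rfl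
    _ ≤ _ := by gcongr; norm_num

/-- product of an approximate relation with a covector that almost kills `m` -/
lemma Apx.wg {N : ℕ} {m : E → W} {q : E} {ρ ε B ε' B' : ℝ} {Θ : E → Al W (n + 1)}
    (h : Apx n N m q ρ ε B Θ) {l : E → W →L[ℝ] ℝ} (hl : ContDiffOn ℝ ∞ l (ball q ρ))
    (h1 : ∀ y ∈ ball q ρ, |l y (m y)| ≤ ε')
    (h2 : ∀ y ∈ ball q ρ, ∀ k ≤ N, ‖iteratedFDeriv ℝ k l y‖ ≤ B') :
    Apx (n + 1) N m q ρ (ε' * B + (n + 1) * (B' * ε)) ((n + 2) * (2 ^ N * (B' * B)))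
      fun y => wg (n + 1) (l y) (Θ y) := by
  have key := fun y hy => bil_bd (Y := W →L[ℝ] ℝ) (Y' := Al W (n + 1)) (Z := Al W (n + 1 + 1))
    (Uq.wg (n + 1)) (c := n + 2) (by positivity)
    (fun u v => (wg_le u v).trans_eq (by push_cast; ring)) (hl.contDiffAt (isOpen_ball.mem_nhds hy))
    (h.sm.contDiffAt (isOpen_ball.mem_nhds hy)) (h2 y hy) (h.bd y hy)
  refine ⟨fun y hy => (key y hy).1.contDiffWithinAt, fun y hy => ?_, fun y hy => (key y hy).2⟩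
  have a1 : ‖l y‖ ≤ B' := by simpa using h2 y hy 0 (Nat.zero_le _)
  have a0 := (abs_nonneg _).trans (h1 y hy)
  have a2 := (norm_nonneg _).trans a1
  refine (io_wg _ _ _).trans ?_
  gcongr
  exacts [h1 y hy, h.val hy, h.rel y hy]

lemma Apx.lam {N : ℕ} {m : E → W} {q : E} {ρ ε B : ℝ} {Θ : E → Al W (n + 1)}
    (h : Apx n N m q ρ ε B Θ) {e : Fin (n + 1) → W} (he : ∀ i, ‖e i‖ ≤ 1) (j : Fin (n + 1)) :
    ContDiffOn ℝ ∞ (fun y => lam e j (Θ y)) (ball q ρ) ∧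
      (∀ y ∈ ball q ρ, |lam e j (Θ y) (m y)| ≤ ε) ∧
      ∀ y ∈ ball q ρ, ∀ k ≤ N, ‖iteratedFDeriv ℝ k (fun y => lam e j (Θ y)) y‖ ≤ B := by
  refine ⟨(Uq.lam e j).contDiff.comp_contDiffOn h.sm,
    fun y hy => (lam_io he j _ _).trans (h.rel y hy), fun y hy k hk => ?_⟩
  have := (Uq.lam e j).norm_iteratedFDeriv_comp_left
    (cda (h.sm.contDiffAt (isOpen_ball.mem_nhds hy)) k) le_rfl
  exact this.trans ((mul_le_of_le_one_left (norm_nonneg _) (norm_lam he j)).trans (h.bd y hy k hk))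

theorem core {N : ℕ} {m : E → W} {q : E} {ρ η ε B : ℝ} (hρ : 0 < ρ)
    (H : ∀ Ψ, Apx (n + 1) N m q ρ ((n + 2) * B * ε) ((n + 2) * (2 ^ N * (B * B))) Ψ → ‖Ψ q‖ ≤ η)
    (hB : 1 ≤ B) {Θ Θ' : E → Al W (n + 1)}
    (h : Apx n N m q ρ ε B Θ) (h' : Apx n N m q ρ ε B Θ') {e : Fin (n + 1) → W}
    (he : ∀ i, ‖e i‖ ≤ 1) :
    |Θ q e| ^ (n + 1) * ‖Θ q e • Θ' q - Θ' q e • Θ q‖ ≤ ((n + 2) * B) ^ (n + 1) * (2 * B * η) := by
  have hq := mem_ball_self (x := q) hρ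
  have key : ∀ Ξ : E → Al W (n + 1), Apx n N m q ρ ε B Ξ → ∀ k,
      ‖wg (n + 1) (lam e k (Θ q)) (Ξ q)‖ ≤ η := by
    intro Ξ hΞ k
    obtain ⟨a1, a2, a3⟩ := h.lam he k
    have := hΞ.wg a1 a2 a3
    rw [show ε * B + (n + 1) * (B * ε) = (n + 2) * B * ε by ring] at this
    exact H _ this
  have x1 : |Θ q e| ≤ B := (val_le _ he).trans (h.val hq)
  have x2 : |Θ' q e| ≤ B := (val_le _ he).trans (h'.val hq)
  refine plk (Θ := Θ q) (Δ := Θ q e • Θ' q - Θ' q e • Θ q) he (by simp [mul_comm]) hB (h.val hq)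
    fun k => ?_
  rw [map_sub, map_smul, map_smul]
  refine (norm_sub_le _ _).trans ?_
  rw [norm_smul, norm_smul, Real.norm_eq_abs, Real.norm_eq_abs]
  linarith [mul_le_mul x1 (key _ h' k) (norm_nonneg _) (by linarith),
    mul_le_mul x2 (key _ h k) (norm_nonneg _) (by linarith)]

/-- all `2 × 2` minors -/
theorem minor {N : ℕ} {m : E → W} {q : E} {ρ η ε B : ℝ} (hρ : 0 < ρ)
    (H : ∀ Ψ, Apx (n + 1) N m q ρ ((n + 2) * B * ε) ((n + 2) * (2 ^ N * (B * B))) Ψ → ‖Ψ q‖ ≤ η)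
    (hB : 1 ≤ B) {Θ Θ' : E → Al W (n + 1)}
    (h : Apx n N m q ρ ε B Θ) (h' : Apx n N m q ρ ε B Θ') {ψ : Al W (n + 1) →L[ℝ] ℝ}
    (hψ : ‖ψ‖ ≤ 1) : ‖Θ q‖ ^ (n + 1) * ‖ψ (Θ q) • Θ' q - ψ (Θ' q) • Θ q‖ ≤
      2 ^ (n + 3) * (((n + 2) * B) ^ (n + 1) * (2 * B * η)) := by
  obtain ⟨e, he, h2⟩ := exists_tuple (Θ q)
  have c := core hρ H hB h h' he
  have c0 : 0 ≤ ((n + 2) * B) ^ (n + 1) * (2 * B * η) := le_trans (by positivity) c
  rcases (abs_nonneg (Θ q e)).eq_or_lt with x0 | x0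
  · have : ‖Θ q‖ = 0 := le_antisymm (by linarith) (norm_nonneg _)
    rw [this, zero_pow (by omega), zero_mul]
    positivity
  set Δ := Θ q e • Θ' q - Θ' q e • Θ q with hΔ
  have e1 : Θ q e • (ψ (Θ q) • Θ' q - ψ (Θ' q) • Θ q) = ψ (Θ q) • Δ - ψ Δ • Θ q := by
    rw [hΔ, map_sub, map_smul, map_smul, smul_eq_mul, smul_eq_mul]
    module
  have p1 : ∀ X, |ψ X| ≤ ‖X‖ := fun X =>
    (ψ.le_opNorm X).trans (mul_le_of_le_one_left (norm_nonneg _) hψ)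
  have e2 : ‖ψ (Θ q) • Θ' q - ψ (Θ' q) • Θ q‖ ≤ 4 * ‖Δ‖ := by
    refine le_of_mul_le_mul_left ?_ x0
    rw [← Real.norm_eq_abs, ← norm_smul, e1]
    refine (norm_sub_le _ _).trans ?_
    rw [norm_smul, norm_smul, Real.norm_eq_abs, Real.norm_eq_abs, Real.norm_eq_abs]
    linarith [mul_le_mul ((p1 _).trans h2) (le_refl ‖Δ‖) (norm_nonneg _) (by linarith),
      mul_le_mul (p1 Δ) h2 (norm_nonneg _) (norm_nonneg _)]
  calc _ ≤ (2 * |Θ q e|) ^ (n + 1) * (4 * ‖Δ‖) := by gcongr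
    _ = 2 ^ (n + 3) * (|Θ q e| ^ (n + 1) * ‖Δ‖) := by ring
    _ ≤ _ := by gcongr

end Crest.Agent.N221.G0.Uq
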