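import Crest.Agent.N221.G0.Top
import Crest.Agent.N221.G0.UqB

/-! Row 221, block G0 (helper47): `uqS : UqS`. -/

set_option autoImplicit false

open Set Metric
open scoped ContDiff

namespace Crest.Agent.N221.G0

theorem uqS : UqS := by
  rintro E W _ _ _ _ _ _ S _ n ⟨N, a, θ, C, hθ, H⟩
  refine ⟨N, 2 * a + ⌈θ⌉₊ + (n + 2), θ, hθ, 2 ^ (n + 4) * (n + 2) ^ (n + 1) *
    (|C| * ((n + 2) * 2 ^ N) ^ a * (n + 2) ^ ⌈θ⌉₊), fun f z Θ Θ' ρ ε B h h' ψ hψ => ?_⟩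
  have hρ := h.pos
  have hB := h.one
  have ε0 : 0 ≤ ε := (norm_nonneg _).trans (h.df _ (mem_ball_self hρ))
  have n0 : (0 : ℝ) ≤ n := n.cast_nonneg
  have b1 : 1 ≤ (n + 2) * (2 ^ N * (B * B)) := one_le_mul_of_one_le_of_one_le (by linarith)
    (one_le_mul_of_one_le_of_one_le (one_le_pow₀ one_le_two) (one_le_mul_of_one_le_of_one_le hB hB))
  have := Uq.minor (n := n) (N := N) (m := fun y => S.M f (S.pt false f z y)) (ε := ε) hρ
    (fun Ψ hΨ => H f z Ψ ρ _ _ ⟨h.mem, hρ, h.le, b1, hΨ.sm, hΨ.rel, hΨ.bd⟩) hB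
    ⟨h.sm, h.df, h.bd⟩ ⟨h'.sm, h'.df, h'.bd⟩ hψ
  refine this.trans ?_
  have r1 : B ≤ B / ρ := le_div_self (by linarith) hρ h.le
  have r2 : (n + 2) * (2 ^ N * (B * B)) / ρ ≤ (n + 2) * 2 ^ N * (B / ρ) ^ 2 := by
    have : B * (B / ρ) ≤ B / ρ * (B / ρ) := by gcongr
    calc _ = (n + 2) * 2 ^ N * (B * (B / ρ)) := by ring
      _ ≤ (n + 2) * 2 ^ N * (B / ρ * (B / ρ)) := by gcongr
      _ = _ := by ring
  have r3 : ((n + 2) * B * ε) ^ θ ≤ ((n + 2) * (B / ρ)) ^ ⌈θ⌉₊ * ε ^ θ := by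
    rw [Real.mul_rpow (by positivity) ε0]
    refine mul_le_mul_of_nonneg_right ?_ (by positivity)
    calc _ ≤ ((n + 2) * B) ^ (⌈θ⌉₊ : ℝ) := Real.rpow_le_rpow_of_exponent_le
          (one_le_mul_of_one_le_of_one_le (by linarith) hB) (Nat.le_ceil θ)
      _ = ((n + 2) * B) ^ ⌈θ⌉₊ := Real.rpow_natCast _ _
      _ ≤ _ := by gcongr
  calc _ ≤ 2 ^ (n + 3) * (((n + 2) * (B / ρ)) ^ (n + 1) * (2 * (B / ρ) *
        (|C| * ((n + 2) * 2 ^ N * (B / ρ) ^ 2) ^ a * (((n + 2) * (B / ρ)) ^ ⌈θ⌉₊ * ε ^ θ)))) := by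
        have := le_abs_self C
        refine mul_le_mul_of_nonneg_left (mul_le_mul (by gcongr) ?_ ?_ (by positivity))
          (by positivity)
        · calc _ ≤ 2 * B * (|C| * ((n + 2) * (2 ^ N * (B * B)) / ρ) ^ a * ((n + 2) * B * ε) ^ θ) := by
                gcongr
            _ ≤ _ := by gcongr
        · have h0 := (norm_nonneg _).trans (H f z 0 ρ ((n + 2) * B * ε) _ ⟨h.mem, hρ, h.le, b1,
            contDiffOn_const, fun y _ => by simpa using by positivity, fun y _ i _ => by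
              rw [show (0 : E → Vf W (n + 1 + 1)) = fun _ => 0 from rfl, iteratedFDeriv_fun_zero]
              simpa using zero_le_one.trans b1⟩)
          positivity
    _ = _ := by rw [mul_pow, mul_pow, mul_pow _ (B / ρ), ← pow_mul]; generalize B / ρ = x; ring

end Crest.Agent.N221.G0
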