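import Crest.Agent.N221.G0.SoA
import Crest.Agent.N221.G0.Nr3
import Crest.Agent.N221.G0.Uq
import Crest.Agent.N221.G0.Mx
import Crest.Agent.N221.G0.Sm1
import Crest.Agent.N221.G0.Sm2
import Crest.Agent.N221.G0.Sm3
import Crest.Agent.N221.G0.Sm4
import Crest.Agent.N221.G0.Lb
import Crest.Agent.N221.G0.LAll
import Crest.Agent.N221.G0.Sg

/-! Row 221, block G0 (helper91): wiring. -/

set_option autoImplicit false

namespace Crest.Agent.N221.G0

theorem g0a_of3 (so : SoX) (ap : AprS) (fl : FldS) : G0A :=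
  g0a_of rkS nrS uqS mxS z0S glS sgS bxS ubS stS (famS_of lbS (soS_of so) ap fl) L.ls

end Crest.Agent.N221.G0
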