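import Crest.Agent.N221.G0.ISg

/-!
Row 221, block G0, instance (helper85): `dyn3`, the geometry of `fwd`, `bwd`, `hit`.
-/

set_option autoImplicit false
set_option linter.unusedSectionVars false
set_option linter.unusedVariables false

open MeasureTheory Set Filter Topology Metric
open scoped ContDiff RealInnerProductSpace ENNReal
open Crest.GeometryTopology.Submanifold
open Crest.Agent.R241.DDefs Crest.Agent.R241.D2
open Crest.Agent.R208.J Crest.Agent.R208.L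

noncomputable section

namespace Crest.Agent.N221.Cov

variable {n N m : ℕ} {a : ℝ} {S : Set (Euc N)} {G : Geo n N (-(a ^ 2)) S} (C : Cov G)
variable {f f' f0 f1 : FF n N m} {z z0 : ZZ m} {ξ : Euc n} {R e D τ τ' κ : ℝ}

lemma norm_gs_zero (f : FF n N m) (ξ : Euc n) : ‖C.gs f ξ 0‖ = ‖C.pq f ξ 0‖ := by
  simp [gs, Prod.norm_def]

lemma Sg.mono {C : Cov G} (h : C.Sg R e D τ' f ξ f') (hτ : τ ≤ τ') : C.Sg R e D τ f ξ f' :=
  ⟨h.fr, h.fr', h.fw, h.dd, h.l0, fun q hq =>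
    ⟨(h.pl q hq).1, (h.pl q hq).2.1, (h.pl q hq).2.2.1, hτ.trans (h.pl q hq).2.2.2⟩⟩

variable (H : Hyp n N a S) (hm : m + 1 = n)
include H hm

/-- change of chart to a frame centred at a nearby chart point -/
lemma chg : ∃ K δ : ℝ, 1 ≤ K ∧ 0 < δ ∧ ∀ (f f0 : FF n N m) (z0 z : ZZ m) (ε : ℝ), C.Frm f →
    C.Frm f0 → f0.1 = C.hy f z0.1 → f0.2.1 = C.uv f z0 → ε ≤ δ → ‖z0‖ ≤ ε → ‖z‖ ≤ ε →
    (z ∈ C.dm f f0 ∧ ‖C.Tf f f0 z‖ ≤ K * ε ∧ |C.tm f f0 z| ≤ K * ε) ∧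
    (z ∈ C.dm f0 f ∧ ‖C.Tf f0 f z‖ ≤ K * ε ∧ |C.tm f0 f z| ≤ K * ε) := by
  obtain ⟨K, δ, k0, d0, h⟩ := C.step H hm (m := m) 0
  obtain ⟨U, u0, hU⟩ := C.uv_near H hm (m := m)
  have r0 := C.rr_pos H hm
  refine ⟨1 + K * (1 + U), min (δ / (1 + U)) (C.rr m), le_add_of_nonneg_right (by positivity),
    by positivity, fun f f0 z0 z ε hf h0 e1 e2 hε hz0 hz => ?_⟩
  have ε0 := (norm_nonneg z).trans hz
  have b1 : (1 + U) * ε ≤ δ := (le_div_iff₀' (by positivity)).1 (hε.trans (min_le_left _ _))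
  have b2 := hε.trans (min_le_right _ _)
  have x1 : 0 ≤ U * ε := by positivity
  have i1 : ‖C.uv f z0 - f.2.1‖ ≤ (1 + U) * ε :=
    (hU f z0 hf (by linarith)).trans (by nlinarith [mul_le_mul_of_nonneg_left hz0 u0.le])
  have i2 : C.dd f.1 f0.1 ≤ (1 + U) * ε := by
    rw [e1, C.dd_hy hf]
    linarith [norm_fst_le z0]
  have i3 : K * ((1 + U) * ε) ≤ (1 + K * (1 + U)) * ε := by nlinarith
  obtain ⟨a1, a2, a3⟩ := h f f0 z 0 _ hf h0 (by simp) b1 (by linarith)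
    (by rwa [C.gd_zero, C.dd_comm]) (by rwa [C.vel_zero, e2, norm_sub_rev])
  obtain ⟨c1, c2, c3⟩ := h f0 f z 0 _ h0 hf (by simp) b1 (by linarith)
    (by rwa [C.gd_zero]) (by rwa [C.vel_zero, e2])
  rw [sub_zero] at a3 c3
  exact ⟨⟨a1, a2.trans i3, a3.trans i3⟩, c1, c2.trans i3, c3.trans i3⟩

/-- the frames centred at a point and at its image are on one orbit -/
lemma ov_cen (hf : C.Frm f) (hf' : C.Frm f') (hz : z ∈ C.dm f f') (a1 : f0.1 = C.hy f z.1)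
    (a2 : f0.2.1 = C.uv f z) (b1 : f1.1 = C.hy f' (C.Tf f f' z).1)
    (b2 : f1.2.1 = C.uv f' (C.Tf f f' z)) : C.Ov f0 f1 (C.tm f f' z) := by
  obtain ⟨h1, h2⟩ := C.hy_Tf H hm hf hf' hz
  exact ⟨by rw [b1, h1, a1, a2], by rw [b2, h2, a1, a2]⟩

/-- PLAQUES: one point of the stable plaque flies from `f` to `f'`, so does the plaque -/
lemma plq : ∃ K δ : ℝ, 1 ≤ K ∧ 0 < δ ∧ ∀ (f f' : FF n N m) (z0 : ZZ m) (ε : ℝ), C.Frm f →
    C.Frm f' → z0 ∈ C.dm f f' → ε ≤ δ → ‖z0‖ ≤ ε → ‖C.Tf f f' z0‖ ≤ ε → 0 ≤ C.tm f f' z0 →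
    ∀ q, ‖q‖ ≤ ε → ‖C.gs f (C.ge f z0).1 q‖ ≤ K * ε ∧ C.gs f (C.ge f z0).1 q ∈ C.dm f f' ∧
      ‖C.Tf f f' (C.gs f (C.ge f z0).1 q)‖ ≤ K * ε ∧
      |C.tm f f' (C.gs f (C.ge f z0).1 q) - C.tm f f' z0| ≤ K * ε := by
  obtain ⟨K1, k1, h1⟩ := C.gs_le H hm (m := m)
  obtain ⟨K2, k2, h2⟩ := C.pq_le H hm (m := m)
  obtain ⟨K3, δ3, k3, d3, h3⟩ := C.chg H hm (m := m)
  obtain ⟨K4, δ4, k4, d4, h4⟩ := C.ctrP_s H hm (m := m)
  have r0 := C.rr_pos H hm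
  have r1 := (C.rad H hm).le
  set M := K3 * ((1 + K4) * (K3 * (K1 + K2))) with hM
  have M0 : 0 < M := by positivity
  refine ⟨1 + 3 * M, min (min δ3 δ4 / M) (C.rr m), le_add_of_nonneg_right (by positivity),
    by positivity, fun f f' z0 ε hf hf' hz hε n0 n1 ht q hq => ?_⟩
  have ε0 := (norm_nonneg q).trans hq
  have b1 : M * ε ≤ min δ3 δ4 := (le_div_iff₀' M0).1 (hε.trans (min_le_left _ _))
  have b2 := hε.trans (min_le_right _ _)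
  have b3 := b1.trans (min_le_left _ _)
  have b4 := b1.trans (min_le_right _ _)
  obtain ⟨f0, g0, a1, a2, a3, -⟩ := C.centre H hm hf hz.1
  obtain ⟨f1, g1, c1, c2, -⟩ := C.centre H hm hf' (C.Tf_spec H hm hf' hz).1
  have ho := C.ov_cen H hm hf hf' hz a1 a2 c1 c2
  have w := (C.rad H hm).front f hf z0 (by linarith)
  set ξ := (C.ge f z0).1
  set e1 := (K1 + K2) * ε with he1
  set e2 := K3 * e1 with he2
  set e3 := (1 + K4) * e2 with he3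
  have eM : M * ε = K3 * e3 := by rw [hM, he3, he2, he1]; ring
  have y1 : ε ≤ e1 := by nlinarith
  have y2 : e1 ≤ e2 := le_mul_of_one_le_left (by linarith) k3
  have y0 : 0 ≤ K4 * e2 := mul_nonneg k4.le (by linarith)
  have y3 : e3 = e2 + K4 * e2 := by ring
  have y4 : e3 ≤ K3 * e3 := le_mul_of_one_le_left (by linarith) k3
  have i1 : ‖C.gs f ξ q‖ ≤ e1 := by
    have := (h1 f ξ q hf w.1 (by linarith)).1
    have := (h2 f z0 hf (by linarith)).1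
    nlinarith [mul_le_mul_of_nonneg_left hq (zero_le_one.trans k1),
      mul_le_mul_of_nonneg_left n0 (zero_le_one.trans k2)]
  obtain ⟨⟨m1, m2, m3⟩, -⟩ := h3 f f0 z0 _ e1 hf g0 a1 a2 (by linarith) (by linarith) i1
  obtain ⟨p1, p2, p3⟩ := h4 f0 f1 _ _ e2 g0 g1 ho ht (by linarith) m2
    (by rw [(C.Tf_spec H hm g0 m1).2, (C.ge_gs H hm hf w (by linarith)).2.2, a3])
  have ex : Real.exp (-(a * C.tm f f' z0)) ≤ 1 :=
    Real.exp_le_one_iff.2 (by nlinarith [H.a_pos])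
  obtain ⟨-, s1, s2, s3⟩ := h3 f' f1 _ _ e3 hf' g1 c1 c2 (by linarith) (by linarith)
    (p2.trans (by linarith [mul_le_of_le_one_right y0 ex]))
  obtain ⟨u1, u2, u3⟩ := C.Tf_comp H hm g0 g1 m1 p1
  rw [← u2] at s1 s2 s3
  obtain ⟨v1, v2, v3⟩ := C.Tf_comp H hm g1 hf' u1 s1
  have eK : (1 + 3 * M) * ε = ε + 3 * (K3 * e3) := by rw [← eM]; ring
  rw [eK, v2, v3, u3]
  refine ⟨by linarith, v1, by linarith, ?_⟩
  rw [abs_le] at *
  constructor <;> linarith [m3.1, m3.2, p3.1, p3.2, s3.1, s3.2]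

/-- a step from one point -/
lemma sg_of : ∃ K δ : ℝ, 1 ≤ K ∧ 0 < δ ∧ ∀ (f f' : FF n N m) (z0 : ZZ m) (ε R e D τ : ℝ),
    C.Frm f → C.Frm f' → z0 ∈ C.dm f f' → ε ≤ δ → ‖z0‖ ≤ ε → ‖C.Tf f f' z0‖ ≤ ε → R ≤ ε →
    K * ε ≤ e → 0 ≤ τ → τ + 1 ≤ C.tm f f' z0 → C.tm f f' z0 + 1 ≤ D →
    ‖C.lf f f' (C.ge f z0).1 0‖ ≤ 2 * R / 3 → C.Sg R e D τ f (C.ge f z0).1 f' := by
  obtain ⟨K, δ, k1, d0, h⟩ := C.plq H hm (m := m)
  have r0 := C.rr_pos H hm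
  have r1 := (C.rad H hm).le
  refine ⟨K, min δ (1 / K), k1, by positivity,
    fun f f' z0 ε R e D τ hf hf' hz hε n0 n1 hR he t0 t1 t2 l0 => ?_⟩
  have b1 : K * ε ≤ 1 := (le_div_iff₀' (by positivity)).1 (hε.trans (min_le_right _ _))
  refine ⟨hf, hf', (C.rad H hm).front f hf z0 (by linarith [hz.1]), ?_, l0, fun q hq => ?_⟩
  · have := (abs_le.1 (C.dd_tm H hm hf hf' hz)).1
    rw [abs_of_nonneg (by linarith)] at this
    linarith [norm_fst_le z0, norm_fst_le (C.Tf f f' z0), hz.1, (C.Tf_spec H hm hf' hz).1]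
  · obtain ⟨a1, a2, a3, a4⟩ := h f f' z0 ε hf hf' hz (hε.trans (min_le_left _ _)) n0 n1
      (by linarith) q ((mem_ball_zero_iff.1 hq).le.trans hR)
    exact ⟨a2, a1.trans he, a3.trans he, by linarith [(abs_le.1 a4).1]⟩

/-- stable leaves approach each other backwards -/
lemma W_con : ∃ K δ : ℝ, 0 < K ∧ 0 < δ ∧ ∀ (f f' : FF n N m) (z : ZZ m) (ξ' : Euc n) (d : ℝ),
    C.Frm f → C.Frm f' → z ∈ C.dm f f' → 0 ≤ C.tm f f' z → ‖ξ'‖ = 1 → d ≤ δ →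
    ‖C.W ξ' (C.hy f' (C.Tf f f' z).1) - C.uv f' (C.Tf f f' z)‖ ≤ d →
    ‖C.W ξ' (C.hy f z.1) - C.uv f z‖ ≤ K * Real.exp (-(a * C.tm f f' z)) * d := by
  obtain ⟨K, δ, k0, d0, h⟩ := C.box_s H hm (m := m)
  obtain ⟨U, u0, hU⟩ := C.uv_near H hm (m := m)
  have r0 := C.rr_pos H hm
  refine ⟨U * K, min (min δ 1) (C.rr m / K), by positivity, by positivity,
    fun f f' z ξ' d hf hf' hz ht hξ hd h1 => ?_⟩
  obtain ⟨f0, g0, a1, a2, -⟩ := C.centre H hm hf hz.1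
  obtain ⟨f1, g1, c1, c2, -⟩ := C.centre H hm hf' (C.Tf_spec H hm hf' hz).1
  have ho := C.ov_cen H hm hf hf' hz a1 a2 c1 c2
  rw [← c1, ← c2] at h1
  obtain ⟨w1, w2⟩ := C.fw_of_near H g1 hξ
    (hd.trans ((min_le_left _ _).trans (min_le_right _ _))) h1
  obtain ⟨p1, p2, -⟩ := h f0 f1 ξ' _ d g0 g1 ho ht w1
    (hd.trans ((min_le_left _ _).trans (min_le_left _ _))) w2
  have b1 : K * d ≤ C.rr m := (le_div_iff₀' k0).1 (hd.trans (min_le_right _ _))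
  have ex : Real.exp (-(a * C.tm f f' z)) ≤ 1 := Real.exp_le_one_iff.2 (by nlinarith [H.a_pos])
  have y0 : 0 ≤ K * d := mul_nonneg k0.le ((norm_nonneg _).trans h1)
  have i := hU f0 (C.gs f0 ξ' 0) g0
    (by rw [norm_gs_zero]; linarith [mul_le_of_le_one_right y0 ex])
  rw [(C.ge_gs H hm g0 p1 (by rw [norm_zero]; positivity)).2.1, C.hy_zero, norm_gs_zero, a1,
    a2] at i
  exact i.trans ((mul_le_mul_of_nonneg_left p2 u0.le).trans (le_of_eq (by ring)))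

/-- the same in the charts -/
lemma pq_con : ∃ K δ : ℝ, 0 < K ∧ 0 < δ ∧ ∀ (f f' : FF n N m) (z : ZZ m) (ξ' : Euc n) (d : ℝ),
    C.Frm f → C.Frm f' → z ∈ C.dm f f' → 0 ≤ C.tm f f' z → C.Fw f' ξ' → d ≤ δ →
    ‖C.pq f' ξ' (C.Tf f f' z).1 - (C.Tf f f' z).2‖ ≤ d →
    ‖C.W ξ' (C.hy f z.1) - C.uv f z‖ ≤ K * Real.exp (-(a * C.tm f f' z)) * d ∧
    ‖C.pq f ξ' z.1 - z.2‖ ≤ K * Real.exp (-(a * C.tm f f' z)) * d := by
  obtain ⟨K, δ, k0, d0, h⟩ := C.W_con H hm (m := m)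
  obtain ⟨U, u0, hU⟩ := C.uv_lip H hm (m := m)
  have r0 := C.rr_pos H hm
  refine ⟨2 * (K * U), min (δ / U) (C.rr m), by positivity, by positivity,
    fun f f' z ξ' d hf hf' hz ht hξ hd h1 => ?_⟩
  have n1 := (C.Tf_spec H hm hf' hz).1
  set z' := C.Tf f f' z
  have e1 : ‖C.gs f' ξ' z'.1 - z'‖ ≤ d := by
    rw [Prod.norm_def]
    exact max_le (by simpa [gs] using (norm_nonneg _).trans h1) h1
  have i := hU f' (C.gs f' ξ' z'.1) z' hf'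
    (by linarith [norm_le_norm_add_norm_sub' (C.gs f' ξ' z'.1) z', hd.trans (min_le_right _ _)])
    (by linarith)
  rw [(C.ge_gs H hm hf' hξ (by linarith [norm_fst_le z'])).2.1] at i
  have j := h f f' z ξ' (U * d) hf hf' hz ht hξ.1
    ((le_div_iff₀' u0).1 (hd.trans (min_le_left _ _)))
    (i.trans (mul_le_mul_of_nonneg_left e1 u0.le))
  have n0 := norm_nonneg (C.W ξ' (C.hy f z.1) - C.uv f z)
  have e2 : 2 * (K * U) * Real.exp (-(a * C.tm f f' z)) * d =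
      2 * (K * Real.exp (-(a * C.tm f f' z)) * (U * d)) := by ring
  rw [e2]
  refine ⟨by linarith, ?_⟩
  have e3 : C.pq f ξ' z.1 - z.2 = (C.Jh f z.1).adjoint (C.W ξ' (C.hy f z.1) - C.uv f z) := by
    rw [map_sub, C.adj_uv H hf]
    rfl
  have l := (C.Jh f z.1).adjoint.le_opNorm (C.W ξ' (C.hy f z.1) - C.uv f z)
  rw [LinearIsometryEquiv.norm_map] at l
  rw [e3]
  have J := (C.rad H hm).J_le f hf z.1 (by linarith [norm_fst_le z, hz.1])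
  nlinarith [mul_le_mul_of_nonneg_right J n0]

/-- the foot point of a leaf that is near the centre of the later chart -/
lemma fw1 : ∃ K δ : ℝ, 1 ≤ K ∧ 0 < δ ∧ ∀ (f f0 f' : FF n N m) (z0 : ZZ m) (ξ' : Euc n) (T ε : ℝ),
    C.Frm f → C.Frm f0 → C.Frm f' → f0.1 = C.hy f z0.1 → f0.2.1 = C.uv f z0 → C.Ov f0 f' T →
    0 ≤ T → ε ≤ δ → ‖z0‖ ≤ ε → C.Fw f ξ' → C.Fw f' ξ' → ‖C.pq f ξ' 0‖ ≤ ε → ‖C.pq f' ξ' 0‖ ≤ ε →
    C.gs f ξ' 0 ∈ C.dm f f' ∧ ‖C.Tf f f' (C.gs f ξ' 0)‖ ≤ K * ε ∧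
      |C.tm f f' (C.gs f ξ' 0) - T| ≤ K * ε := by
  obtain ⟨K1, δ1, k1, d1, h1⟩ := C.chg H hm (m := m)
  obtain ⟨K2, δ2, k2, d2, h2⟩ := C.box_s H hm (m := m)
  refine ⟨K1 + K2 * K1, min δ1 (δ2 / K1), k1.trans (le_add_of_nonneg_right (by positivity)),
    by positivity, fun f f0 f' z0 ξ' T ε hf g0 hf' a1 a2 ho hT hε n0 w w' p p' => ?_⟩
  have ε0 := (norm_nonneg _).trans n0
  have b2 : K1 * ε ≤ δ2 := (le_div_iff₀' (by positivity)).1 (hε.trans (min_le_right _ _))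
  obtain ⟨⟨m1, m2, m3⟩, -⟩ := h1 f f0 z0 (C.gs f ξ' 0) ε hf g0 a1 a2 (hε.trans (min_le_left _ _))
    n0 (by rwa [norm_gs_zero])
  have e := (C.Tf_gs H hm hf g0 w m1).1
  obtain ⟨-, -, h3⟩ := h2 f0 f' ξ' T (K1 * ε) g0 hf' ho hT w' b2
    (p'.trans (le_mul_of_one_le_left ε0 k1))
  obtain ⟨s1, s2, s3⟩ := h3 (C.lf f f0 ξ' 0) ((norm_fst_le _).trans m2)
  rw [← e] at s1 s2 s3
  obtain ⟨v1, v2, v3⟩ := C.Tf_comp H hm g0 hf' m1 s1
  have eK : (K1 + K2 * K1) * ε = K1 * ε + K2 * (K1 * ε) := by ring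
  have y0 : 0 ≤ K1 * ε := by positivity
  rw [eK, v2, v3]
  refine ⟨v1, by linarith, ?_⟩
  rw [abs_le] at *
  constructor <;> linarith [m3.1, m3.2, s3.1, s3.2]

theorem dyn3 {e b0 : ℝ} (he : 0 < e) (hb : 1 ≤ b0) : ∃ R1 > 0, ∀ R, 0 < R → R ≤ R1 →
    ∃ r2 > 0, ∀ r1, 0 < r1 → r1 ≤ r2 → ∀ κ > 0, ∀ τ : ℝ, ∃ D, C.Dyn3 m b0 R e r1 κ D τ := by
  obtain ⟨Ks, δs, ks, ds, hs⟩ := C.sg_of H hm (m := m)
  obtain ⟨Kp, δp, kp, dp, hp⟩ := C.plq H hm (m := m)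
  obtain ⟨Kc, δc, kc, dc, hc⟩ := C.pq_con H hm (m := m)
  obtain ⟨Kf, δf, kf, df, hw⟩ := C.fw1 H hm (m := m)
  obtain ⟨Kg, kg, hg⟩ := C.gs_le H hm (m := m)
  obtain ⟨U, u0, hU⟩ := C.uv_near H hm (m := m)
  have r0 := C.rr_pos H hm
  have r4 := (C.rad H hm).le
  have ha := H.a_pos
  refine ⟨min (min (min δs (C.rr m / 2)) (e / Ks) / b0) (δc / (2 * Kg + 2)), by positivity,
    fun R R0 hR => ?_⟩
  have x0 : b0 * R ≤ min (min δs (C.rr m / 2)) (e / Ks) :=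
    (le_div_iff₀' (by positivity)).1 (hR.trans (min_le_left _ _))
  have x1 : b0 * R ≤ δs := x0.trans ((min_le_left _ _).trans (min_le_left _ _))
  have x2 : b0 * R ≤ C.rr m / 2 := x0.trans ((min_le_left _ _).trans (min_le_right _ _))
  have x3 : Ks * (b0 * R) ≤ e := (le_div_iff₀' (by positivity)).1 (x0.trans (min_le_right _ _))
  have x4 : (2 * Kg + 2) * R ≤ δc := (le_div_iff₀' (by positivity)).1 (hR.trans (min_le_right _ _))
  have x5 : R ≤ b0 * R := le_mul_of_one_le_left R0.le hb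
  refine ⟨min (min (R / 6 / Kf) (1 / (U + 1))) (min δf (min δp δc)), by positivity,
    fun r1 r10 hr κ κ0 τ => ?_⟩
  have y1 : Kf * r1 ≤ R / 6 :=
    (le_div_iff₀' (by positivity)).1 (hr.trans ((min_le_left _ _).trans (min_le_left _ _)))
  have y2 : (U + 1) * r1 ≤ 1 :=
    (le_div_iff₀' (by positivity)).1 (hr.trans ((min_le_left _ _).trans (min_le_right _ _)))
  have y3 : r1 ≤ δf := hr.trans ((min_le_right _ _).trans (min_le_left _ _))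
  have y4 : r1 ≤ δp := hr.trans ((min_le_right _ _).trans ((min_le_right _ _).trans (min_le_left _ _)))
  have y5 : r1 ≤ δc := hr.trans ((min_le_right _ _).trans ((min_le_right _ _).trans (min_le_right _ _)))
  have y6 : r1 ≤ Kf * r1 := le_mul_of_one_le_left r10.le kf
  -- the flight time
  obtain ⟨t, t0, t1, t2, t3, t4⟩ : ∃ t : ℝ, 0 ≤ t ∧ τ ≤ t ∧ 8 * Real.exp (-(a * t)) ≤ 1 / 6 ∧
      Kc * Real.exp (-(a * t)) ≤ κ ∧ Kc * Real.exp (-(a * t)) ≤ 1 / 2 := by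
    have l : ∀ c : ℝ, Tendsto (fun t : ℝ => c * Real.exp (-(a * t))) atTop (𝓝 0) := fun c => by
      simpa using (Real.tendsto_exp_neg_atTop_nhds_zero.comp
        (tendsto_id.const_mul_atTop ha)).const_mul c
    exact ((eventually_ge_atTop 0).and ((eventually_ge_atTop τ).and
      (((l 8).eventually_le_const (by norm_num)).and
      (((l Kc).eventually_le_const κ0).and
      ((l Kc).eventually_le_const (by norm_num)))))).exists
  have mon : ∀ s, t ≤ s → Kc * Real.exp (-(a * s)) ≤ Kc * Real.exp (-(a * t)) := fun s h => by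
    gcongr
  obtain ⟨Q, hQ⟩ := C.ret H hm (m := m) (ε := r1 / Kp) (by positivity)
  refine ⟨t + 4 + 2 * |Q|, fun f ξ hf w p => ?_, fun f z0 hf n1 n2 => ?_, fun f f' hf hf' => ?_⟩
  · -- forward
    have n0 : ‖C.gs f ξ 0‖ ≤ r1 / 2 := by rwa [norm_gs_zero]
    obtain ⟨f0, g0, a1, a2, a3, a4, a5, a6⟩ := C.centre H hm hf (z := C.gs f ξ 0) (by linarith)
    have g' := g0.fw C (t + 2)
    have ho := C.ov_fw f0 (t + 2)
    set f' := C.fw f0 (t + 2)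
    obtain ⟨c1, c2, c3⟩ := C.Tf_zero H hm g0 g' ho
    obtain ⟨v1, v2, v3⟩ := C.Tf_comp H hm g0 g' a4 (by rwa [a5])
    rw [a5, c2] at v2
    rw [a5, c3, a6, zero_add] at v3
    have eξ : (C.ge f' 0).1 = ξ := by
      rw [Ov.ge_eq C H hm g0 g' ho, a3, (C.ge_gs H hm hf w (by rw [norm_zero]; positivity)).2.2]
    have key : ∀ ξ', C.Fw f' ξ' → ‖C.pq f' ξ' 0‖ ≤ r1 → ‖C.pq f ξ' 0‖ ≤ r1 ∧
        C.Sg R e (t + 4 + 2 * |Q|) t f ξ' f' ∧ ‖C.lf f f' ξ' 0‖ ≤ R / 6 := fun ξ' w' p' => by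
      obtain ⟨i1, i2⟩ := hc f f' _ ξ' r1 hf g' v1 (by linarith) w' y5 (by rw [v2]; simpa using p')
      have i3 : Kc * Real.exp (-(a * C.tm f f' (C.gs f ξ 0))) * r1 ≤ 1 / 2 * r1 :=
        mul_le_mul_of_nonneg_right ((mon _ (by linarith)).trans t4) r10.le
      have i4 := hU f (C.gs f ξ 0) hf (by linarith)
      have i5 := norm_sub_le_norm_sub_add_norm_sub (C.W ξ' f.1) (C.uv f (C.gs f ξ 0)) f.2.1
      have j1 : ‖C.W ξ' f.1 - C.uv f (C.gs f ξ 0)‖ ≤ 1 / 2 * r1 := by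
        have := i1.trans i3
        rwa [show (C.gs f ξ 0).1 = 0 from rfl, C.hy_zero] at this
      have j2 : ‖C.pq f ξ' 0 - C.pq f ξ 0‖ ≤ 1 / 2 * r1 := i2.trans i3
      have w2 := (C.fw_of_near H hf w'.1 le_rfl
        (by nlinarith [mul_le_mul_of_nonneg_left n0 u0.le])).1
      have p2 : ‖C.pq f ξ' 0‖ ≤ r1 := by
        linarith [norm_le_norm_add_norm_sub' (C.pq f ξ' 0) (C.pq f ξ 0)]
      obtain ⟨s1, s2, s3⟩ := hw f f0 f' _ ξ' (t + 2) r1 hf g0 g' a1 a2 ho (by linarith) y3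
        (by linarith) w2 w' p2 p'
      have l0 : ‖C.lf f f' ξ' 0‖ ≤ R / 6 := ((norm_fst_le _).trans s2).trans y1
      have e2 := (C.ge_gs H hm hf w2 (q := 0) (by rw [norm_zero]; positivity)).2.2
      refine ⟨p2, ?_, l0⟩
      have := hs f f' (C.gs f ξ' 0) (b0 * R) R e (t + 4 + 2 * |Q|) t hf g' s1 x1
        (by rw [norm_gs_zero]; linarith) (by linarith) x5 x3 t0
        (by linarith [(abs_le.1 s3).1]) (by linarith [(abs_le.1 s3).2, abs_nonneg Q])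
        (by rw [e2]; linarith)
      rwa [e2] at this
    refine ⟨f', g', eξ, fun ξ' w' p' => ?_⟩
    obtain ⟨k1, k2, k3⟩ := key ξ' w' p'
    refine ⟨k1, k2.mono t1, k3, fun ε hε y hy => ?_⟩
    obtain ⟨w0, p0, -⟩ := C.cen_s H hm g'
    rw [eξ] at w0 p0
    obtain ⟨-, sg, -⟩ := key ξ w0 (by rw [p0, norm_zero]; exact r10.le)
    obtain ⟨m1, -, -, m2⟩ := sg.pl y hy
    have m3 := sg.mp H hm t0 t2 le_rfl y hy
    have m4 := sg.gr H hm y hy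
    set y' := C.lf f f' ξ y
    have o1 := (hg f' ξ' y' g' w'.1 (by linarith)).1
    have o2 := (hg f' ξ y' g' w0.1 (by linarith)).1
    rw [p0, norm_zero] at o2
    have o3 : ‖C.pq f' ξ' y' - C.pq f' ξ y'‖ ≤ δc := by
      have := norm_sub_le (C.pq f' ξ' y') (C.pq f' ξ y')
      have e1 : ‖C.pq f' ξ' y'‖ ≤ _ := norm_snd_le (C.gs f' ξ' y')
      have e2 : ‖C.pq f' ξ y'‖ ≤ _ := norm_snd_le (C.gs f' ξ y')
      nlinarith [mul_le_mul_of_nonneg_left m3.le (zero_le_one.trans kg)]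
    have o4 := (hc f f' _ ξ' _ hf g' m1 (t0.trans m2) w' o3 (by rw [m4]; exact le_rfl)).2
    exact o4.trans (mul_le_mul ((mon _ m2).trans t3) (hε y' (mem_ball_zero_iff.2 m3))
      (norm_nonneg _) κ0.le)
  · -- backward
    have n0 : ‖z0‖ ≤ b0 * R := max_le (by linarith) n2
    obtain ⟨f1, g1, -, -, a3, a4, a5, a6⟩ := C.centre H hm hf (z := z0) (by linarith)
    have g' := g1.fw C (-(t + 2))
    have ho := (C.ov_fw f1 (-(t + 2))).symm C g1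
    rw [neg_neg] at ho
    set f' := C.fw f1 (-(t + 2))
    obtain ⟨c1, c2, c3⟩ := C.Tf_zero H hm g' g1 ho
    obtain ⟨s1, s2, s3⟩ := C.Tf_symm H hm hf g1 a4
    rw [a5] at s1 s2 s3
    obtain ⟨v1, v2, v3⟩ := C.Tf_comp H hm g1 hf c1 (by rwa [c2])
    rw [c2, s2] at v2
    rw [c2, c3, s3, a6, neg_zero, add_zero] at v3
    refine ⟨f', (hs f' f 0 (b0 * R) R e _ t g' hf v1 x1 (by rw [norm_zero]; positivity)
      (by rwa [v2]) x5 x3 t0 (by linarith) (by linarith [abs_nonneg Q]) ?_).mono t1, ?_, v2⟩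
    · rwa [lf, (C.cen_s H hm g').2.2, v2]
    · rw [← v2, (C.Tf_spec H hm hf v1).2]
  · -- hit
    have o1 : C.Ov f f 0 := ⟨(C.gd_zero _ _).symm, (C.vel_zero _ _).symm⟩
    have o2 := (C.ov_fw f' (-(t + 2 + |Q|))).symm C hf'
    rw [neg_neg] at o2
    have q0 := abs_nonneg Q
    obtain ⟨g, z₀, z, hg, -, n1, n2, e1, -, p1, -, -, -, -, -, -, m1, m2, m3⟩ :=
      hQ f f _ f' 0 _ hf hf (hf'.fw C _) hf' o1 o2 le_rfl (by linarith)
    have i0 : r1 / Kp ≤ r1 := div_le_self r10.le kp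
    have i1 : ‖z₀‖ ≤ r1 / Kp := by simpa using n1
    have i2 : ‖z‖ ≤ r1 / Kp := n2.trans (mul_le_of_le_one_right (by positivity)
      (Real.exp_le_one_iff.2 (neg_nonpos.2 (by positivity))))
    have e2 : (C.ge (fg g f) z₀).1 = (C.ge f' 0).1 := by
      rw [← (C.Tf_spec H hm hf' m1).2, m2, e1]
    obtain ⟨u1, u2⟩ := abs_le.1 (m3.trans (le_abs_self Q))
    obtain ⟨-, -, l1, -⟩ := hp _ f' z₀ (r1 / Kp) (hf.fg C hg) hf' m1 (by linarith) i1 (by rwa [m2])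
      (by linarith) 0 (by rw [norm_zero]; positivity)
    rw [mul_div_cancel₀ _ (by positivity), e2] at l1
    have l0 : ‖C.lf (fg g f) f' (C.ge f' 0).1 0‖ ≤ R / 6 :=
      ((norm_fst_le _).trans l1).trans (y6.trans y1)
    refine ⟨g, hg, ?_, p1.trans i0, l0⟩
    have := hs _ f' z₀ (b0 * R) R e (t + 4 + 2 * |Q|) t (hf.fg C hg) hf' m1 x1 (by linarith)
      (by rw [m2]; linarith) x5 x3 t0 (by linarith) (by linarith) (by rw [e2]; linarith)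
    rw [e2] at this
    exact this.mono t1

end Crest.Agent.N221.Cov
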