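import Crest.Agent.N221.G0.Net

/-!
Row 221, block G0 (helper18): HARNACK at one scale for `f * h = 1`, both almost polynomial.
-/

set_option autoImplicit false

open Set Metric Finset Filter
open scoped ContDiff Topology

namespace Crest.Agent.N221.G0

/-- sup from the jets at the centre and one high derivative -/
theorem sup_of_jets {E V : Type} [NormedAddCommGroup E] [NormedSpace ℝ E] [NormedAddCommGroup V]
    [NormedSpace ℝ V] [CompleteSpace V] (k : ℕ) {F : E → V} {x₀ : E} {r η B : ℝ}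
    (hF : ContDiffOn ℝ ∞ F (ball x₀ r)) (hB : ∀ x ∈ ball x₀ r, ‖iteratedFDeriv ℝ (k + 1) F x‖ ≤ B)
    (hj : ∀ i ≤ k, ‖iteratedFDeriv ℝ i F x₀‖ * r ^ i ≤ η) :
    ∀ x ∈ ball x₀ r, ‖F x‖ ≤ (k + 1) * η + B * r ^ (k + 1) := fun x hx => by
  have mem : ∀ x ∈ ball (0 : E) r, x₀ + x ∈ ball x₀ r := fun x hx => by
    rwa [mem_ball_iff_norm, add_sub_cancel_left, ← mem_ball_zero_iff]
  have hx' : ‖x - x₀‖ < r := mem_ball_iff_norm.1 hx
  have B0 : 0 ≤ B := (norm_nonneg _).trans (hB x hx)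
  have h1 := (PS.tay_ E V k).1 (fun x => F (x₀ + x)) r B (hF.comp (by fun_prop) mem)
    (fun x hx => by rw [iteratedFDeriv_comp_add_left]; exact hB _ (mem x hx)) (x - x₀)
    (mem_ball_zero_iff.2 hx')
  have h2 : ‖PS.tay k (fun x => F (x₀ + x)) (x - x₀)‖ ≤ (k + 1) * η := by
    refine (norm_sum_le _ _).trans ((sum_le_card_nsmul _ _ η fun i hi => ?_).trans ?_)
    · refine le_trans ?_ (hj i (Nat.lt_succ_iff.1 (mem_range.1 hi)))
      rw [norm_smul, iteratedFDeriv_comp_add_left, add_zero]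
      refine (mul_le_of_le_one_left (norm_nonneg _) ?_).trans
        ((ContinuousMultilinearMap.le_opNorm _ _).trans ?_)
      · rw [norm_inv, Real.norm_natCast]
        exact inv_le_one_of_one_le₀ (by exact_mod_cast Nat.factorial_pos i)
      · rw [prod_const, card_univ, Fintype.card_fin]
        gcongr
    · rw [card_range, nsmul_eq_mul]; push_cast; exact le_rfl
  have h3 : B * ‖x - x₀‖ ^ (k + 1) ≤ B * r ^ (k + 1) := by gcongr
  have h4 := norm_add_le (F (x₀ + (x - x₀)) - PS.tay k (fun x => F (x₀ + x)) (x - x₀))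
    (PS.tay k (fun x => F (x₀ + x)) (x - x₀))
  rw [sub_add_cancel] at h4
  rw [add_sub_cancel] at h1 h4
  linarith

/-- vector form: `‖F‖ |μ| ≤ A` on the ball, `μ` almost polynomial -/
theorem harnV (k : ℕ) : ∃ C : ℝ, 1 ≤ C ∧
    ∀ (E V : Type) [NormedAddCommGroup E] [NormedSpace ℝ E] [FiniteDimensional ℝ E]
      [NormedAddCommGroup V] [NormedSpace ℝ V] [CompleteSpace V] (F : E → V) (μ : E → ℝ) (y x' : E)
      (ρ A B B' : ℝ), 0 < ρ → ContDiffOn ℝ ∞ μ (ball y (4 * ρ)) → ContDiffOn ℝ ∞ F (ball y (4 * ρ)) →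
      x' ∈ ball y ρ → μ x' ≠ 0 → (∀ x ∈ ball y (4 * ρ), ‖iteratedFDeriv ℝ (k + 1) μ x‖ ≤ B) →
      B * ρ ^ (k + 1) ≤ |μ x'| → (∀ x ∈ ball y (4 * ρ), ‖F x‖ * |μ x| ≤ A) →
      (∀ x ∈ ball y (4 * ρ), ‖iteratedFDeriv ℝ (k + 1) F x‖ ≤ B') →
      ∀ x ∈ ball y ρ, ‖F x‖ ≤ C * (A / |μ x'| + B' * ρ ^ (k + 1)) := by
  obtain ⟨C, C1, h⟩ := lm0 k (k + 1)
  refine ⟨(k + 1) * (C * 5 ^ k) + 5 ^ (k + 1), le_add_of_nonneg_of_le (by positivity)
    (one_le_pow₀ (by norm_num)), fun E V _ _ _ _ _ _ F μ y x' ρ A B B' hρ hμ hF hx' h0 hB hs hA hB'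
      x hx => ?_⟩
  have sub : ball x' (ρ / 2) ⊆ ball y (4 * ρ) := ball_subset_ball' (by linarith [mem_ball.1 hx'])
  have B0 : 0 ≤ B := (norm_nonneg _).trans (hB y (mem_ball_self (by linarith)))
  have B0' : 0 ≤ B' := (norm_nonneg _).trans (hB' y (mem_ball_self (by linarith)))
  have A0 : 0 ≤ A := le_trans (by positivity) (hA y (mem_ball_self (by linarith)))
  have p2 : (ρ / 2) ^ (k + 1) ≤ ρ ^ (k + 1) := by gcongr; linarith
  obtain ⟨x₀, hx₀, h1⟩ := h E V F μ x' (ρ / 2) A B B' (by linarith) (hμ.mono sub)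
    ((hF.mono sub).of_le (by exact_mod_cast le_top)) h0 (fun x hx => hB x (sub hx))
    ((mul_le_mul_of_nonneg_left p2 B0).trans hs) (fun x hx => hA x (sub hx))
    (fun x hx => hB' x (sub hx))
  have d0 : dist x₀ y < 3 / 2 * ρ := by
    linarith [dist_triangle x₀ x' y, mem_ball.1 hx₀, mem_ball.1 hx']
  have sub2 : ball x₀ (5 * (ρ / 2)) ⊆ ball y (4 * ρ) := ball_subset_ball' (by linarith)
  set Z := A / |μ x'| + B' * ρ ^ (k + 1) with hZ
  have Z1 : 0 ≤ A / |μ x'| := by positivity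
  have h2 := sup_of_jets k (η := C * 5 ^ k * Z) (hF.mono sub2) (fun x hx => hB' x (sub2 hx))
    (fun i hi => by
      refine (mul_le_mul_of_nonneg_right (h1 i (by omega)) (by positivity)).trans ?_
      have e : C * (A / |μ x'| / (ρ / 2) ^ i + B' * (ρ / 2) ^ (k + 1 - i)) * (5 * (ρ / 2)) ^ i =
          C * 5 ^ i * (A / |μ x'| + B' * (ρ / 2) ^ (k + 1)) := by
        rw [show (ρ / 2) ^ (k + 1) = (ρ / 2) ^ (k + 1 - i) * (ρ / 2) ^ i by
          rw [← pow_add]; congr 1; omega, mul_pow]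
        field_simp
      rw [e, hZ]
      gcongr
      norm_num) x (by
      rw [mem_ball]; linarith [dist_triangle_right x x₀ y, mem_ball.1 hx])
  refine h2.trans ?_
  have h3 : B' * (5 * (ρ / 2)) ^ (k + 1) ≤ 5 ^ (k + 1) * Z := by
    rw [mul_pow, mul_left_comm]
    refine mul_le_mul_of_nonneg_left ?_ (by positivity)
    linarith [mul_le_mul_of_nonneg_left p2 B0']
  nlinarith

/-- HARN -/
theorem harn (k : ℕ) : ∃ C : ℝ, 1 ≤ C ∧
    ∀ (E : Type) [NormedAddCommGroup E] [NormedSpace ℝ E] [FiniteDimensional ℝ E] (f h : E → ℝ)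
      (y x' : E) (ρ : ℝ), 0 < ρ → ContDiffOn ℝ ∞ f (ball y (4 * ρ)) →
      ContDiffOn ℝ ∞ h (ball y (4 * ρ)) → (∀ x ∈ ball y (4 * ρ), f x * h x = 1) → x' ∈ ball y ρ →
      (∀ x ∈ ball y (4 * ρ), ‖iteratedFDeriv ℝ k f x‖ * ρ ^ k ≤ |f x'|) →
      (∀ x ∈ ball y (4 * ρ), ‖iteratedFDeriv ℝ k h x‖ * ρ ^ k ≤ |h x'|) →
      ∀ x ∈ ball y ρ, |f x| ≤ C * |f x'| := by
  rcases k with _ | k
  · refine ⟨1, le_rfl, fun E _ _ _ f h y x' ρ hρ _ _ _ _ h1 _ x hx => ?_⟩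
    simpa using h1 x (ball_subset_ball (by linarith) hx)
  obtain ⟨C, C1, H⟩ := harnV k
  refine ⟨C * 2, by linarith, fun E _ _ _ f h y x' ρ hρ hf hh e hx' h1 h2 x hx => ?_⟩
  have e' := e x' (ball_subset_ball (by linarith) hx')
  have p : 0 < ρ ^ (k + 1) := by positivity
  have := H E ℝ f h y x' ρ 1 (|h x'| / ρ ^ (k + 1)) (|f x'| / ρ ^ (k + 1)) hρ hh hf hx'
    (right_ne_zero_of_mul_eq_one e') (fun x hx => (le_div_iff₀ p).2 (h2 x hx))
    (div_mul_cancel₀ _ p.ne').le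
    (fun x hx => by rw [Real.norm_eq_abs, ← abs_mul, e x hx, abs_one])
    (fun x hx => (le_div_iff₀ p).2 (h1 x hx)) x hx
  rw [div_mul_cancel₀ _ p.ne', one_div, ← abs_inv, ← eq_inv_of_mul_eq_one_left e',
    Real.norm_eq_abs] at this
  linarith

end Crest.Agent.N221.G0
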