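import Crest.Agent.N221.G0.So

/-! Row 221, block G0/SOURCES (helper63): blow-up bound and dual family along an ambient chain;
the rate `2 b` does not depend on the order. -/

set_option autoImplicit false
set_option linter.unusedSectionVars false

open Set Metric Filter Topology
open scoped ContDiff

namespace Crest.Agent.N221.G0

variable {E X V Y Z : Type} [NormedAddCommGroup E] [NormedSpace ℝ E] [NormedAddCommGroup X]
  [NormedSpace ℝ X] [NormedAddCommGroup V] [NormedSpace ℝ V] [NormedAddCommGroup Y]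
  [NormedSpace ℝ Y] [NormedAddCommGroup Z] [NormedSpace ℝ Z]

theorem lin_jet (g : X →L[ℝ] Y) {k : ℕ} (hk : 1 ≤ k) (x : X) :
    ‖iteratedFDeriv ℝ k (fun y => g y) x‖ ≤ ‖g‖ := by
  obtain ⟨k, rfl⟩ := Nat.exists_eq_add_of_le' hk
  rw [← norm_iteratedFDeriv_fderiv]
  have : fderiv ℝ (fun y => g y) = fun _ => g := funext fun z => g.hasFDerivAt.fderiv
  rw [this]
  cases k with
  | zero => simp
  | succ k => rw [iteratedFDeriv_succ_const, Pi.zero_apply, norm_zero]; positivity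

theorem lin_r_le (g : E →L[ℝ] X) (hg : ‖g‖ ≤ 1) {f : X → Y} {x : E} (k : ℕ)
    (hf : ContDiffAt ℝ ∞ f (g x)) :
    ‖iteratedFDeriv ℝ k (fun y => f (g y)) x‖ ≤ ‖iteratedFDeriv ℝ k f (g x)‖ := by
  rw [itf_lin g k (cda hf k)]
  refine (ContinuousMultilinearMap.norm_compContinuousLinearMap_le _ _).trans ?_
  rw [Finset.prod_const]
  exact mul_le_of_le_one_right (norm_nonneg _) (pow_le_one₀ (norm_nonneg _) hg)

theorem prod_le {f : X → Y} {g : X → Z} {x : X} (k : ℕ) (hf : ContDiffAt ℝ ∞ f x)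
    (hg : ContDiffAt ℝ ∞ g x) : ‖iteratedFDeriv ℝ k (fun p => (f p, g p)) x‖ ≤
      ‖iteratedFDeriv ℝ k f x‖ + ‖iteratedFDeriv ℝ k g x‖ := by
  have e : (fun p => (f p, g p)) = fun p => ContinuousLinearMap.inl ℝ Y Z (f p) +
      ContinuousLinearMap.inr ℝ Y Z (g p) := by funext p; simp
  rw [e, fun_iteratedFDeriv_add_apply (lin_sm _ (cda hf k)) (lin_sm _ (cda hg k))]
  have h1 := lin_le (ContinuousLinearMap.inl ℝ Y Z) k zero_le_one (fun a => by simp) (cda hf k)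
  have h2 := lin_le (ContinuousLinearMap.inr ℝ Y Z) k zero_le_one (fun a => by simp) (cda hg k)
  rw [one_mul] at h1 h2
  exact (norm_add_le _ _).trans (add_le_add h1 h2)

theorem sub_val {f : X → Y} {x : X} {k : ℕ} {c : ℝ} (c0 : 0 ≤ c) (hf : ContDiffAt ℝ ∞ f x)
    (h : ∀ i, 1 ≤ i → i ≤ k → ‖iteratedFDeriv ℝ i f x‖ ≤ c) :
    ∀ i ≤ k, ‖iteratedFDeriv ℝ i (fun z => f z - f x) x‖ ≤ c := by
  intro i hi
  rcases Nat.eq_zero_or_pos i with rfl | h0
  · simpa using c0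
  · rw [fun_iteratedFDeriv_sub_apply (cda hf i) contDiffAt_const,
      iteratedFDeriv_const_of_ne (by omega)]
    simpa using h i h0 hi

theorem comp_le {g : Y → Z} {f : X → Y} {x : X} {k : ℕ} {c d : ℝ} (c0 : 0 ≤ c)
    (hg : ContDiffAt ℝ ∞ g (f x)) (hf : ContDiffAt ℝ ∞ f x)
    (hd : ∀ i ≤ k, ‖iteratedFDeriv ℝ i g (f x)‖ ≤ d)
    (hc : ∀ i, 1 ≤ i → i ≤ k → ‖iteratedFDeriv ℝ i f x‖ ≤ 1 + c) :
    ∀ i ≤ k, ‖iteratedFDeriv ℝ i (fun y => g (f y)) x‖ ≤ k.factorial * (1 + c) ^ k * d := by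
  intro i hi
  have d0 : 0 ≤ d := (norm_nonneg _).trans (hd 0 k.zero_le)
  have c1 : 1 ≤ 1 + c := by linarith
  refine (comp_at i hg hf (C := d) (D := 1 + c) (fun j hj => hd j (hj.trans hi))
    fun j j1 hj => (hc j j1 (hj.trans hi)).trans (le_self_pow₀ c1 (by omega))).trans ?_
  have f1 : (i.factorial : ℝ) ≤ k.factorial := by exact_mod_cast Nat.factorial_le hi
  calc (i.factorial : ℝ) * d * (1 + c) ^ i ≤ k.factorial * d * (1 + c) ^ k := by gcongr
    _ = _ := by ring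

theorem in_sm {ι : E → X} {y : E} (s : ℝ) (hι : ContDiffAt ℝ ∞ ι y) :
    ContDiffAt ℝ ∞ (fun p : E × X => ι p.1 + s • p.2) (y, 0) :=
  (ContDiffAt.comp (g := ι) (y, (0 : X)) hι contDiffAt_fst).add (contDiffAt_snd.const_smul s)

theorem bl_sm {ι : E → X} {y : E} (s : ℝ) (hι : ContDiffAt ℝ ∞ ι y) {g : X → Y}
    (hg : ContDiffAt ℝ ∞ g (ι y)) :
    ContDiffAt ℝ ∞ (fun p : E × X => g (ι p.1 + s • p.2)) (y, 0) :=
  ContDiffAt.comp (g := g) (y, (0 : X)) (by simpa using hg) (in_sm s hι)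

theorem bl_le {ι : E → X} {y : E} {s c d : ℝ} {k : ℕ} (c0 : 0 ≤ c) (hs : |s| ≤ 1)
    (hι : ContDiffAt ℝ ∞ ι y) (dι : ∀ i, 1 ≤ i → i ≤ k → ‖iteratedFDeriv ℝ i ι y‖ ≤ c) {g : X → Y}
    (hg : ContDiffAt ℝ ∞ g (ι y)) (hd : ∀ i ≤ k, ‖iteratedFDeriv ℝ i g (ι y)‖ ≤ d) :
    ∀ i ≤ k, ‖iteratedFDeriv ℝ i (fun p : E × X => g (ι p.1 + s • p.2)) (y, 0)‖ ≤
      k.factorial * (1 + c) ^ k * d := by
  refine comp_le (f := fun p : E × X => ι p.1 + s • p.2) c0 (by simpa using hg) (in_sm s hι)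
    (by simpa using hd) fun i i1 hi => ?_
  have h1 : ContDiffAt ℝ ∞ (fun p : E × X => ι p.1) (y, 0) :=
    ContDiffAt.comp (g := ι) (y, (0 : X)) hι contDiffAt_fst
  rw [fun_iteratedFDeriv_add_apply (cda h1 i) (cda (contDiffAt_snd.const_smul s) i)]
  have h2 := lin_r_le (ContinuousLinearMap.fst ℝ E X) (ContinuousLinearMap.norm_fst_le ..)
    (x := (y, 0)) i hι
  have h3 := lin_jet (s • ContinuousLinearMap.snd ℝ E X) i1 (y, 0)
  have h4 : ‖s • ContinuousLinearMap.snd ℝ E X‖ ≤ 1 := by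
    rw [norm_smul, Real.norm_eq_abs]
    exact mul_le_one₀ hs (norm_nonneg _) (ContinuousLinearMap.norm_snd_le ..)
  have h5 := dι i i1 hi
  exact (norm_add_le _ _).trans (by
    have := add_le_add (h2.trans h5) (h3.trans h4)
    rw [add_comm c] at this
    exact this)

/-- the normal part of the blown up map -/
theorem nrm_le {ι : E → X} {φ : X → X} {y : E} {s c : ℝ} {k : ℕ} (c0 : 0 ≤ c) (s0 : 0 ≤ s)
    (s1 : s ≤ 1) (hι : ContDiffAt ℝ ∞ ι y)
    (dι : ∀ i, 1 ≤ i → i ≤ k → ‖iteratedFDeriv ℝ i ι y‖ ≤ c) (hφ : ContDiffAt ℝ ∞ φ (ι y))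
    (dφ : ∀ i, 1 ≤ i → i ≤ k → ‖iteratedFDeriv ℝ i φ (ι y)‖ ≤ c) :
    ∀ i ≤ k, ‖iteratedFDeriv ℝ i (fun p : E × X => φ (ι p.1 + s • p.2) - φ (ι p.1)) (y, 0)‖ ≤
      2 * (k.factorial * (1 + c) ^ k * c) * k * s := by
  intro i hi
  set g : X → X := fun z => φ z - φ (ι y) with hg
  have g1 : ContDiffAt ℝ ∞ g (ι y) := hφ.sub contDiffAt_const
  have g2 := sub_val c0 hφ dφ
  set F : E × X → X := fun p => g (ι p.1 + (1 : ℝ) • p.2) - g (ι p.1 + (0 : ℝ) • p.2) with hF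
  have F1 : ContDiffAt ℝ ∞ F (y, 0) := (bl_sm 1 hι g1).sub (bl_sm 0 hι g1)
  have F2 : ‖iteratedFDeriv ℝ i F (y, 0)‖ ≤ 2 * (k.factorial * (1 + c) ^ k * c) := by
    rw [hF, fun_iteratedFDeriv_sub_apply (cda (bl_sm 1 hι g1) i) (cda (bl_sm 0 hι g1) i)]
    have a := bl_le (s := 1) c0 (by simp) hι dι g1 g2 i hi
    have b := bl_le (s := 0) c0 (by simp) hι dι g1 g2 i hi
    exact (norm_sub_le _ _).trans (by linarith)
  set S : ℝ → E × X →L[ℝ] E × X := fun t =>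
    (ContinuousLinearMap.fst ℝ E X).prod (t • ContinuousLinearMap.snd ℝ E X) with hS
  have S0 : ∀ t, S t (y, 0) = (y, 0) := fun t => by simp [hS]
  have e1 := itf_lin (S s) (f := F) (x := (y, 0)) i (by rw [S0]; exact cda F1 i)
  have e0 := itf_lin (S 0) (f := F) (x := (y, 0)) i (by rw [S0]; exact cda F1 i)
  have z0 : (fun p => F (S 0 p)) = fun _ => 0 := by funext p; simp [hF, hS]
  have z1 : (fun p => F (S s p)) = fun p : E × X => φ (ι p.1 + s • p.2) - φ (ι p.1) := by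
    funext p; simp [hF, hS, hg]
  rw [z0, iteratedFDeriv_fun_zero, S0] at e0
  rw [z1, S0] at e1
  rw [e1]
  refine opNorm_le_unit _ (by positivity) fun m hm => ?_
  have h0 : iteratedFDeriv ℝ i F (y, 0) (fun j => S 0 (m j)) = 0 := by
    have := DFunLike.congr_fun e0 m
    simpa using this.symm
  have n1 : ∀ t, 0 ≤ t → t ≤ 1 → ‖fun j => S t (m j)‖ ≤ 1 := fun t t0 t1 =>
    (pi_norm_le_iff_of_nonneg zero_le_one).2 fun j => by
      refine norm_prod_le_iff.2 ⟨(norm_fst_le (m j)).trans (hm j), ?_⟩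
      show ‖t • (m j).2‖ ≤ 1
      rw [norm_smul, Real.norm_of_nonneg t0]
      exact mul_le_one₀ t1 (norm_nonneg _) ((norm_snd_le (m j)).trans (hm j))
  have n2 : ‖(fun j => S s (m j)) - fun j => S 0 (m j)‖ ≤ s :=
    (pi_norm_le_iff_of_nonneg s0).2 fun j => by
      refine norm_prod_le_iff.2 ⟨by simpa [hS] using s0, ?_⟩
      show ‖s • (m j).2 - (0 : ℝ) • (m j).2‖ ≤ s
      rw [zero_smul, sub_zero, norm_smul, Real.norm_of_nonneg s0]
      exact mul_le_of_le_one_right s0 ((norm_snd_le (m j)).trans (hm j))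
  have := (iteratedFDeriv ℝ i F (y, 0)).norm_image_sub_le (fun j => S s (m j)) fun j => S 0 (m j)
  rw [h0, sub_zero, Fintype.card_fin] at this
  refine this.trans ?_
  have n3 : max ‖fun j => S s (m j)‖ ‖fun j => S 0 (m j)‖ ^ (i - 1) ≤ 1 :=
    pow_le_one₀ (le_max_of_le_left (norm_nonneg _))
      (max_le (n1 s s0 s1) (n1 0 le_rfl zero_le_one))
  have n4 : (i : ℝ) ≤ k := by exact_mod_cast hi
  calc _ ≤ 2 * (k.factorial * (1 + c) ^ k * c) * k * 1 * s := by gcongr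
    _ = _ := by ring

/-- BLOW-UP -/
theorem blow (k : ℕ) (b : ℝ) (c : ℕ → ℝ) (hb : 1 ≤ b) : ∃ C : ℝ, 1 ≤ C ∧
    ∀ (E X V : Type) [NormedAddCommGroup E] [NormedSpace ℝ E] [NormedAddCommGroup X]
    [NormedSpace ℝ X] [NormedAddCommGroup V] [NormedSpace ℝ V] (R r q L : ℝ) (T : ℕ)
    (ι : ℕ → E → X) (ψ : ℕ → E → E) (φ : ℕ → X → X) (A : ℕ → X → V →L[ℝ] V) (Θ : ℕ → X → V)
    (y : E) (d s : ℝ), Amb R r q L b c T ι ψ φ A Θ → 0 < r → q ≤ 1 → 1 ≤ L → y ∈ ball (0 : E) R →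
    0 < s → s * L ^ T ≤ 1 → ContDiffAt ℝ ∞ (Θ T) (ι T (orb ψ y T)) →
    (∀ i ≤ k, ‖iteratedFDeriv ℝ i (Θ T) (ι T (orb ψ y T))‖ ≤ d) →
    ∀ i ≤ k, ‖iteratedFDeriv ℝ i (fun p : E × X => Θ 0 (ι 0 p.1 + s • p.2)) (y, 0)‖ ≤
      C * (2 * b) ^ T * d := by
  set c' := cb c k with hc'
  have c0 : 0 ≤ c' := cb_nonneg c k
  set K : ℝ := k.factorial * (1 + c') ^ k with hK
  have K1 : 1 ≤ K := one_le_mul_of_one_le_of_one_le
    (by exact_mod_cast Nat.factorial_pos k) (one_le_pow₀ (by linarith))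
  obtain ⟨C, C1, hC⟩ := cr k b 1 (c' + 2 * (K * c') * k + K * c') hb le_rfl (by positivity)
  refine ⟨C * K, one_le_mul_of_one_le_of_one_le C1 K1,
    fun E X V _ _ _ _ _ _ R r q L T ι ψ φ A Θ y d s h r0 q1 L1 hy s0 s1 hG hd => ?_⟩
  set l : ℕ → ℝ := fun j => s * L ^ j with hl
  have l0 : ∀ j, 0 < l j := fun j => by positivity
  have l1 : ∀ j ≤ T, l j ≤ 1 := fun j hj =>
    (mul_le_mul_of_nonneg_left (pow_le_pow_right₀ L1 hj) s0.le).trans s1
  have ls : ∀ j, l (j + 1) = L * l j := fun j => by simp only [hl, pow_succ]; ring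
  have m := h.orb_mem hy
  have dι : ∀ j ≤ T, ∀ i, 1 ≤ i → i ≤ k → ‖iteratedFDeriv ℝ i (ι j) (orb ψ y j)‖ ≤ c' :=
    fun j hj i i1 hi => ((h.pl j hj).bd i i1 _ (m j hj)).trans (le_cb c hi)
  have key := hC (E × X) V T
    (fun j p => (ψ j p.1, (l (j + 1))⁻¹ • (φ j (ι j p.1 + l j • p.2) - φ j (ι j p.1))))
    (fun j p => A j (ι j p.1 + l j • p.2)) (fun j p => Θ j (ι j p.1 + l j • p.2))
    (fun j => (orb ψ y j, 0)) (K * d) (fun j hj => ?_)
    (cda (bl_sm _ ((h.pl T le_rfl).sm _ (m T le_rfl)) hG) k)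
    (bl_le c0 (by rw [abs_of_pos (l0 T)]; exact l1 T le_rfl) ((h.pl T le_rfl).sm _ (m T le_rfl))
      (dι T le_rfl) hG hd) 0 T.zero_le
  · intro i hi
    have := key.2 i hi
    simp only [hl, pow_zero, mul_one, one_pow, Nat.sub_zero, orb] at this
    exact this.trans_eq (by ring)
  have a := h.st j hj
  have mj := m j hj.le
  have sι := (h.pl j hj.le).sm _ mj
  have tb : Tb R r (ι j) (ι j (orb ψ y j)) := ⟨_, mj, by simpa using r0⟩
  have sφ := a.sφ _ tb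
  have s1' : ContDiffAt ℝ ∞ (fun p : E × X => ψ j p.1) (orb ψ y j, 0) :=
    ContDiffAt.comp (g := ψ j) (orb ψ y j, (0 : X)) (a.pψ.sm _ mj) contDiffAt_fst
  have s2 : ContDiffAt ℝ ∞ (fun p : E × X => φ j (ι j p.1 + l j • p.2) - φ j (ι j p.1))
      (orb ψ y j, 0) := (bl_sm _ sι sφ).sub (ContDiffAt.comp (g := φ j) (orb ψ y j, (0 : X)) sφ
        (ContDiffAt.comp (g := ι j) (orb ψ y j, (0 : X)) sι contDiffAt_fst))
  refine ⟨cda (s1'.prodMk (s2.const_smul _)) k, cda (bl_sm _ sι (a.sA _ tb)) k, by simp [orb],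
    by simpa using a.nA _ tb, ?_, fun i i1 hi => ?_, fun i hi => ?_, ?_⟩
  · have d1 := ((a.pψ.sm _ mj).differentiableAt (by simp)).hasFDerivAt
    have d2 := (sι.differentiableAt (by simp)).hasFDerivAt
    have d3 := (sφ.differentiableAt (by simp)).hasFDerivAt
    have f1 : HasFDerivAt (fun p : E × X => p.1) (ContinuousLinearMap.fst ℝ E X)
      (orb ψ y j, 0) := hasFDerivAt_fst
    have f2 : HasFDerivAt (fun p : E × X => p.2) (ContinuousLinearMap.snd ℝ E X)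
      (orb ψ y j, 0) := hasFDerivAt_snd
    have i1 := HasFDerivAt.comp (orb ψ y j, (0 : X)) d2 f1
    have i2 := i1.add (f2.const_smul (l j))
    have d3' : HasFDerivAt (φ j) (fderiv ℝ (φ j) (ι j (orb ψ y j)))
        (ι j (orb ψ y j, (0 : X)).1 + l j • (orb ψ y j, (0 : X)).2) := by simpa using d3
    have t := (HasFDerivAt.comp (orb ψ y j, (0 : X)) d1 f1).prodMk
      (((HasFDerivAt.comp (orb ψ y j, (0 : X)) d3' i2).sub
        (HasFDerivAt.comp (orb ψ y j, (0 : X)) d3 i1)).const_smul (l (j + 1))⁻¹)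
    refine (le_of_eq (congrArg norm t.fderiv)).trans
      (ContinuousLinearMap.opNorm_le_bound _ zero_le_one fun v => ?_)
    rw [one_mul]
    refine norm_prod_le_iff.2 ⟨?_, ?_⟩
    · show ‖fderiv ℝ (ψ j) (orb ψ y j) v.1‖ ≤ ‖v‖
      exact (ContinuousLinearMap.le_opNorm _ _).trans ((mul_le_of_le_one_left (norm_nonneg _)
        ((a.nψ _ mj).trans q1)).trans (norm_fst_le v))
    · show ‖(l (j + 1))⁻¹ • (fderiv ℝ (φ j) (ι j (orb ψ y j))
          (fderiv ℝ (ι j) (orb ψ y j) v.1 + l j • v.2) -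
          fderiv ℝ (φ j) (ι j (orb ψ y j)) (fderiv ℝ (ι j) (orb ψ y j) v.1))‖ ≤ ‖v‖
      rw [map_add, add_sub_cancel_left, map_smul, smul_smul, norm_smul, ls, mul_inv, mul_assoc,
        inv_mul_cancel₀ (l0 j).ne', mul_one, Real.norm_of_nonneg (by positivity),
        inv_mul_le_iff₀ (by linarith)]
      exact (ContinuousLinearMap.le_opNorm _ _).trans
        (mul_le_mul (a.nφ _ tb) (norm_snd_le v) (norm_nonneg _) (by linarith))
  · refine (prod_le i s1' (s2.const_smul _)).trans ?_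
    have h1 := (lin_r_le (ContinuousLinearMap.fst ℝ E X) (ContinuousLinearMap.norm_fst_le ..)
      (x := (orb ψ y j, 0)) i (a.pψ.sm _ mj)).trans ((a.pψ.bd i i1 _ mj).trans (le_cb c hi))
    have h2 := nrm_le c0 (l0 j).le (l1 j hj.le) sι (dι j hj.le) sφ
      (fun i i1 hi => (a.dφ i i1 _ tb).trans (le_cb c hi)) i hi
    have h3 : (l (j + 1))⁻¹ * (2 * (K * c') * k * l j) ≤ 2 * (K * c') * k := by
      rw [inv_mul_le_iff₀ (l0 _), ls, mul_comm]
      exact mul_le_mul_of_nonneg_right (le_mul_of_one_le_left (l0 j).le L1) (by positivity)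
    rw [iteratedFDeriv_const_smul_apply' (cda s2 i), norm_smul,
      Real.norm_of_nonneg (inv_nonneg.2 (l0 _).le)]
    have h4 := (mul_le_mul_of_nonneg_left h2 (inv_nonneg.2 (l0 (j + 1)).le)).trans h3
    have h5 : 0 ≤ K * c' := by positivity
    exact (add_le_add h1 h4).trans (by linarith)
  · have := bl_le c0 (by rw [abs_of_pos (l0 j)]; exact l1 j hj.le) sι (dι j hj.le) (a.sA _ tb)
      (fun i hi => (a.dA i _ tb).trans (le_cb c hi)) i hi
    have h5 : 0 ≤ 2 * (K * c') * k := by positivity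
    exact this.trans (by linarith)
  · have : ∀ᶠ p : E × X in 𝓝 (orb ψ y j, 0), p.1 ∈ ball (0 : E) R :=
      continuousAt_fst.eventually (isOpen_ball.mem_nhds mj)
    filter_upwards [this] with p hp
    rw [h.rel j hj, smul_inv_smul₀ (l0 _).ne', ← a.gr _ hp, add_sub_cancel]

/-- uniform jets of the inversion on the compact set of well invertible operators -/
theorem inv_jets [FiniteDimensional ℝ V] (k : ℕ) (b : ℝ) : ∃ C : ℝ, 0 ≤ C ∧ ∀ P : V →L[ℝ] V,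
    ‖P‖ ≤ b → (∀ v, ‖v‖ ≤ b * ‖P v‖) → IsUnit P ∧ ‖Ring.inverse P‖ ≤ max b 0 ∧
      ContDiffAt ℝ ∞ Ring.inverse P ∧ ∀ i ≤ k, ‖iteratedFDeriv ℝ i Ring.inverse P‖ ≤ C := by
  have : CompleteSpace V := FiniteDimensional.complete ℝ V
  have : ProperSpace (V →L[ℝ] V) := FiniteDimensional.proper ℝ _
  set K : Set (V →L[ℝ] V) := {P | ‖P‖ ≤ b ∧ ∀ v, ‖v‖ ≤ b * ‖P v‖}
  have u : ∀ P ∈ K, IsUnit P := fun P hP => by
    have inj : Function.Injective P := (injective_iff_map_eq_zero P).2 fun v hv => by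
      have := hP.2 v
      rw [hv, norm_zero, mul_zero] at this
      exact norm_le_zero_iff.1 this
    exact ContinuousLinearMap.isUnit_iff_bijective.2
      ⟨inj, LinearMap.surjective_of_injective (f := (P : V →ₗ[ℝ] V)) inj⟩
  have sm : ∀ P ∈ K, ContDiffAt ℝ ∞ Ring.inverse P := fun P hP => by
    obtain ⟨p, rfl⟩ := u P hP
    exact contDiffAt_ringInverse ℝ p
  have hK : IsCompact K := by
    refine Metric.isCompact_of_isClosed_isBounded ?_
      ((isBounded_closedBall (x := (0 : V →L[ℝ] V)) (r := b)).subset fun P hP => by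
        simpa using hP.1)
    have : K = {P | ‖P‖ ≤ b} ∩ ⋂ v, {P : V →L[ℝ] V | ‖v‖ ≤ b * ‖P v‖} := by
      ext P; simp [K]
    rw [this]
    exact (isClosed_le continuous_norm continuous_const).inter
      (isClosed_iInter fun v => isClosed_le continuous_const (by fun_prop))
  have bd : ∀ i : ℕ, ∃ C, ∀ P ∈ K, ‖iteratedFDeriv ℝ i Ring.inverse P‖ ≤ C := fun i =>
    hK.exists_bound_of_continuousOn fun P hP =>
      ((sm P hP).iteratedFDeriv_right (m := 0) (i := i)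
        (by exact_mod_cast le_top)).continuousAt.continuousWithinAt
  choose C hC using bd
  refine ⟨cb C k, cb_nonneg C k, fun P h1 h2 => ⟨u P ⟨h1, h2⟩, ?_, sm P ⟨h1, h2⟩,
    fun i hi => (hC i P ⟨h1, h2⟩).trans (le_cb C hi)⟩⟩
  refine ContinuousLinearMap.opNorm_le_bound _ (le_max_right _ _) fun v => ?_
  have e : P (Ring.inverse P v) = v := by
    rw [← mul_apply_eq_comp, Ring.mul_inverse_cancel _ (u P ⟨h1, h2⟩)]; rfl
  have := h2 (Ring.inverse P v)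
  rw [e] at this
  exact this.trans (mul_le_mul_of_nonneg_right (le_max_left _ _) (norm_nonneg _))

/-- `l ↦ l ∘ P` -/
noncomputable def rc (V : Type) [NormedAddCommGroup V] [NormedSpace ℝ V] :
    (V →L[ℝ] V) →L[ℝ] (V →L[ℝ] ℝ) →L[ℝ] V →L[ℝ] ℝ := (ContinuousLinearMap.compL ℝ V V ℝ).flip

theorem rc_apply (P : V →L[ℝ] V) (l : V →L[ℝ] ℝ) : rc V P l = l ∘L P := rfl

theorem norm_rc_le (P : V →L[ℝ] V) : ‖rc V P‖ ≤ 1 * ‖P‖ :=
  ContinuousLinearMap.opNorm_le_bound _ (by positivity) fun l => by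
    rw [rc_apply, one_mul, mul_comm]; exact l.opNorm_comp_le P

theorem rc_le (i : ℕ) {g : X → V →L[ℝ] V} {x : X} (hg : ContDiffAt ℝ i g x) :
    ‖iteratedFDeriv ℝ i (fun y => rc V (g y)) x‖ ≤ ‖iteratedFDeriv ℝ i g x‖ := by
  have := lin_le (X := V →L[ℝ] V) (Y := (V →L[ℝ] ℝ) →L[ℝ] V →L[ℝ] ℝ) (rc V) i
    (f := g) (x := x) (β := 1) zero_le_one (fun a => by exact norm_rc_le a) hg
  rwa [one_mul] at this

/-- DUAL FAMILY -/
theorem dual (V : Type) [NormedAddCommGroup V] [NormedSpace ℝ V] [FiniteDimensional ℝ V] (k : ℕ)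
    (b : ℝ) (c : ℕ → ℝ) (hb : 1 ≤ b) : ∃ C : ℝ, 1 ≤ C ∧
    ∀ (E X : Type) [NormedAddCommGroup E] [NormedSpace ℝ E] [NormedAddCommGroup X]
    [NormedSpace ℝ X] (R r q L : ℝ) (T : ℕ)
    (ι : ℕ → E → X) (ψ : ℕ → E → E) (φ : ℕ → X → X) (A : ℕ → X → V →L[ℝ] V) (Θ : ℕ → X → V)
    (l : ℕ → E → V →L[ℝ] ℝ) (y : E) (d : ℝ), Amb R r q L b c T ι ψ φ A Θ → 0 < r → q ≤ 1 →
    y ∈ ball (0 : E) R →
    (∀ j < T, ∀ x, l j x = rc V (Ring.inverse (A j (ι j x))) (l (j + 1) (ψ j x))) →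
    ContDiffAt ℝ ∞ (l T) (orb ψ y T) → (∀ i ≤ k, ‖iteratedFDeriv ℝ i (l T) (orb ψ y T)‖ ≤ d) →
    ∀ i ≤ k, ‖iteratedFDeriv ℝ i (l 0) y‖ ≤ C * (2 * b) ^ T * d := by
  obtain ⟨I, I0, hI⟩ := inv_jets (V := V) k b
  set c' := cb c k with hc'
  have c0 : 0 ≤ c' := cb_nonneg c k
  set c1 : ℝ := k.factorial * (1 + c') ^ k * c' with hc1
  have c10 : 0 ≤ c1 := by positivity
  obtain ⟨C, C1, hC⟩ := cr k b 1 (c' + k.factorial * (1 + c1) ^ k * I) hb le_rfl (by positivity)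
  refine ⟨C, C1, fun E X _ _ _ _ R r q L T ι ψ φ A Θ l y d h r0 q1 hy hl hG hd i hi => ?_⟩
  have m := h.orb_mem hy
  have key := hC E (V →L[ℝ] ℝ) T ψ (fun j x => rc V (Ring.inverse (A j (ι j x)))) l (orb ψ y) d
    (fun j hj => ?_) (cda hG k) hd 0 T.zero_le
  · simpa [orb] using key.2 i hi
  have a := h.st j hj
  have mj := m j hj.le
  have sι := (h.pl j hj.le).sm _ mj
  have tb : Tb R r (ι j) (ι j (orb ψ y j)) := ⟨_, mj, by simpa using r0⟩
  obtain ⟨-, n, sI, dI⟩ := hI _ (a.nA _ tb) (a.iA _ tb)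
  have s1 : ContDiffAt ℝ ∞ (fun x => A j (ι j x)) (orb ψ y j) :=
    ContDiffAt.comp (g := A j) _ (a.sA _ tb) sι
  have s2 : ContDiffAt ℝ ∞ (fun x => Ring.inverse (A j (ι j x))) (orb ψ y j) :=
    ContDiffAt.comp (g := Ring.inverse) _ sI s1
  have d1 := comp_le c0 (a.sA _ tb) sι (fun i hi => (a.dA i _ tb).trans (le_cb c hi))
    fun i i1 hi => (((h.pl j hj.le).bd i i1 _ mj).trans (le_cb c hi)).trans (by linarith)
  have d2 := comp_le (g := Ring.inverse) (f := fun x => A j (ι j x)) c10 sI s1 dI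
    fun i _ hi => (d1 i hi).trans (by linarith)
  refine ⟨cda (a.pψ.sm _ mj) k, lin_sm _ (cda s2 k), rfl, ?_, (a.nψ _ mj).trans q1,
    fun i i1 hi => ?_, fun i hi => ?_, Eventually.of_forall (hl j hj)⟩
  · have := norm_rc_le (Ring.inverse (A j (ι j (orb ψ y j))))
    rw [max_eq_left (by linarith)] at n
    linarith
  · exact ((a.pψ.bd i i1 _ mj).trans (le_cb c hi)).trans (le_add_of_nonneg_right (by positivity))
  · exact (rc_le i (cda s2 i)).trans ((d2 i hi).trans (le_add_of_nonneg_left c0))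

end Crest.Agent.N221.G0
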