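import Crest.Agent.N221.G0.Nd
import Crest.Agent.N221.G0.So2
import Crest.Agent.N221.G0.Harn

/-! Row 221, block G0 (helper55): Harnack along the leaf and the net argument for jets. -/

set_option autoImplicit false

open Set Metric Filter Finset
open scoped ContDiff Nat Topology

namespace Crest.Agent.N221.G0

open Real

section
variable {E Z V : Type} [NormedAddCommGroup E] [NormedSpace ℝ E] [NormedAddCommGroup Z]
  [NormedSpace ℝ Z] [NormedAddCommGroup V] [NormedSpace ℝ V]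

lemma itd_itd {f : E → V} {x : E} (h : ContDiffAt ℝ ∞ f x) (i n : ℕ) :
    ‖iteratedFDeriv ℝ n (iteratedFDeriv ℝ i f) x‖ ≤ ‖iteratedFDeriv ℝ (n + i) f x‖ := by
  induction i generalizing n with
  | zero =>
    rw [iteratedFDeriv_zero_eq_comp, LinearIsometryEquiv.norm_iteratedFDeriv_comp_left, add_zero]
  | succ i ih =>
    have h1 : ContDiffAt ℝ ∞ (iteratedFDeriv ℝ i f) x :=
      h.iteratedFDeriv_right (by exact_mod_cast le_top)
    have h2 := ((continuousMultilinearCurryLeftEquiv ℝ (fun _ : Fin (i + 1) => E)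
      V).symm.toLinearIsometry.toContinuousLinearMap).norm_iteratedFDeriv_comp_left
        (cda_fderiv h1) (n := n) (by exact_mod_cast le_top)
    refine le_trans h2 ((mul_le_of_le_one_left (norm_nonneg _)
      (LinearIsometry.norm_toContinuousLinearMap_le _)).trans ?_)
    rw [norm_iteratedFDeriv_fderiv, add_comm i, ← add_assoc]
    exact ih _

lemma itd_snd {W : E × Z → V} {y : E} (h : ContDiffAt ℝ ∞ W (y, 0)) (i : ℕ) :
    iteratedFDeriv ℝ i (fun v => W (y, v)) 0 = ContinuousMultilinearMap.compContinuousLinearMapL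
      (fun _ => ContinuousLinearMap.inr ℝ E Z) (iteratedFDeriv ℝ i W (y, 0)) := by
  have h1 : ContDiffAt ℝ i (fun p => W ((y, 0) + p)) (ContinuousLinearMap.inr ℝ E Z 0) :=
    ContDiffAt.comp (g := W) _ (by simpa using cda h i) (by fun_prop)
  have := itf_lin (ContinuousLinearMap.inr ℝ E Z) i h1
  rw [iteratedFDeriv_comp_add_left] at this
  simpa using this

lemma fst_sm {W : E × Z → V} {y : E} (h : ContDiffAt ℝ ∞ W (y, 0)) :
    ContDiffAt ℝ ∞ (fun t => W (t, 0)) y := ContDiffAt.comp (g := W) y h (by fun_prop)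

lemma fst_le {W : E × Z → V} {y : E} (h : ContDiffAt ℝ ∞ W (y, 0)) (i : ℕ) :
    ‖iteratedFDeriv ℝ i (fun t => W (t, 0)) y‖ ≤ ‖iteratedFDeriv ℝ i W (y, 0)‖ :=
  lin_r_le (ContinuousLinearMap.inl ℝ E Z) (ContinuousLinearMap.norm_inl_le_one _ _ _) (f := W) i h

end

/-- the net argument for the vertical jets -/
theorem net_jet (N : ℕ) (hN : 1 ≤ N) : ∃ C : ℝ, 1 ≤ C ∧ ∀ (E Z V : Type) [NormedAddCommGroup E]
    [NormedSpace ℝ E] [NormedAddCommGroup Z] [NormedSpace ℝ Z] [NormedAddCommGroup V]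
    [NormedSpace ℝ V] [CompleteSpace V] (W : E × Z → V) (i L : ℕ) (M η u : ℝ), 4 ≤ u →
    2 * (L + 1) < u → (∀ y ∈ ball (0 : E) (1 / 2), ContDiffAt ℝ ∞ W (y, 0) ∧
      ∀ k ≤ N + i, ‖iteratedFDeriv ℝ k W (y, 0)‖ ≤ M) →
    (∀ y ∈ ball (0 : E) (1 / 2 - u⁻¹), ∃ z ∈ ball (0 : E) (1 / 2), ‖z - y‖ ≤ (u ^ 2)⁻¹ / C ∧
      ‖iteratedFDeriv ℝ i (fun v => W (z, v)) 0‖ ≤ η) →
    ‖iteratedFDeriv ℝ i (fun v => W (0, v)) 0‖ ≤ 2 * (η + M * u⁻¹ ^ N) + u⁻¹ ^ (L + 1) * M := by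
  obtain ⟨C, C1, h⟩ := net N hN
  refine ⟨C, C1, fun E Z V _ _ _ _ _ _ _ W i L M η u h4 hL hW hz => ?_⟩
  set T : ((E × Z) [×i]→L[ℝ] V) →L[ℝ] (Z [×i]→L[ℝ] V) :=
    ContinuousMultilinearMap.compContinuousLinearMapL fun _ => ContinuousLinearMap.inr ℝ E Z with hT
  have T1 : ‖T‖ ≤ 1 := (ContinuousMultilinearMap.norm_compContinuousLinearMapL_le _ _).trans
    (prod_le_one (fun _ _ => norm_nonneg _) fun _ _ => ContinuousLinearMap.norm_inr_le_one _ _ _)
  have u0 : 0 < u := by linarith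
  have sm : ∀ y ∈ ball (0 : E) (1 / 2), ContDiffAt ℝ ∞ (iteratedFDeriv ℝ i W) (y, 0) := fun y hy =>
    (hW y hy).1.iteratedFDeriv_right (by exact_mod_cast le_top)
  have bd : ∀ y ∈ ball (0 : E) (1 / 2), ∀ k ≤ N,
      ‖iteratedFDeriv ℝ k (fun y => T (iteratedFDeriv ℝ i W (y, 0))) y‖ ≤ M := fun y hy k hk => by
    refine (T.norm_iteratedFDeriv_comp_left (fst_sm (sm y hy)) (by exact_mod_cast le_top)).trans ?_
    refine (mul_le_of_le_one_left (norm_nonneg _) T1).trans ((fst_le (sm y hy) k).trans ?_)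
    exact (itd_itd (hW y hy).1 i k).trans ((hW y hy).2 _ (by omega))
  have e : C * ((u ^ 2)⁻¹ / C) / u⁻¹ = u⁻¹ := by field_simp
  have := h E _ (fun y => T (iteratedFDeriv ℝ i W (y, 0))) 0 (1 / 2) u⁻¹ ((u ^ 2)⁻¹ / C) η M M L
    (by positivity) (by positivity) (by
      rw [show 2 * C * ((u ^ 2)⁻¹ / C) = 2 / u * u⁻¹ by field_simp, div_eq_inv_mul u⁻¹]
      gcongr
      rw [div_le_iff₀ u0]; linarith)
    (fun y hy => (cda (T.contDiff.contDiffAt.comp y (fst_sm (sm y hy))) N).contDiffWithinAt)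
    (fun y hy => by simpa using bd y hy 0 (Nat.zero_le _)) (fun y hy => bd y hy N le_rfl)
    (fun y hy => by
      obtain ⟨z, z1, z2, z3⟩ := hz y hy
      exact ⟨z, z2, by rwa [itd_snd (hW z z1).1] at z3⟩) 0 (mem_ball_self (by
      rw [sub_pos, ← div_eq_mul_inv, div_lt_iff₀ u0]; linarith))
  rwa [e, ← itd_snd (hW 0 (mem_ball_self (by norm_num))).1] at this

/-- Harnack for `ψ θ` along the leaf -/
theorem harn_leaf (k : ℕ) : ∃ C : ℝ, 1 ≤ C ∧ ∀ (E V : Type) [NormedAddCommGroup E]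
    [NormedSpace ℝ E] [FiniteDimensional ℝ E] [NormedAddCommGroup V] [NormedSpace ℝ V]
    (ψ : V →L[ℝ] ℝ) (θ : E → V) (l : E → V →L[ℝ] ℝ) (q : E) (ρ F d : ℝ), ‖ψ‖ ≤ 1 → 0 < ρ →
    1 ≤ F → 1 ≤ d → 2 ^ k * d ≤ F → F ^ 5 * ρ ^ k ≤ 1 →
    (∀ y ∈ ball q (4 * ρ), ContDiffAt ℝ ∞ θ y ∧ ContDiffAt ℝ ∞ l y ∧ l y (θ y) = 1 ∧
      (F ^ 2)⁻¹ ≤ |ψ (θ y)| ∧ ∀ i ≤ k, ‖iteratedFDeriv ℝ i θ y‖ ≤ d * F ∧
        ‖iteratedFDeriv ℝ i l y‖ ≤ d * F ∧ ‖iteratedFDeriv ℝ i (nrm ψ θ) y‖ ≤ F) →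
    ∀ y ∈ ball q ρ, ∀ y' ∈ ball q ρ, |ψ (θ y)| ≤ C * |ψ (θ y')| := by
  obtain ⟨C, C1, h⟩ := harn k
  refine ⟨C, C1, fun E V _ _ _ _ _ ψ θ l q ρ F d hψ hρ F1 d1 hd hk H y hy y' hy' => ?_⟩
  have F0 : 0 < F := by linarith
  have ne : ∀ y ∈ ball q (4 * ρ), ψ (θ y) ≠ 0 := fun y hy =>
    abs_pos.1 (lt_of_lt_of_le (by positivity) (H y hy).2.2.2.1)
  have sw : ∀ y ∈ ball q (4 * ρ), ContDiffAt ℝ ∞ (nrm ψ θ) y := fun y hy =>
    cda_nrm (H y hy).1 (ne y hy)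
  have one : ∀ y ∈ ball q (4 * ρ), ψ (θ y) * l y (nrm ψ θ y) = 1 := fun y hy => by
    rw [← smul_eq_mul, ← map_smul, smul_nrm (ne y hy), (H y hy).2.2.1]
  have m' : y' ∈ ball q (4 * ρ) := ball_subset_ball (by linarith) hy'
  have dF : d ≤ F := le_trans (le_mul_of_one_le_left (by linarith) (one_le_pow₀ one_le_two)) hd
  have key : F ^ 3 * ρ ^ k ≤ (F ^ 2)⁻¹ := by
    rw [← one_div, le_div_iff₀ (by positivity)]
    exact (le_of_eq (by ring)).trans hk
  refine h E (fun y => ψ (θ y)) (fun y => l y (nrm ψ θ y)) q y' ρ hρ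
    (fun y hy => (ψ.contDiff.contDiffAt.comp y (H y hy).1).contDiffWithinAt)
    (fun y hy => ((H y hy).2.1.clm_apply (sw y hy)).contDiffWithinAt) one hy'
    (fun x hx => le_trans ?_ (key.trans (H y' m').2.2.2.1)) (fun x hx => le_trans ?_
      (key.trans ?_)) y hy
  · refine mul_le_mul_of_nonneg_right ?_ (by positivity)
    refine (ψ.norm_iteratedFDeriv_comp_left (H x hx).1 (by exact_mod_cast le_top)).trans ?_
    refine (mul_le_of_le_one_left (norm_nonneg _) hψ).trans (((H x hx).2.2.2.2 k le_rfl).1.trans ?_)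
    calc d * F ≤ F * F * 1 := by rw [mul_one]; gcongr
      _ ≤ F * F * F := by gcongr
      _ = _ := by ring
  · refine mul_le_mul_of_nonneg_right ?_ (by positivity)
    refine (bilin_at (ContinuousLinearMap.id ℝ (V →L[ℝ] ℝ)) k (H x hx).2.1 (sw x hx)).trans ?_
    refine (mul_le_of_le_one_left (by positivity) ContinuousLinearMap.norm_id_le).trans ?_
    calc _ ≤ ∑ i ∈ range (k + 1), (k.choose i : ℝ) * (d * F) * F := sum_le_sum fun i hi => by
          have a1 := ((H x hx).2.2.2.2 i (Nat.lt_succ_iff.1 (mem_range.1 hi))).2.1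
          have a2 := ((H x hx).2.2.2.2 (k - i) (Nat.sub_le _ _)).2.2
          gcongr
      _ = 2 ^ k * d * (F * F) := by
          rw [← sum_mul, ← sum_mul, ← Nat.cast_sum, Nat.sum_range_choose]; push_cast; ring
      _ ≤ F * (F * F) := by gcongr
      _ = _ := by ring
  · have a1 := congrArg abs (one y' m')
    rw [abs_mul, abs_one] at a1
    have a2 : |ψ (θ y')| ≤ F ^ 2 := by
      have b1 := ((H y' m').2.2.2.2 0 (Nat.zero_le _)).1
      rw [norm_iteratedFDeriv_zero] at b1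
      have b2 := (ψ.le_opNorm (θ y')).trans (mul_le_of_le_one_left (norm_nonneg _) hψ)
      exact b2.trans (b1.trans (by rw [sq]; gcongr))
    rw [inv_le_iff_one_le_mul₀ (by positivity), ← a1, mul_comm]
    gcongr

end Crest.Agent.N221.G0
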