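import Crest.Agent.N221.G0.One
import Crest.Agent.N221.G0.ApB

/-! Row 221, block G0 (helper55): the leaves of `AprS`. -/

set_option autoImplicit false

open Set Metric
open scoped ContDiff

namespace Crest.Agent.N221.G0

open Real

/-- JETS AT A NODE.  `Θ` has level `j`, `Θ'` has level `s`, `j / m ≤ s ≤ j`.  Proof.
`Δ = ψ(Θ) Θ' - ψ(Θ') Θ`, `τ = e^{-(3 a₀ + 1) j}`.  For `z' ∈ ball z τ`: `‖Θ z'‖ ≥ ‖Θ z‖ / 2`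
(Lipschitz), `cov` gives a leaf `x'` through `z'`, `IND` for `Θ ∘ gs x'`, `Θ' ∘ gs x'` on
`ball z'.1 (e^{-a₀ j} / (4 L))` (`L` = Lipschitz constant of `gs`, `comp_at`, `b = C e^{a₀ (N+1) j}`)
gives `‖Δ z'‖ ≤ e^{-t j}`, `t` as large as we like.  `X.int_all N'` on `ball z τ` (`bilin_at`: the
`N'`-th derivative of `Δ` is `≤ C e^{a₀ (N'+2) j}`), `N'` large: the `n`-jet of `Δ` at `z` is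
`≤ e^{-t' j}`.  `|ψ Θ z| ≥ ‖Θ z‖ / A0`; `Θ' = ψ(Θ') w + Δ / ψ(Θ)` gives
`|ψ Θ' z| ≥ e^{-a₀ s} / (2 c' 0 A0)`; near `z`: `nrm ψ Θ = nrm ψ Θ' - (ψ Θ)⁻¹ (ψ Θ')⁻¹ Δ`;
`GB.nrm`, `GB.inv` (file `G0/ApA`). -/
def NdS : Prop := AllB fun E V _ _ _ _ _ _ _ _ _ _ _ _ B => ∀ (r N a : ℕ) (θ a₀ : ℝ), 0 < θ →
  1 ≤ a₀ → B.IND r N a θ → ∀ (n m : ℕ) (A0 : ℝ), ∃ K' : ℝ, 0 ≤ K' ∧ ∀ c c' : ℕ → ℝ,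
    ∃ (C : ℝ) (j₀ : ℕ), ∀ j s : ℕ, j₀ ≤ j → s ≤ j → j ≤ m * s →
      ∀ (ψ : V →L[ℝ] ℝ) (z : E × E) (Θ Θ' : E × E → V), ‖ψ‖ ≤ 1 → ‖z‖ < B.r →
        B.Cr c a₀ K' j Θ z → B.Cr c' a₀ (m * K') s Θ' z → exp (-(a₀ * j)) ≤ c 0 * ‖Θ z‖ →
        exp (-(a₀ * s)) ≤ c' 0 * ‖Θ' z‖ → ψ (Θ z) ≠ 0 → ‖nrm ψ Θ z‖ ≤ A0 →
        ∀ i ≤ n, ‖iteratedFDeriv ℝ i (nrm ψ Θ) z‖ ≤ C * exp (4 * a₀ * (i + 1) * s)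

/-- BLOW UP.  `H` has jets `≤ c k M` along `v = 0`, `h = ψ H` is comparable to `h (q, 0)`.  Then
`nrm ψ H` rescaled by `(ρ, δ / M)` has jets `≤ C M / δ` of all orders. -/
def BlS : Prop := ∀ (E Z V : Type) [NormedAddCommGroup E] [NormedSpace ℝ E] [NormedAddCommGroup Z]
  [NormedSpace ℝ Z] [NormedAddCommGroup V] [NormedSpace ℝ V] (n k : ℕ) (CH : ℝ) (c : ℕ → ℝ),
  ∃ C : ℝ, 0 < C ∧ ∀ (ψ : V →L[ℝ] ℝ) (H : E × Z → V) (q : E) (ρ δ M : ℝ), ‖ψ‖ ≤ 1 → 0 < ρ → ρ ≤ 1 →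
    0 < δ → δ ≤ M → M * ρ ^ k ≤ δ → δ ≤ |ψ (H (q, 0))| →
    (∀ y ∈ ball q ρ, ContDiffAt ℝ ∞ H (y, 0) ∧ (∀ i, ‖iteratedFDeriv ℝ i H (y, 0)‖ ≤ c i * M) ∧
      |ψ (H (y, 0))| ≤ CH * |ψ (H (q, 0))| ∧ |ψ (H (q, 0))| ≤ CH * |ψ (H (y, 0))|) →
    ∀ y ∈ ball (0 : E) (1 / 2),
      ContDiffAt ℝ ∞ (fun v : E × Z => nrm ψ H (q + ρ • v.1, (δ / M) • v.2)) (y, 0) ∧ ∀ i ≤ n,
      ‖iteratedFDeriv ℝ i (fun v : E × Z => nrm ψ H (q + ρ • v.1, (δ / M) • v.2)) (y, 0)‖ ≤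
        C * (M / δ)

end Crest.Agent.N221.G0
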