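import Crest.Agent.N221.G0.Bl
import Crest.Agent.N221.G0.Harn

/-!
Row 221, block G0 (helper18): a priori bounds for the ambient jets of the direction `Θ / ψ Θ` at a
point of the leaf, from its jets at a fine net of nodes (`harn` + `blS` + `net`).
-/

set_option autoImplicit false

open Set Metric Finset Filter
open scoped ContDiff Topology

namespace Crest.Agent.N221.G0

section
variable {ι X V : Type} [NormedAddCommGroup X] [NormedSpace ℝ X] [NormedAddCommGroup V]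
  [NormedSpace ℝ V]

lemma GB.of_bd (n : ℕ) (c : ℕ → ℝ) {f : ι → X → V} {x : ι → X} {E : ι → ℝ} (h0 : ∀ i, 0 ≤ E i)
    (hs : ∀ i, ContDiffAt ℝ ∞ (f i) (x i))
    (hb : ∀ i, ∀ k ≤ n, ‖iteratedFDeriv ℝ k (f i) (x i)‖ ≤ c k * E i) : GB n f x E fun _ => 1 := by
  refine ⟨hs, fun _ => le_rfl, 1 + cb c n, by have := cb_nonneg c n; positivity,
    fun i k hk => (hb i k hk).trans ?_⟩
  rw [one_pow, mul_one]
  exact mul_le_mul_of_nonneg_right (by linarith [le_cb c hk]) (h0 i)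

end

/-- the data of the a priori bound at the point `q` of the leaf `io` -/
structure Apd (Q X V : Type) [NormedAddCommGroup Q] [NormedSpace ℝ Q] [NormedAddCommGroup X]
    [NormedSpace ℝ X] [NormedAddCommGroup V] [NormedSpace ℝ V] (k n : ℕ) (c : ℕ → ℝ) (A : ℝ) where
  E : ℝ
  ρ : ℝ
  τ : ℝ
  η : ℝ
  q : Q
  io : Q → X
  Θ : X → V
  l : Q → V →L[ℝ] ℝ
  ψ : V →L[ℝ] ℝ
  E1 : 1 ≤ E
  ρ0 : 0 < ρ
  ρ1 : ρ ≤ 1
  τ0 : 0 < τ
  η1 : 1 ≤ η
  hρ : ρ ^ k * E ^ 4 ≤ 1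
  hτ : τ ^ k * E ≤ 1
  hψ : ‖ψ‖ ≤ 1
  sm : ∀ y ∈ ball q (4 * ρ), ContDiffAt ℝ ∞ Θ (io y) ∧ ContDiffAt ℝ ∞ l y ∧
    ContDiffAt ℝ ∞ (fun v : Q × X => Θ (io v.1 + E⁻¹ • v.2)) (y, 0)
  bd : ∀ y ∈ ball q (4 * ρ), ∀ i, ‖iteratedFDeriv ℝ i l y‖ ≤ c i * E ∧
    ‖iteratedFDeriv ℝ i (fun v : Q × X => Θ (io v.1 + E⁻¹ • v.2)) (y, 0)‖ ≤ c i * E
  one : ∀ y ∈ ball q (4 * ρ), l y (Θ (io y)) = 1
  ne : ∀ y ∈ ball q (4 * ρ), ψ (Θ (io y)) ≠ 0
  dir : ∀ y ∈ ball q (4 * ρ), ‖(ψ (Θ (io y)))⁻¹ • Θ (io y)‖ ≤ A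
  jet : ∀ y ∈ ball q (4 * ρ), ∀ i ≤ k,
    ‖iteratedFDeriv ℝ i (fun t => (ψ (Θ (io t)))⁻¹ • Θ (io t)) y‖ ≤ E
  nod : ∀ y ∈ ball q ρ, ∃ z, ‖z - y‖ ≤ ρ * τ ^ 2 ∧ ∀ i ≤ n,
    ‖iteratedFDeriv ℝ i (fun z => (ψ (Θ z))⁻¹ • Θ z) (io z)‖ ≤ η ^ (i + 1)

namespace Apd

variable {Q X V : Type} [NormedAddCommGroup Q] [NormedSpace ℝ Q] [NormedAddCommGroup X]
  [NormedSpace ℝ X] [NormedAddCommGroup V] [NormedSpace ℝ V] {k n : ℕ} {c : ℕ → ℝ} {A : ℝ}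

/-- the blow up -/
noncomputable def H (t : Apd Q X V k n c A) (v : Q × X) : V := t.Θ (t.io v.1 + t.E⁻¹ • v.2)

lemma H_inl (t : Apd Q X V k n c A) (y : Q) : t.H (y, 0) = t.Θ (t.io y) := by simp [H]

/-- points of the leaf -/
abbrev U (Q X V : Type) [NormedAddCommGroup Q] [NormedSpace ℝ Q] [NormedAddCommGroup X]
    [NormedSpace ℝ X] [NormedAddCommGroup V] [NormedSpace ℝ V] (k n : ℕ) (c : ℕ → ℝ) (A : ℝ) :=
  {s : Apd Q X V k n c A × Q // s.2 ∈ ball s.1.q (4 * s.1.ρ)}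

lemma gbH (N : ℕ) : GB N (fun s : U Q X V k n c A => s.1.1.H) (fun s => (s.1.2, 0)) (·.1.1.E)
    fun _ => 1 :=
  GB.of_bd N c (fun s => zero_le_one.trans s.1.1.E1) (fun s => (s.1.1.sm _ s.2).2.2)
    fun s i _ => (s.1.1.bd _ s.2 i).2

lemma gbh (N : ℕ) : GB N (fun (s : U Q X V k n c A) v => s.1.1.ψ (s.1.1.H v))
    (fun s => (s.1.2, 0)) (·.1.1.E) fun _ => 1 :=
  ((gbH N).clm' (fun s => s.1.1.ψ) fun s => s.1.1.hψ).mono le_rfl (fun _ => (one_mul _).le)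
    fun _ => le_rfl

lemma gb_inl {ι W : Type} [NormedAddCommGroup W] [NormedSpace ℝ W] {N : ℕ} {g : ι → Q × X → W}
    {y : ι → Q} {M D : ι → ℝ} (h : GB N g (fun i => (y i, 0)) M D) :
    GB N (fun i z => g i (z, 0)) y M D := by
  have := h.comp_aff (x := y) (fun _ => ContinuousLinearMap.inl ℝ Q X) (fun _ => 0)
    (fun _ => ContinuousLinearMap.norm_inl_le_one _ _ _) fun _ => by simp
  simpa using this

/-- Harnack for `ψ Θ` along the leaf -/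
lemma har [FiniteDimensional ℝ Q] : ∃ C E0 : ℝ, 1 ≤ C ∧ ∀ t : Apd Q X V k n c A, E0 ≤ t.E →
    1 ≤ C * t.E * |t.ψ (t.Θ (t.io t.q))| ∧
    ∀ y ∈ ball t.q t.ρ, |t.ψ (t.Θ (t.io y))| ≤ C * |t.ψ (t.Θ (t.io t.q))| ∧
      |t.ψ (t.Θ (t.io t.q))| ≤ C * |t.ψ (t.Θ (t.io y))| := by
  obtain ⟨C, C1, h⟩ := harn k
  have g1 := gb_inl (gbh (Q := Q) (X := X) (V := V) (k := k) (n := n) (c := c) (A := A) k)
  simp only [H_inl] at g1
  have g0 := gb_inl (gbH (Q := Q) (X := X) (V := V) (k := k) (n := n) (c := c) (A := A) k)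
  simp only [H_inl] at g0
  have g2 : GB k (fun (s : U Q X V k n c A) t => (s.1.1.ψ (s.1.1.Θ (s.1.1.io t)))⁻¹ •
      s.1.1.Θ (s.1.1.io t)) (·.1.2) (·.1.1.E) fun _ => 1 :=
    GB.of_bd k (fun _ => 1) (fun s => zero_le_one.trans s.1.1.E1)
      (fun s => ((g1.sm s).inv (s.1.1.ne _ s.2)).smul (g0.sm s))
      fun s i hi => by rw [one_mul]; exact s.1.1.jet _ s.2 i hi
  have g3 := (GB.of_bd k c (f := fun s : U Q X V k n c A => s.1.1.l) (x := (·.1.2))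
    (fun s => zero_le_one.trans s.1.1.E1) (fun s => (s.1.1.sm _ s.2).2.1)
    fun s i _ => (s.1.1.bd _ s.2 i).1).clm_apply g2
  obtain ⟨c1, c10, h1⟩ := g1.bd
  obtain ⟨c3, c30, h3⟩ := g3.bd
  set a := max 1 (c 0 * A) with ha
  have a1 : 1 ≤ a := le_max_left _ _
  refine ⟨max C a, max (c1 * a) (c3 * c1), C1.trans (le_max_left _ _), fun t hE => ?_⟩
  have E1 := t.E1
  have ρ0 := t.ρ0
  have mq : t.q ∈ ball t.q (4 * t.ρ) := mem_ball_self (by linarith)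
  have e : ∀ y ∈ ball t.q (4 * t.ρ),
      t.ψ (t.Θ (t.io y)) * t.l y ((t.ψ (t.Θ (t.io y)))⁻¹ • t.Θ (t.io y)) = 1 := fun y hy => by
    rw [map_smul, t.one y hy, smul_eq_mul, mul_one, mul_inv_cancel₀ (t.ne y hy)]
  set g := |t.ψ (t.Θ (t.io t.q))| with hg
  set ν := |t.l t.q ((t.ψ (t.Θ (t.io t.q)))⁻¹ • t.Θ (t.io t.q))| with hν
  have e1 : g * ν = 1 := by rw [hg, hν, ← abs_mul, e _ mq, abs_one]
  have gp : 0 ≤ g := abs_nonneg _
  have νp : 0 ≤ ν := abs_nonneg _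
  have lo : 1 ≤ a * t.E * g := by
    have b1 : ‖t.l t.q‖ ≤ c 0 * t.E := by simpa using (t.bd _ mq 0).1
    have b2 : ν ≤ c 0 * t.E * A := ((t.l t.q).le_opNorm _).trans
      (mul_le_mul b1 (t.dir _ mq) (norm_nonneg _) ((norm_nonneg _).trans b1))
    have b3 : c 0 * A * t.E ≤ a * t.E := by gcongr; exact le_max_right _ _
    nlinarith
  have lo' : 1 ≤ c1 * t.E * ν := by
    have b1 : g ≤ c1 * t.E := by simpa using h1 ⟨(t, t.q), mq⟩ 0 k.zero_le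
    nlinarith
  have p0 : 0 ≤ t.ρ ^ k := by positivity
  have j1 : ∀ x ∈ ball t.q (4 * t.ρ),
      ‖iteratedFDeriv ℝ k (fun y => t.ψ (t.Θ (t.io y))) x‖ * t.ρ ^ k ≤ g := fun x hx => by
    have b1 := mul_le_mul_of_nonneg_right (h1 ⟨(t, x), hx⟩ k le_rfl) p0
    rw [one_pow, mul_one] at b1
    refine b1.trans ?_
    have b2 : c1 * a ≤ t.E ^ 2 := ((le_max_left _ _).trans hE).trans (le_self_pow₀ E1 (by norm_num))
    calc c1 * t.E * t.ρ ^ k ≤ c1 * t.E * t.ρ ^ k * (a * t.E * g) :=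
          le_mul_of_one_le_right (by positivity) lo
      _ = c1 * a * (t.ρ ^ k * t.E ^ 2 * g) := by ring
      _ ≤ t.E ^ 2 * (t.ρ ^ k * t.E ^ 2 * g) := by gcongr
      _ = t.ρ ^ k * t.E ^ 4 * g := by ring
      _ ≤ g := mul_le_of_le_one_left gp t.hρ
  have j2 : ∀ x ∈ ball t.q (4 * t.ρ), ‖iteratedFDeriv ℝ k (fun y => t.l y
      ((t.ψ (t.Θ (t.io y)))⁻¹ • t.Θ (t.io y))) x‖ * t.ρ ^ k ≤ ν := fun x hx => by
    have b1 := mul_le_mul_of_nonneg_right (h3 ⟨(t, x), hx⟩ k le_rfl) p0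
    rw [one_pow, mul_one] at b1
    refine b1.trans ?_
    have b2 : c3 * c1 ≤ t.E := (le_max_right _ _).trans hE
    calc c3 * (t.E * t.E) * t.ρ ^ k ≤ c3 * (t.E * t.E) * t.ρ ^ k * (c1 * t.E * ν) :=
          le_mul_of_one_le_right (by positivity) lo'
      _ = c3 * c1 * (t.ρ ^ k * t.E ^ 3 * ν) := by ring
      _ ≤ t.E * (t.ρ ^ k * t.E ^ 3 * ν) := by gcongr
      _ = t.ρ ^ k * t.E ^ 4 * ν := by ring
      _ ≤ ν := mul_le_of_le_one_left νp t.hρ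
  refine ⟨lo.trans (by gcongr; exact le_max_right _ _), fun y hy => ⟨?_, ?_⟩⟩
  · exact (h Q _ _ t.q t.q t.ρ ρ0 (fun y hy => (g1.sm ⟨(t, y), hy⟩).contDiffWithinAt)
      (fun y hy => (g3.sm ⟨(t, y), hy⟩).contDiffWithinAt) e (mem_ball_self ρ0) j1 j2 y hy).trans
      (by gcongr; exact le_max_left _ _)
  · have b1 := h Q _ _ t.q t.q t.ρ ρ0 (fun y hy => (g3.sm ⟨(t, y), hy⟩).contDiffWithinAt)
      (fun y hy => (g1.sm ⟨(t, y), hy⟩).contDiffWithinAt) (fun y hy => (mul_comm _ _).trans (e y hy))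
      (mem_ball_self ρ0) j2 j1 y hy
    have b2 := congrArg abs (e y (ball_subset_ball (by linarith) hy))
    rw [abs_mul, abs_one] at b2
    have b3 := abs_nonneg (t.ψ (t.Θ (t.io y)))
    calc g = g * (|t.ψ (t.Θ (t.io y))| * _) := by rw [b2, mul_one]
      _ ≤ g * (|t.ψ (t.Θ (t.io y))| * (C * ν)) := by gcongr
      _ = C * |t.ψ (t.Θ (t.io y))| * (g * ν) := by ring
      _ ≤ _ := by rw [e1, mul_one]; gcongr; exact le_max_left _ _

/-- transverse derivatives of the blow up -/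
lemma itf_H (t : Apd Q X V k n c A) {y : Q} (hy : y ∈ ball t.q (4 * t.ρ)) (i : ℕ) (e : Fin i → X) :
    iteratedFDeriv ℝ i (fun v => (t.ψ (t.H v))⁻¹ • t.H v) (y, 0) (fun j => (0, e j)) =
      t.E⁻¹ ^ i • iteratedFDeriv ℝ i (fun z => (t.ψ (t.Θ z))⁻¹ • t.Θ z) (t.io y) e := by
  obtain ⟨s1, -, s3⟩ := t.sm y hy
  have w1 : ContDiffAt ℝ ∞ (fun z => (t.ψ (t.Θ z))⁻¹ • t.Θ z) (t.io y) :=
    ((lin_sm t.ψ s1).inv (t.ne y hy)).smul s1
  have w2 : ContDiffAt ℝ ∞ (fun v => (t.ψ (t.H v))⁻¹ • t.H v) (y, 0) :=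
    ((lin_sm t.ψ s3).inv (by rw [show t.Θ _ = _ from t.H_inl y]; exact t.ne y hy)).smul s3
  have e1 := itf_lin (ContinuousLinearMap.inr ℝ Q X)
    (f := fun v => (t.ψ (t.H ((y, 0) + v)))⁻¹ • t.H ((y, 0) + v)) (x := 0) i
    (ContDiffAt.comp (g := fun v => (t.ψ (t.H v))⁻¹ • t.H v) _ (by simpa using cda w2 i) (by fun_prop))
  have e2 := itf_lin (t.E⁻¹ • ContinuousLinearMap.id ℝ X)
    (f := fun z => (t.ψ (t.Θ (t.io y + z)))⁻¹ • t.Θ (t.io y + z)) (x := 0) i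
    (ContDiffAt.comp (g := fun z => (t.ψ (t.Θ z))⁻¹ • t.Θ z) _ (by simpa using cda w1 i) (by fun_prop))
  rw [iteratedFDeriv_comp_add_left (f := fun v => (t.ψ (t.H v))⁻¹ • t.H v), map_zero, add_zero] at e1
  rw [iteratedFDeriv_comp_add_left (f := fun z => (t.ψ (t.Θ z))⁻¹ • t.Θ z), map_zero, add_zero] at e2
  have e3 := DFunLike.congr_fun (e1.symm.trans (Eq.trans (by simp [H]) e2)) e
  simp only [ContinuousMultilinearMap.compContinuousLinearMap_apply, ContinuousLinearMap.inr_apply,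
    smul_apply, ContinuousLinearMap.id_apply] at e3
  rw [e3, ContinuousMultilinearMap.map_smul_univ, prod_const, card_univ, Fintype.card_fin]

/-- the rescaled direction -/
noncomputable def W (t : Apd Q X V k n c A) (s : ℝ) (v : Q × X) : V :=
  nrm t.ψ t.H (t.q + t.ρ • v.1, s • v.2)

lemma itf_W (t : Apd Q X V k n c A) (s : ℝ) {y : Q} (hy : y ∈ ball (0 : Q) 1) (i : ℕ)
    (e : Fin i → X) : iteratedFDeriv ℝ i (t.W s) (y, 0) (fun j => (0, e j)) =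
      (s * t.E⁻¹) ^ i • iteratedFDeriv ℝ i (nrm t.ψ t.Θ) (t.io (t.q + t.ρ • y)) e := by
  have m : t.q + t.ρ • y ∈ ball t.q (4 * t.ρ) :=
    ball_subset_ball (by linarith [t.ρ0]) (Bl.mem t.ρ0 hy)
  have e1 := Bl.aff (Bl.L Q X t.ρ s) (t.q, 0) (f := nrm t.ψ t.H) (x := (y, 0)) i (by
    rw [Bl.pt]
    exact cda_nrm (t.sm _ m).2.2 (by rw [t.H_inl]; exact t.ne _ m))
  have e2 : t.W s = fun v => nrm t.ψ t.H ((t.q, 0) + Bl.L Q X t.ρ s v) := by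
    funext v; simp [W, Bl.L_apply]
  have e3 := t.itf_H m i fun j => s • e j
  rw [ContinuousMultilinearMap.map_smul_univ, prod_const, card_univ, Fintype.card_fin, smul_smul,
    ← mul_pow, mul_comm] at e3
  rw [e2, e1, Bl.pt]
  simp only [ContinuousMultilinearMap.compContinuousLinearMap_apply, Bl.L_apply, smul_zero]
  exact e3

end Apd

open Apd in
/-- A PRIORI BOUND -/
theorem apd (Q X V : Type) [NormedAddCommGroup Q] [NormedSpace ℝ Q] [NormedAddCommGroup X]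
    [NormedSpace ℝ X] [NormedAddCommGroup V] [NormedSpace ℝ V] [FiniteDimensional ℝ Q]
    [CompleteSpace V] (k n : ℕ) (c : ℕ → ℝ) (A : ℝ) : ∃ C E0 τ0 : ℝ, 0 < C ∧ 0 < τ0 ∧
    ∀ t : Apd Q X V k n c A, E0 ≤ t.E → t.τ ≤ τ0 → ∀ i ≤ n,
      ‖iteratedFDeriv ℝ i (nrm t.ψ t.Θ) (t.io t.q)‖ ≤ C * t.η ^ (i + 1) := by
  obtain ⟨C1, E1, c1, h1⟩ := har (Q := Q) (X := X) (V := V) (k := k) (n := n) (c := c) (A := A)
  set L := k * (3 * n + 4) with hL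
  obtain ⟨C2, c2, h2⟩ := blS Q X V (L + 1 + n) k C1 c
  obtain ⟨C3, c3, h3⟩ := net (L + 1) (by omega)
  let U := {s : Apd Q X V k n c A × Q // max E1 C1 ≤ s.1.E ∧ s.2 ∈ ball (0 : Q) (1 / 2)}
  have bl : ∀ s : U, ContDiffAt ℝ ∞ (s.1.1.W ((C1 * s.1.1.E)⁻¹ / s.1.1.E)) (s.1.2, 0) ∧
      ∀ i ≤ L + 1 + n, ‖iteratedFDeriv ℝ i (s.1.1.W ((C1 * s.1.1.E)⁻¹ / s.1.1.E)) (s.1.2, 0)‖ ≤
        C2 * (s.1.1.E / (C1 * s.1.1.E)⁻¹) := fun ⟨(t, y), hE, hy⟩ => by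
    have e1 := t.E1
    obtain ⟨a1, a2⟩ := h1 t ((le_max_left _ _).trans hE)
    have a3 : C1 ≤ t.E := (le_max_right _ _).trans hE
    refine h2 t.ψ t.H t.q t.ρ (C1 * t.E)⁻¹ t.E t.hψ t.ρ0 t.ρ1 (by positivity)
      ((inv_le_one_of_one_le₀ (one_le_mul_of_one_le_of_one_le c1 e1)).trans e1) ?_ ?_
      (fun y hy => ?_) y hy
    · rw [← one_div, le_div_iff₀ (by positivity)]
      refine le_trans ?_ t.hρ
      have : 0 ≤ t.ρ ^ k := pow_nonneg t.ρ0.le k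
      calc t.E * t.ρ ^ k * (C1 * t.E) ≤ t.E * t.ρ ^ k * (t.E * t.E * t.E) := by
            gcongr; nlinarith
        _ = _ := by ring
    · rw [t.H_inl, inv_le_iff_one_le_mul₀' (by positivity)]; exact a1
    · have m : y ∈ ball t.q (4 * t.ρ) := ball_subset_ball (by linarith [t.ρ0]) hy
      simp only [H_inl]
      exact ⟨(t.sm y m).2.2, fun i => (t.bd y m i).2, a2 y hy⟩
  have G0 : GB (L + 1 + n) (fun s : U => s.1.1.W ((C1 * s.1.1.E)⁻¹ / s.1.1.E)) (fun s => (s.1.2, 0))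
      (fun s => s.1.1.E ^ 3) fun _ => 1 :=
    GB.of_bd _ (fun _ => C2) (fun s => by have := s.1.1.E1; positivity) (fun s => (bl s).1)
      fun s i hi => ((bl s).2 i hi).trans (mul_le_mul_of_nonneg_left (by
        have := s.1.1.E1
        have a3 : C1 ≤ s.1.1.E := (le_max_right _ _).trans s.2.1
        rw [div_inv_eq_mul]
        calc _ ≤ s.1.1.E * (s.1.1.E * s.1.1.E) := by gcongr
          _ = _ := by ring) c2.le)
  have G1 : ∀ i : Fin (n + 1), ∃ C : ℝ, 0 < C ∧ ∀ s : U, ContDiffAt ℝ ∞ (fun y => iteratedFDeriv ℝ i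
      (s.1.1.W ((C1 * s.1.1.E)⁻¹ / s.1.1.E)) (y, 0)) s.1.2 ∧ ∀ m ≤ L + 1, ‖iteratedFDeriv ℝ m
      (fun y => iteratedFDeriv ℝ i (s.1.1.W ((C1 * s.1.1.E)⁻¹ / s.1.1.E)) (y, 0)) s.1.2‖ ≤
        C * s.1.1.E ^ 3 := fun i => by
    have := gb_inl (GB.iter (n := L + 1) i (G0.mono (by omega) (fun _ => le_rfl) fun _ => le_rfl))
    obtain ⟨C, C0, hC⟩ := this.bd
    exact ⟨C, C0, fun s => ⟨this.sm s, fun m hm => by simpa using hC s m hm⟩⟩
  choose C4 c4 h4 using G1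
  refine ⟨4 + C3 ^ (L + 1), max (max E1 C1) (∑ i, C4 i * C1 ^ n), min (1 / (4 * C3)) (1 / (2 * (L + 2))),
    by positivity, by positivity, fun t hE hτ i hi => opNorm_le_unit _ (by
      have := t.η1; positivity) fun e he => ?_⟩
  have e1 := t.E1
  have τ0 := t.τ0
  have η1 := t.η1
  have hE1 := (le_max_left _ _).trans hE
  set s := (C1 * t.E)⁻¹ / t.E with hs
  set i' : Fin (n + 1) := ⟨i, by omega⟩
  set Λ : ((Q × X) [×i]→L[ℝ] V) →L[ℝ] V := (C1 * t.E ^ 3) ^ i •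
    ContinuousMultilinearMap.apply ℝ (fun _ : Fin i => Q × X) V fun j => (0, e j) with hΛ
  have nΛ : ∀ a, ‖Λ a‖ ≤ (C1 * t.E ^ 3) ^ i * ‖a‖ := fun a => by
    rw [hΛ, smul_apply, norm_smul, Real.norm_of_nonneg (by positivity)]
    refine mul_le_mul_of_nonneg_left ((a.le_opNorm _).trans (mul_le_of_le_one_right (norm_nonneg _)
      (prod_le_one (fun _ _ => norm_nonneg _) fun j _ => by simpa using he j))) (by positivity)
  have val : ∀ y ∈ ball (0 : Q) 1, Λ (iteratedFDeriv ℝ i (t.W s) (y, 0)) =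
      iteratedFDeriv ℝ i (nrm t.ψ t.Θ) (t.io (t.q + t.ρ • y)) e := fun y hy => by
    rw [hΛ, smul_apply, ContinuousMultilinearMap.apply_apply, t.itf_W s hy, smul_smul, ← mul_pow,
      show C1 * t.E ^ 3 * (s * t.E⁻¹) = 1 by rw [hs]; field_simp, one_pow, one_smul]
  have jb : ∀ m ≤ L + 1, ∀ y ∈ ball (0 : Q) (1 / 2), ‖iteratedFDeriv ℝ m
      (fun y => Λ (iteratedFDeriv ℝ i (t.W s) (y, 0))) y‖ ≤ t.E ^ (3 * n + 4) := fun m hm y hy => by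
    obtain ⟨a1, a2⟩ := h4 i' ⟨(t, y), hE1, hy⟩
    refine (lin_le Λ m (by positivity) nΛ (cda a1 m)).trans
      ((mul_le_mul_of_nonneg_left (a2 m hm) (by positivity)).trans ?_)
    have a3 : C4 i' * C1 ^ n ≤ t.E := (single_le_sum (f := fun i => C4 i * C1 ^ n)
      (fun j _ => by have := c4 j; positivity) (mem_univ i')).trans ((le_max_right _ _).trans hE)
    have := c4 i'
    calc (C1 * t.E ^ 3) ^ i * (C4 i' * t.E ^ 3) ≤ (C1 * t.E ^ 3) ^ n * (C4 i' * t.E ^ 3) := by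
          gcongr; exact one_le_mul_of_one_le_of_one_le c1 (one_le_pow₀ e1)
      _ = C4 i' * C1 ^ n * t.E ^ (3 * n + 3) := by ring
      _ ≤ t.E * t.E ^ (3 * n + 3) := by gcongr
      _ = _ := by ring
  have t1 : t.τ * (4 * C3) ≤ 1 := (le_div_iff₀ (by positivity)).1 (hτ.trans (min_le_left _ _))
  have t2 : t.τ * (2 * (L + 2)) ≤ 1 := (le_div_iff₀ (by positivity)).1 (hτ.trans (min_le_right _ _))
  have L0 : (0 : ℝ) ≤ L := Nat.cast_nonneg L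
  have t3 : t.τ ≤ 1 / 4 := by nlinarith
  have := h3 Q V (fun y => Λ (iteratedFDeriv ℝ i (t.W s) (y, 0))) 0 (1 / 2) t.τ (t.τ ^ 2)
    (t.η ^ (i + 1)) (t.E ^ (3 * n + 4)) (t.E ^ (3 * n + 4)) L τ0 (by positivity) (by nlinarith)
    (fun y hy => (lin_sm Λ (cda (h4 i' ⟨(t, y), hE1, hy⟩).1 _)).contDiffWithinAt)
    (fun y hy => by simpa using jb 0 (by omega) y hy) (jb _ le_rfl) (fun y hy => by
      have y1 : ‖y‖ < 1 / 2 := by linarith [mem_ball_zero_iff.1 hy]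
      obtain ⟨z, z1, z2⟩ := t.nod _ (Bl.mem (q := t.q) t.ρ0 (mem_ball_zero_iff.2 (by linarith)))
      have ρ0 := t.ρ0
      have z3 : ‖t.ρ⁻¹ • (z - t.q) - y‖ ≤ t.τ ^ 2 := by
        rw [show t.ρ⁻¹ • (z - t.q) - y = t.ρ⁻¹ • (z - (t.q + t.ρ • y)) by
          match_scalars <;> field_simp, norm_smul, Real.norm_of_nonneg (by positivity),
          inv_mul_le_iff₀ ρ0]
        exact z1
      refine ⟨_, z3, ?_⟩
      rw [val _ (mem_ball_zero_iff.2 (by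
        nlinarith [norm_le_norm_add_norm_sub' (t.ρ⁻¹ • (z - t.q)) y])), smul_inv_smul₀ ρ0.ne',
        add_sub_cancel]
      exact (ContinuousMultilinearMap.le_opNorm _ _).trans ((mul_le_of_le_one_right (norm_nonneg _)
        (prod_le_one (fun _ _ => norm_nonneg _) fun j _ => he j)).trans (z2 i hi)))
    0 (mem_ball_self (by nlinarith))
  rw [val 0 (mem_ball_self one_pos), smul_zero, add_zero] at this
  refine this.trans ?_
  have p1 : t.E ^ (3 * n + 4) * t.τ ^ (L + 1) ≤ 1 := by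
    rw [pow_succ t.τ, hL, pow_mul, ← mul_assoc, ← mul_pow, mul_comm t.E]
    exact mul_le_one₀ (pow_le_one₀ (by positivity) t.hτ) τ0.le (by linarith)
  have p2 : 1 ≤ t.η ^ (i + 1) := one_le_pow₀ η1
  rw [show C3 * t.τ ^ 2 / t.τ = C3 * t.τ by field_simp, mul_pow, mul_assoc, mul_comm (t.τ ^ _)]
  have p3 : 0 < C3 ^ (L + 1) := by positivity
  nlinarith [mul_le_mul_of_nonneg_left (p1.trans p2) p3.le]

end Crest.Agent.N221.G0
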