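import Crest.Agent.N221.G0.SoA

/-!
Row 221, block G0 (helper33): `S.So` = a source of level `j` along the `i`-plaque of `x` (pull
back of a Siegel form), `SoS2`: sources pass near every point; `soX_of : SoS2 → SoX`.
-/

set_option autoImplicit false

open Set Metric Filter Topology Real
open scoped ContDiff

noncomputable section

namespace Crest.Agent.N221.G0

namespace Sy

variable {E W : Type} [NormedAddCommGroup E] [NormedSpace ℝ E] [NormedAddCommGroup W]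
  [NormedSpace ℝ W] (S : Sy E W)

/-- a relation up to `e^{-K j}` on `ball z (e^{-a j})` with crude bounds -/
def Cr (n : ℕ) (f : S.F) (c : ℕ → ℝ) (a K : ℝ) (j : ℕ) (Θ : E × E → Vf W (n + 1)) (z : E × E) :
    Prop :=
  ∀ y ∈ ball z (exp (-(a * j))), ContDiffAt ℝ ∞ Θ y ∧ ‖S.io n f y (Θ y)‖ ≤ exp (-(K * j)) ∧
    ∀ k, ‖iteratedFDeriv ℝ k Θ y‖ ≤ c k * exp (a * (k + 1) * j)

/-- a source of level `j` on a tube round the `i`-plaque of `x`; `l` is a dual section along the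
plaque; tangential derivatives grow at a rate that does not depend on the order -/
structure So (n : ℕ) (f : S.F) (i : Bool) (c : ℕ → ℝ) (a K : ℝ) (j : ℕ) (x : E × E)
    (Θ : E × E → Vf W (n + 1)) (l : E → Vf W (n + 1) →L[ℝ] ℝ) : Prop where
  pq : S.Pq i f x S.r1
  cr : ∀ q ∈ ball (0 : E) S.R, S.Cr n f c a K j Θ (S.pt i f x q)
  ls : ∀ q ∈ ball (0 : E) S.R, ContDiffAt ℝ ∞ l q
  one : ∀ q ∈ ball (0 : E) S.R, l q (Θ (S.pt i f x q)) = 1
  lb : ∀ q ∈ ball (0 : E) S.R, ∀ k, ‖iteratedFDeriv ℝ k l q‖ ≤ c k * exp (a * j)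
  bl : ∀ q ∈ ball (0 : E) S.R, ∀ k, ‖iteratedFDeriv ℝ k
    (fun v : E × (E × E) => Θ (S.pt i f x v.1 + exp (-(a * j)) • v.2)) (q, 0)‖ ≤ c k * exp (a * j)

/-- sources of every level and every order near every point, for both foliations -/
def Sos (n : ℕ) (f : S.F) (χ a : ℝ) : Prop := ∀ (i : Bool) (K : ℝ), ∃ (c : ℕ → ℝ) (j₁ : ℕ),
  (∀ k, 1 ≤ c k) ∧ ∀ j, j₁ ≤ j → ∀ z : E × E, ‖z‖ < 2 * S.r2 →
    ∃ x Θ l, S.Ds i f x z (exp (-(χ * j))) ∧ S.So n f i c a K j x Θ l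

end Sy

/-- (63) SOURCES: `Chn.app` onto `z₁`, pull back of `Q` at the scale `ρ ≈ q ^ (j / 2)` -/
def SoS2 : Prop := All fun _ _ _ _ _ _ _ _ S => ∀ n f, S.Srcs n f →
  ∃ χ a : ℝ, 0 < χ ∧ 1 ≤ a ∧ S.Sos n f χ a

theorem soX_of (h : SoS2) : SoX := by
  intro E W _ _ _ _ _ _ S hS n f hs
  obtain ⟨χ, a, hχ, ha, h⟩ := h E W S hS n f hs
  refine ⟨χ, a, hχ, ha, fun i K => ?_⟩
  obtain ⟨c, j₁, -, h⟩ := h i K
  refine ⟨c, j₁, fun j hj z hz => ?_⟩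
  obtain ⟨x, Θ, l, h1, h2⟩ := h j hj z hz
  exact ⟨x, Θ, l, h2.pq, h1, fun q hq =>
    ⟨h2.cr q hq, h2.ls q hq, h2.one q hq, h2.lb q hq, h2.bl q hq⟩⟩

end Crest.Agent.N221.G0
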