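import Crest.Agent.N221.G0.Nj
import Crest.Agent.N221.G0.One
import Crest.Agent.N221.G0.LPoly

/-!
Row 221, block G0 (helper26): the fields `crude` and `fml` of a good leaf, shape free.
`nrm ψ Θ = Θ / ψ Θ`; `crude_jets`: jets along a curve; `fml_jets`: the jets of the defect along a
curve on which `D` is smooth are small.
-/

set_option autoImplicit false

open Set Metric Finset Filter Real
open scoped ContDiff Nat Topology

noncomputable section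

namespace Crest.Agent.N221.G0

variable {Q X V V' : Type} [NormedAddCommGroup Q] [NormedSpace ℝ Q] [NormedAddCommGroup X]
  [NormedSpace ℝ X] [NormedAddCommGroup V] [NormedSpace ℝ V] [NormedAddCommGroup V']
  [NormedSpace ℝ V']

lemma GB.of_uj {ι : Type} (n : ℕ) {c : ℕ → ℝ} {f : ι → Q → X} {x : ι → Q}
    (h : ∀ i, UJ c (f i) (x i)) : GB n f x (fun _ => 1) fun _ => 1 :=
  GB.of_pow n c (fun _ => le_rfl) (fun i => (h i).1) fun i k => by simpa using (h i).2 k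

/-- the data at one point -/
structure Fd (Q X V : Type) [NormedAddCommGroup Q] [NormedSpace ℝ Q] [NormedAddCommGroup X]
    [NormedSpace ℝ X] [NormedAddCommGroup V] [NormedSpace ℝ V] (c : ℕ → ℝ) (A : ℝ) where
  E : ℝ
  q : Q
  γ : Q → X
  Θ : X → V
  ψ : V →L[ℝ] ℝ
  one : 1 ≤ E
  hγ : UJ c γ q
  sm : ContDiffAt ℝ ∞ Θ (γ q)
  bd : ∀ k, ‖iteratedFDeriv ℝ k Θ (γ q)‖ ≤ c k * E ^ (k + 1)
  fl : 1 ≤ c 0 * E * ‖Θ (γ q)‖
  hψ : ‖ψ‖ ≤ 1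
  ne : ψ (Θ (γ q)) ≠ 0
  le : ‖nrm ψ Θ (γ q)‖ ≤ A

namespace Fd

variable (n : ℕ) (c : ℕ → ℝ) (A : ℝ)

lemma gb : GB n (fun (t : Fd Q X V c A) z => t.Θ (t.γ z)) (fun t => t.q) (fun t => t.E)
    fun t => t.E :=
  ((GB.of_pow n c (fun t : Fd Q X V c A => t.one) (fun t => t.sm) fun t => t.bd).comp'
    (GB.of_uj n fun t => t.hγ) fun _ => rfl).mono le_rfl (fun _ => le_rfl) fun _ => (mul_one _).le

lemma gbi : GB n (fun (t : Fd Q X V c A) z => (t.ψ (t.Θ (t.γ z)))⁻¹) (fun t => t.q) (fun t => t.E)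
    fun t => t.E ^ 3 := by
  set A' := max 1 (c 0 * A) with hA'
  have A1 : 1 ≤ A' := le_max_left _ _
  have h1 := ((gb (Q := Q) (X := X) (V := V) n c A).clm' (M' := fun _ => 1) (fun t => t.ψ)
    fun t => t.hψ).mono (M' := fun t => t.E) le_rfl (fun _ => (one_mul _).le) fun _ => le_rfl
  refine (h1.invm (m := fun t => A' * t.E) (fun t => t.one)
    (fun t => one_le_mul_of_one_le_of_one_le A1 t.one) fun t => ?_).absorb A1 (fun _ => le_rfl)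
    (fun t => le_of_eq (by ring)) fun t => one_le_pow₀ t.one
  have e1 := t.one
  have e2 := t.fl
  have e3 := t.le
  have e4 := abs_pos.2 t.ne
  have c0 : 0 ≤ c 0 := (norm_nonneg _).trans (t.hγ.2 0)
  rw [nrm, norm_smul, norm_inv, Real.norm_eq_abs, inv_mul_le_iff₀ e4] at e3
  calc (1 : ℝ) ≤ c 0 * t.E * (|t.ψ (t.Θ (t.γ t.q))| * A) := e2.trans (by gcongr)
    _ = c 0 * A * t.E * |t.ψ (t.Θ (t.γ t.q))| := by ring
    _ ≤ _ := by gcongr; exact le_max_right _ _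

/-- CRUDE -/
theorem crude : ∃ C : ℝ, 0 < C ∧ ∀ t : Fd Q X V c A, ∀ i ≤ n,
    ‖iteratedFDeriv ℝ i (fun z => nrm t.ψ t.Θ (t.γ z)) t.q‖ ≤ C * t.E ^ (3 * (i + 1)) := by
  obtain ⟨C, C0, hC⟩ := ((gbi (Q := Q) (X := X) (V := V) n c A).fsmul ((gb n c A).mono le_rfl
    (fun _ => le_rfl) fun t => le_self_pow₀ t.one (by norm_num))).bd
  refine ⟨C, C0, fun t i hi => (hC t i hi).trans ?_⟩
  have := t.one
  rw [mul_assoc, ← pow_mul, ← sq, ← pow_add]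
  gcongr
  omega

end Fd

/-- the data along a curve -/
structure Fe (Q X V V' : Type) [NormedAddCommGroup Q] [NormedSpace ℝ Q] [NormedAddCommGroup X]
    [NormedSpace ℝ X] [NormedAddCommGroup V] [NormedSpace ℝ V] [NormedAddCommGroup V']
    [NormedSpace ℝ V'] (c : ℕ → ℝ) (A r : ℝ) (b : ℕ) extends Fd Q X V c A where
  D : Q → V →L[ℝ] V'
  uγ : ∀ z ∈ ball q r, UJ c γ z
  uD : ∀ z ∈ ball q r, UJ c D z
  sm' : ∀ y ∈ ball (γ q) E⁻¹, ContDiffAt ℝ ∞ Θ y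
  bd' : ∀ y ∈ ball (γ q) E⁻¹, ∀ k, ‖iteratedFDeriv ℝ k Θ y‖ ≤ c k * E ^ (k + 1)
  df : ∀ z ∈ ball q r, γ z ∈ ball (γ q) E⁻¹ → ‖D z (Θ (γ z))‖ ≤ (E ^ b)⁻¹

namespace Fe

variable [CompleteSpace V'] (K s : ℕ) (c : ℕ → ℝ) (A : ℝ) {r : ℝ} (hr : 0 < r)
include hr

lemma small : GB K (fun (t : Fe Q X V V' c A r ((s + K + 2) * K + s)) z => t.D z (t.Θ (t.γ z)))
    (fun t => t.q) (fun t => (t.E ^ s)⁻¹) fun _ => 1 := by
  set T := Fe Q X V V' c A r ((s + K + 2) * K + s)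
  set L := max 1 (c 1) with hL
  have L1 : 1 ≤ L := le_max_left _ _
  set κ := min r L⁻¹ with hκ
  have κ0 : 0 < κ := lt_min hr (by positivity)
  have κ1 : κ ≤ 1 := (min_le_right _ _).trans (inv_le_one_of_one_le₀ L1)
  let ρ : T → ℝ := fun t => κ * (t.E ^ (s + K + 2))⁻¹
  have E0 : ∀ t : T, 0 < t.E := fun t => by linarith [t.one]
  have ρ0 : ∀ t, 0 < ρ t := fun t => by have := E0 t; positivity
  have ρE : ∀ t, ρ t ≤ κ * t.E⁻¹ := fun t => by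
    have := E0 t
    exact mul_le_mul_of_nonneg_left (inv_anti₀ this (le_self_pow₀ t.one (by omega))) κ0.le
  have ρκ : ∀ t, ρ t ≤ κ := fun t =>
    (ρE t).trans (mul_le_of_le_one_right κ0.le (inv_le_one_of_one_le₀ t.one))
  have m1 : ∀ t : T, ∀ z ∈ ball t.q (ρ t), z ∈ ball t.q r := fun t z hz =>
    ball_subset_ball ((ρκ t).trans (min_le_left _ _)) hz
  have m2 : ∀ t : T, ∀ z ∈ ball t.q (ρ t), t.γ z ∈ ball (t.γ t.q) t.E⁻¹ := fun t z hz => by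
    have h1 := (convex_ball t.q r).norm_image_sub_le_of_norm_fderiv_le (𝕜 := ℝ) (f := t.γ) (C := L)
      (fun y hy => (t.uγ y hy).1.differentiableAt (by simp))
      (fun y hy => by
        have := (t.uγ y hy).2 1
        rw [← norm_iteratedFDeriv_fderiv, norm_iteratedFDeriv_zero] at this
        exact this.trans (le_max_right _ _)) (mem_ball_self hr) (m1 t z hz)
    rw [mem_ball_iff_norm] at hz ⊢
    have h2 : L * κ ≤ 1 := by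
      calc L * κ ≤ L * L⁻¹ := by gcongr; exact min_le_right _ _
        _ = 1 := mul_inv_cancel₀ (by positivity)
    have h3 : 0 < t.E⁻¹ := inv_pos.2 (E0 t)
    calc _ ≤ L * ‖z - t.q‖ := h1
      _ < L * (κ * t.E⁻¹) := by gcongr; exact hz.trans_le (ρE t)
      _ = L * κ * t.E⁻¹ := by ring
      _ ≤ _ := mul_le_of_le_one_left h3.le h2
  let ι := {p : T × Q // p.2 ∈ ball p.1.q (ρ p.1)}
  have g1 : GB (K + 1) (fun (p : ι) z => p.1.1.Θ (p.1.1.γ z)) (fun p => p.1.2) (fun p => p.1.1.E)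
      fun p => p.1.1.E :=
    ((GB.of_pow (K + 1) c (fun p : ι => p.1.1.one) (fun p => p.1.1.sm' _ (m2 _ _ p.2))
      fun p => p.1.1.bd' _ (m2 _ _ p.2)).comp' (GB.of_uj _ fun p => p.1.1.uγ _ (m1 _ _ p.2))
        fun _ => rfl).mono le_rfl (fun _ => le_rfl) fun _ => (mul_one _).le
  have g2 := ((GB.of_uj (K + 1) fun p : ι => p.1.1.uD _ (m1 _ _ p.2)).mono le_rfl (fun _ => le_rfl)
    fun p => p.1.1.one).clm_apply g1
  obtain ⟨C1, C10, h1⟩ := g2.bd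
  obtain ⟨C, C0, hI⟩ := Crest.Agent.N221.X.int_all (K + 1)
  refine ⟨fun t => g2.sm ⟨(t, t.q), mem_ball_self (ρ0 t)⟩, fun _ => le_rfl,
    C * ((κ ^ K)⁻¹ + C1), by positivity, fun t i hi => ?_⟩
  have e0 := E0 t
  have e1 := t.one
  have r0 := ρ0 t
  refine (hI Q V' _ t.q (ρ t) _ (C1 * (1 * t.E) * t.E ^ (K + 1)) r0
    (fun z hz => (cda (g2.sm ⟨(t, z), hz⟩) _).contDiffWithinAt)
    (fun z hz => t.df z (m1 t z hz) (m2 t z hz)) (fun z hz => h1 ⟨(t, z), hz⟩ _ le_rfl) i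
    (by omega) t.q (mem_ball_self (by positivity))).trans ?_
  rw [one_pow, mul_one]
  have a1 : (t.E ^ ((s + K + 2) * K + s))⁻¹ / ρ t ^ i ≤ (κ ^ K)⁻¹ * (t.E ^ s)⁻¹ := by
    calc _ ≤ (t.E ^ ((s + K + 2) * K + s))⁻¹ / ρ t ^ K := by
          gcongr _ / ?_
          exact pow_le_pow_of_le_one r0.le ((ρκ t).trans κ1) hi
      _ = _ := by simp only [ρ]; rw [mul_pow, inv_pow, ← pow_mul, pow_add]; field_simp
  have a2 : C1 * (1 * t.E) * t.E ^ (K + 1) * ρ t ^ (K + 1 - i) ≤ C1 * (t.E ^ s)⁻¹ := by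
    calc _ ≤ C1 * (1 * t.E) * t.E ^ (K + 1) * (t.E ^ (s + K + 2))⁻¹ := by
          gcongr
          exact (pow_le_of_le_one r0.le ((ρκ t).trans κ1) (by omega)).trans
            (mul_le_of_le_one_left (by positivity) κ1)
      _ = _ := by field_simp; ring
  exact (mul_le_mul_of_nonneg_left (add_le_add a1 a2) C0.le).trans_eq (by ring)

/-- FML -/
theorem fml : ∃ C : ℝ, 0 < C ∧
    ∀ t : Fe Q X V V' c A r ((s + 3 * K + 1 + K + 2) * K + (s + 3 * K + 1)), ∀ i ≤ K,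
    ‖iteratedFDeriv ℝ i (fun z => (t.D z).prod t.ψ (nrm t.ψ t.Θ (t.γ z)) - (0, 1)) t.q‖ ≤
      C * (t.E ^ s)⁻¹ := by
  set T := Fe Q X V V' c A r ((s + 3 * K + 1 + K + 2) * K + (s + 3 * K + 1))
  have g1 := (Fd.gbi (Q := Q) (X := X) (V := V) K c A).reindex fun t : T => t.toFd
  have g0 := (Fd.gb (Q := Q) (X := X) (V := V) K c A).reindex fun t : T => t.toFd
  have g2 := (g1.fsmul ((small (Q := Q) (X := X) (V := V) (V' := V') K (s + 3 * K + 1) c A hr).mono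
    le_rfl (fun _ => le_rfl) fun t => one_le_pow₀ t.one)).clm (ContinuousLinearMap.inl ℝ V' ℝ)
  obtain ⟨C, C0, hC⟩ := (g2.congr (f' := fun t z =>
      (t.D z).prod t.ψ (nrm t.ψ t.Θ (t.γ z)) - (0, 1)) fun t => by
    have h1 : ContinuousAt (fun z => t.ψ (t.Θ (t.γ z))) t.q :=
      t.ψ.continuous.continuousAt.comp (g0.sm t).continuousAt
    filter_upwards [h1.eventually_ne t.ne] with z hz
    simp [nrm, inv_mul_cancel₀ hz]).bd
  refine ⟨C, C0, fun t i hi => (hC t i hi).trans ?_⟩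
  have e1 := t.one
  rw [mul_assoc, mul_right_comm, ← pow_mul, ← pow_succ']
  gcongr
  exact pw_le e1 (by omega)

end Fe

lemma exp_pw (a : ℝ) (j k : ℕ) : exp (a * (k + 1) * j) = exp (a * j) ^ (k + 1) := by
  rw [← exp_nat_mul]; congr 1; push_cast; ring

lemma fl_of {a c0 x : ℝ} (h : exp (-a) ≤ c0 * x) : 1 ≤ c0 * exp a * x := by
  have := mul_le_mul_of_nonneg_left h (exp_pos a).le
  rw [← exp_add, add_neg_cancel, exp_zero] at this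
  linarith

/-- the field `crude` -/
theorem crude_jets {a : ℝ} (ha : 0 ≤ a) (k : ℕ) (c : ℕ → ℝ) (A : ℝ) : ∃ C : ℝ, 0 < C ∧
    ∀ (j : ℕ) (q : Q) (γ : Q → X) (Θ : X → V) (ψ : V →L[ℝ] ℝ), UJ c γ q →
      ContDiffAt ℝ ∞ Θ (γ q) →
      (∀ i, ‖iteratedFDeriv ℝ i Θ (γ q)‖ ≤ c i * exp (a * (i + 1) * j)) →
      exp (-(a * j)) ≤ c 0 * ‖Θ (γ q)‖ → ‖ψ‖ ≤ 1 → ψ (Θ (γ q)) ≠ 0 → ‖nrm ψ Θ (γ q)‖ ≤ A →
      ∀ i ≤ k, ‖iteratedFDeriv ℝ i (fun z => nrm ψ Θ (γ z)) q‖ ≤ C * exp (3 * a * (i + 1) * j) := by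
  obtain ⟨C, C0, hC⟩ := Fd.crude (Q := Q) (X := X) (V := V) k c A
  refine ⟨C, C0, fun j q γ Θ ψ h1 h2 h3 h4 h5 h6 h7 i hi => ?_⟩
  refine (hC ⟨exp (a * j), q, γ, Θ, ψ, one_le_exp (by positivity), h1, h2,
    fun k => exp_pw a j k ▸ h3 k, fl_of h4, h5, h6, h7⟩ i hi).trans_eq ?_
  rw [← exp_nat_mul]; congr 2; push_cast; ring

/-- the field `fml` -/
theorem fml_jets [CompleteSpace V'] {a : ℝ} (ha : 1 ≤ a) (K : ℕ) (τ : ℝ) : ∃ K' : ℕ,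
    ∀ (c : ℕ → ℝ) (A r : ℝ), 0 < r → ∃ C : ℝ, 0 < C ∧
    ∀ (j : ℕ) (q : Q) (γ : Q → X) (D : Q → V →L[ℝ] V') (Θ : X → V) (ψ : V →L[ℝ] ℝ),
      (∀ z ∈ ball q r, UJ c γ z ∧ UJ c D z) →
      (∀ y ∈ ball (γ q) (exp (-(a * j))), ContDiffAt ℝ ∞ Θ y ∧
        ∀ i, ‖iteratedFDeriv ℝ i Θ y‖ ≤ c i * exp (a * (i + 1) * j)) →
      (∀ z ∈ ball q r, γ z ∈ ball (γ q) (exp (-(a * j))) →
        ‖D z (Θ (γ z))‖ ≤ exp (-(K' * j))) →
      exp (-(a * j)) ≤ c 0 * ‖Θ (γ q)‖ → ‖ψ‖ ≤ 1 → ψ (Θ (γ q)) ≠ 0 → ‖nrm ψ Θ (γ q)‖ ≤ A →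
      ∀ i ≤ K, ‖iteratedFDeriv ℝ i (fun z => (D z).prod ψ (nrm ψ Θ (γ z)) - (0, 1)) q‖ ≤
        C * exp (-(τ * j)) := by
  set s := ⌈τ⌉₊
  set b := (s + 3 * K + 1 + K + 2) * K + (s + 3 * K + 1) with hb
  refine ⟨⌈a⌉₊ * b, fun c A r hr => ?_⟩
  obtain ⟨C, C0, hC⟩ := Fe.fml (Q := Q) (X := X) (V := V) (V' := V') K s c A hr
  refine ⟨C, C0, fun j q γ D Θ ψ h1 h2 h3 h4 h5 h6 h7 i hi => ?_⟩
  have p0 : γ q ∈ ball (γ q) (exp (-(a * j))) := mem_ball_self (exp_pos _)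
  have j0 : (0 : ℝ) ≤ j := j.cast_nonneg
  refine (hC ⟨⟨exp (a * j), q, γ, Θ, ψ, one_le_exp (by positivity), (h1 q (mem_ball_self hr)).1,
    (h2 _ p0).1, fun k => exp_pw a j k ▸ (h2 _ p0).2 k, fl_of h4, h5, h6, h7⟩, D,
    fun z hz => (h1 z hz).1, fun z hz => (h1 z hz).2, fun y hy => (h2 y (by rwa [exp_neg])).1,
    fun y hy k => exp_pw a j k ▸ (h2 y (by rwa [exp_neg])).2 k,
    fun z hz hy => (h3 z hz (by rwa [exp_neg])).trans ?_⟩ i hi).trans ?_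
  · rw [← exp_nat_mul, ← exp_neg, exp_le_exp, neg_le_neg_iff, ← hb]
    push_cast
    have := mul_le_mul_of_nonneg_right (Nat.le_ceil a) (show (0 : ℝ) ≤ b * j by positivity)
    linarith
  · gcongr
    rw [← exp_nat_mul, ← exp_neg, exp_le_exp, neg_le_neg_iff]
    have h8 := mul_le_mul_of_nonneg_right (Nat.le_ceil τ) j0
    have h9 := mul_le_mul_of_nonneg_right ha (show (0 : ℝ) ≤ s * j by positivity)
    show τ * j ≤ s * (a * j)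
    linarith

namespace LB

variable {E Xs Ys : Type} [NormedAddCommGroup E] [NormedSpace ℝ E] {B : LB E V V' Xs Ys}

lemma Ok.jets (h : B.Ok) (c : ℕ → ℝ) : ∃ c' : ℕ → ℝ, (∀ k, c k ≤ c' k) ∧
    ∀ q ∈ ball (0 : E) B.R, (∀ x, UJ c' (B.gs x) q) ∧
      ∀ y, UJ c' (fun t => (t, B.u y t)) q ∧ UJ c' (fun t => B.io (t, B.u y t)) q := by
  have h1 := (Ex.UB.id (M := B.R) h.ubs.op fun _ _ hx => (mem_ball_zero_iff.1 hx).le).prod h.ubs
  have h2 := (Ex.UB.id (M := B.R) h.ubu.op fun _ _ hx => (mem_ball_zero_iff.1 hx).le).prod h.ubu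
  obtain ⟨c1, -, b1⟩ := h1.bds
  obtain ⟨c2, -, b2⟩ := h2.bds
  obtain ⟨c3, -, b3⟩ := h.ubi.bds
  exact ⟨fun k => max (max (c k) (c1 k)) (max (c2 k) (c3 k)),
    fun k => (le_max_left _ _).trans (le_max_left _ _), fun q hq =>
    ⟨fun x => ⟨h1.at hq, fun k => (b1 k x q hq).trans ((le_max_right _ _).trans (le_max_left _ _))⟩,
    fun y => ⟨⟨h2.at hq, fun k => (b2 k y q hq).trans ((le_max_left _ _).trans (le_max_right _ _))⟩,
      h.ubi.at hq, fun k => (b3 k y q hq).trans ((le_max_right _ _).trans (le_max_right _ _))⟩⟩⟩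

lemma So.floor {c : ℕ → ℝ} {a K : ℝ} {j : ℕ} {x : Xs} {Θ : E × E → V} {l : E → V →L[ℝ] ℝ} {q : E}
    (h : B.So c a K j x Θ l q) : exp (-(a * j)) ≤ c 0 * ‖Θ (B.gs x q)‖ := by
  have h1 := h.dl 0
  have h2 := (l q).le_opNorm (Θ (B.gs x q))
  rw [norm_iteratedFDeriv_zero] at h1
  rw [h.one, norm_one] at h2
  rw [exp_neg, inv_le_iff_one_le_mul₀ (exp_pos _)]
  exact h2.trans ((mul_le_mul_of_nonneg_right h1 (norm_nonneg _)).trans_eq (by ring))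

lemma Ok.ball_sub (h : B.Ok) {x : Xs} {q : E} (hq : ‖B.gs x q‖ < B.r) :
    ball q B.r ⊆ ball 0 B.R := fun z hz => by
  have h1 : ‖q‖ ≤ ‖B.gs x q‖ := norm_fst_le (B.gs x q)
  have := norm_le_norm_add_norm_sub' z q
  rw [mem_ball_iff_norm] at hz
  rw [mem_ball_zero_iff]
  linarith [h.rp, h.rR]

/-- the field `crude` of `Good`, `Λ = 3 a (k + 2)` -/
theorem Ok.crudeF (h : B.Ok) {a : ℝ} (ha : 0 ≤ a) (k : ℕ) (c : ℕ → ℝ) (A0 : ℝ) : ∃ C : ℝ, 0 < C ∧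
    ∀ (K : ℝ) (j : ℕ) (ψ : V →L[ℝ] ℝ) x Θ l q, ‖ψ‖ ≤ 1 → B.So c a K j x Θ l q → q ∈ B.O ψ Θ x →
      ‖B.gs x q‖ < B.r → ‖nrm ψ Θ (B.gs x q)‖ ≤ A0 →
      ‖iteratedFDeriv ℝ (k + 1) (fun t => nrm ψ Θ (B.gs x t)) q‖ ≤ C * exp (3 * a * (k + 2) * j) := by
  obtain ⟨c', hc, hj⟩ := h.jets c
  obtain ⟨C, C0, hC⟩ := crude_jets (Q := E) (X := E × E) (V := V) ha (k + 1) c' A0
  refine ⟨C, C0, fun K j ψ x Θ l q hψ hs hq hr hA => ?_⟩
  have h1 := hs.cr _ (mem_ball_self (exp_pos _))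
  refine (hC j q _ Θ ψ ((hj q (h.ball_sub hr (mem_ball_self h.rp))).1 x) h1.1
    (fun i => (h1.2.2 i).trans (by gcongr; exact hc i))
    (hs.floor.trans (by gcongr; exact hc 0)) hψ hq hA _ le_rfl).trans_eq ?_
  congr 2; push_cast; ring

/-- the field `fml` of `Good` (take `τ = χ * (K + 1)`) -/
theorem Ok.fmlF [CompleteSpace V'] (h : B.Ok) {a : ℝ} (ha : 1 ≤ a) (K : ℕ) (τ : ℝ) : ∃ K' : ℝ,
    ∀ (c : ℕ → ℝ) (A0 : ℝ), ∃ C : ℝ, 0 < C ∧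
    ∀ (j : ℕ) (ψ : V →L[ℝ] ℝ) x Θ l q, ‖ψ‖ ≤ 1 → B.So c a K' j x Θ l q → q ∈ B.O ψ Θ x →
      ‖B.gs x q‖ < B.r → ‖nrm ψ Θ (B.gs x q)‖ ≤ A0 →
      (B.bx ψ).Fml x (nrm ψ Θ) q K (C * exp (-(τ * j))) := by
  obtain ⟨K', hK⟩ := fml_jets (Q := E) (X := E × E) (V := V) (V' := V') ha K τ
  refine ⟨K', fun c A0 => ?_⟩
  obtain ⟨c', hc, hj⟩ := h.jets c
  obtain ⟨C, C0, hC⟩ := hK c' A0 B.r h.rp
  refine ⟨(K + 1) * C, by positivity, fun j ψ x Θ l q hψ hs hq hr hA => ?_⟩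
  rw [mul_assoc]
  refine L.Box.Fml.of_jets fun y hy => ?_
  have e : (q, B.u y q) = B.gs x q := Prod.ext rfl hy
  exact hC j q (fun t => (t, B.u y t)) (fun t => B.io (t, B.u y t)) Θ ψ
    (fun z hz => (hj z (h.ball_sub hr hz)).2 y)
    (fun w hw => ⟨(hs.cr w (e ▸ hw)).1, fun i => ((hs.cr w (e ▸ hw)).2.2 i).trans
      (by gcongr; exact hc i)⟩)
    (fun z _ hw => by simpa using (hs.cr _ (e ▸ hw)).2.1)
    (by simp only [e]; exact hs.floor.trans (by gcongr; exact hc 0)) hψ (by simp only [e]; exact hq)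
    (by simp only [e]; exact hA)

end LB

end Crest.Agent.N221.G0
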