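import Crest.Agent.N221.Ex.Defs

/-!
Row 221, block G0, part HF (helper47): FORMAL TRANSVERSE EXTENSION of the relation bundle.

One chart `E × U` of points `p = (y, u)`, the stable leaf `S` is `u = 0` over the open set `O`
(instance: `y = q`, `u = p - s q`).  `M : E × U → F` is the rough section, `hol p` the point of `S`
on the unstable leaf of `p`.  `v : E → ι → ℝ` is the rough jet vector on `S`, graded by `deg`.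
-/

set_option autoImplicit false

open Set Metric
open scoped ContDiff

namespace Crest.Agent.N221.HF

open Ex

variable {E U F ι : Type} [NormedAddCommGroup E] [NormedSpace ℝ E] [NormedAddCommGroup U]
  [NormedSpace ℝ U] [NormedAddCommGroup F] [NormedSpace ℝ F] [Fintype ι]

/-- smooth span on `O` of the coordinates of `v` of degree `≤ d` -/
def Sp (O : Set E) (v : E → ι → ℝ) (deg : ι → ℕ) (d : ℕ) (φ : E → ℝ) : Prop :=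
  ∃ c : ι → E → ℝ, (∀ i, ContDiffOn ℝ ∞ (c i) O) ∧ (∀ i, d < deg i → c i = 0) ∧
    ∀ y ∈ O, φ y = ∑ i, c i y * v y i

/-- Taylor expansion of `Φ` along the unstable leaves to order `K` in the transverse variable:
`Φ p = ∑ μ j (p.2) φ j (hol p) + O(‖p.2‖^(K+1))`, `μ j = O(‖u‖^k)` smooth (monomials), `φ j` of
degree `≤ 1` -/
def Exp (O : Set E) (ρ : ℝ) (hol : E × U → E) (v : E → ι → ℝ) (deg : ι → ℕ) (K k : ℕ)
    (Φ : E × U → ℝ) : Prop :=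
  ∃ (J : Type) (_ : Fintype J) (μ : J → U → ℝ) (φ : J → E → ℝ) (C : ℝ),
    (∀ j, ContDiff ℝ ∞ (μ j)) ∧ (∀ j u, ‖u‖ < ρ → |μ j u| ≤ C * ‖u‖ ^ k) ∧
    (∀ j, Sp O v deg 1 (φ j)) ∧
    ∀ p : E × U, p.1 ∈ O → ‖p.2‖ < ρ → hol p ∈ O →
      |Φ p - ∑ j, μ j p.2 * φ j (hol p)| ≤ C * ‖p.2‖ ^ (K + 1)

/-- the jet data on `S` (JETS, helper63) -/
structure Jet (O : Set E) (ρ : ℝ) (hol : E × U → E) (M : E × U → F) (v : E → ι → ℝ)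
    (deg : ι → ℕ) (K : ℕ) : Prop where
  op : IsOpen O
  ne : O.Nonempty
  pos : 0 < ρ
  hol_le : ∃ C, ∀ p : E × U, p.1 ∈ O → ‖p.2‖ < ρ → ‖hol p - p.1‖ ≤ C * ‖p.2‖
  bdd : ∃ C, ∀ y ∈ O, ‖v y‖ ≤ C
  mul : ∀ i j, deg i ≤ K + 1 → deg j ≤ 1 → Sp O v deg (deg i + 1) fun y => v y i * v y j
  expM : ∀ l : F →L[ℝ] ℝ, Exp O ρ hol v deg K 0 fun p => l (M p)
  expf : ∀ f : E → ℝ, ContDiff ℝ ∞ f → Exp O ρ hol v deg K 1 fun p => f p.1 - f (hol p)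

/-- quantitative independence (from NR for `v`, `O` a piece of a leaf of maximal rank): `π y` has
range the smooth hull of `v` -/
structure Ind {V W : Type} [NormedAddCommGroup V] [NormedSpace ℝ V] [NormedAddCommGroup W]
    [NormedSpace ℝ W] (O : Set E) (v : E → V) (π : E → W →L[ℝ] V) : Prop where
  sm : ContDiffOn ℝ ∞ π O
  mem : ∀ y ∈ O, ∃ x, π y x = v y
  est : ∀ ρ > 0, ∀ L : ℕ, ∃ (N : ℕ) (C : ℝ), ∀ q, ball q ρ ⊆ O → ∀ (G : E → V →L[ℝ] ℝ) (s B t : ℝ),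
    ContDiffOn ℝ ∞ G (ball q ρ) → (∀ y ∈ ball q ρ, |G y (v y)| ≤ s) →
    (∀ k ≤ N, ∀ y ∈ ball q ρ, ‖iteratedFDeriv ℝ k G y‖ ≤ B) → 0 < t → t ≤ 1 →
    ‖(G q).comp (π q)‖ ≤ C * (s / t + t ^ L * B)

/-- good leaves `u = h i y` with relations `lam i` of rank `r` and floor `b i` -/
structure Good {I : Type} (O : Set E) (hol : E × U → E) (M : E × U → F) (r : ℕ) (θ : ℝ) (A : ℕ)
    (h : I → E → U) (lam : I → E → F →L[ℝ] (Fin r → ℝ)) (b : I → ℝ) : Prop where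
  pos : ∀ i, 0 < b i
  ubh : UB (fun _ : I => O) h
  ubl : UB (fun _ : I => O) fun i y => b i • lam i y
  rel : ∀ i, ∀ y ∈ O, lam i y (M (y, h i y)) = 0
  inv : ∃ C, ∀ i, ∀ y ∈ O, ∃ σ : (Fin r → ℝ) →L[ℝ] F,
    (∀ x, lam i y (σ x) = x) ∧ b i * ‖σ‖ ≤ C
  den : ∃ C ε0, 0 < ε0 ∧ ∀ p : E × U, p.1 ∈ O → ‖p.2‖ < ε0 → ∀ δ, 0 < δ → δ < ε0 → ∃ i,
    δ ^ A ≤ C * b i ∧ ‖h i p.1 - p.2‖ ≤ δ ∧ ∀ y ∈ O, ‖h i y‖ ≤ C * (‖p.2‖ + δ) ^ θ ∧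
      ∃ y', ‖y' - y‖ ≤ C * (‖p.2‖ + δ) ^ θ ∧ hol (y', h i y') = y

/-- maximality of the rank `r` on `S` -/
def Max (O : Set E) (M : E × U → F) (r : ℕ) : Prop :=
  ∀ (O' : Set E) (k : ℕ) (lam : E → F →L[ℝ] (Fin k → ℝ)), IsOpen O' → O'.Nonempty → O' ⊆ O →
    ContDiffOn ℝ ∞ lam O' → (∀ y ∈ O', Function.Surjective (lam y)) →
    (∀ y ∈ O', lam y (M (y, 0)) = 0) → k ≤ r

/-- the output: a smooth frame of `r` covectors on a tube round a piece of `S`, normalised by a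
constant right inverse `io`, killing `M` to order `K2` -/
structure Out (O : Set E) (ρ : ℝ) (M : E × U → F) (r K2 : ℕ) (y0 : E) (ρ' : ℝ)
    (io : (Fin r → ℝ) →L[ℝ] F) (lh : E × U → F →L[ℝ] (Fin r → ℝ)) : Prop where
  pos : 0 < ρ'
  le : ρ' ≤ ρ
  sub : ball y0 ρ' ⊆ O
  ub : UB (fun _ : Unit => ball ((y0, 0) : E × U) ρ') fun _ => lh
  nor : ∀ p ∈ ball ((y0, 0) : E × U) ρ', ∀ x, lh p (io x) = x
  small : ∃ C, ∀ p ∈ ball ((y0, 0) : E × U) ρ', ‖lh p (M p)‖ ≤ C * ‖p.2‖ ^ K2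

/-- H' -/
def HFS : Prop := ∀ (θ : ℝ) (A K2 : ℕ), 0 < θ → ∃ K : ℕ,
  ∀ (E U F W ι I : Type) [NormedAddCommGroup E] [NormedSpace ℝ E] [FiniteDimensional ℝ E]
    [NormedAddCommGroup U] [NormedSpace ℝ U] [FiniteDimensional ℝ U] [NormedAddCommGroup F]
    [NormedSpace ℝ F] [FiniteDimensional ℝ F] [NormedAddCommGroup W] [NormedSpace ℝ W]
    [FiniteDimensional ℝ W] [Fintype ι]
    (O : Set E) (ρ : ℝ) (hol : E × U → E) (M : E × U → F) (v : E → ι → ℝ) (deg : ι → ℕ)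
    (π : E → W →L[ℝ] (ι → ℝ)) (r : ℕ) (h : I → E → U) (lam : I → E → F →L[ℝ] (Fin r → ℝ))
    (b : I → ℝ), Jet O ρ hol M v deg K → Ind O v π → Good O hol M r θ A h lam b → Max O M r →
    ∃ y0 ρ' io lh, Out O ρ M r K2 y0 ρ' io lh

/-- smooth left inverse.  Proof: `L` linear with `L ∘ T x0 = id`, `κ x = Ring.inverse (L ∘ T x) ∘ L`
(`contDiffAt_ringInverse`, units are open). -/
def LeftS : Prop := ∀ (X V W : Type) [NormedAddCommGroup X] [NormedSpace ℝ X]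
  [NormedAddCommGroup V] [NormedSpace ℝ V] [FiniteDimensional ℝ V] [NormedAddCommGroup W]
  [NormedSpace ℝ W] [FiniteDimensional ℝ W] (T : X → V →L[ℝ] W) (O : Set X) (x0 : X), IsOpen O →
  x0 ∈ O → ContDiffOn ℝ ∞ T O → Function.Injective (T x0) →
  ∃ (ρ C : ℝ) (κ : X → W →L[ℝ] V), 0 < ρ ∧ ball x0 ρ ⊆ O ∧ ContDiffOn ℝ ∞ κ (ball x0 ρ) ∧
    ∀ x ∈ ball x0 ρ, (∀ g, κ x (T x g) = g) ∧ ‖κ x‖ ≤ C

/-- flag basis.  Proof: `Finset.induction_on_max_value deg`; the new vector is either independent of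
the chosen ones at some point (shrink, `isOpen_setOf_linearIndependent`) or in their span
everywhere (shrink, `LeftS`). -/
def FlagS : Prop := ∀ (E W ι : Type) [NormedAddCommGroup E] [NormedSpace ℝ E]
  [NormedAddCommGroup W] [NormedSpace ℝ W] [FiniteDimensional ℝ W] [Fintype ι] (f : ι → E → W)
  (deg : ι → ℕ) (O : Set E), IsOpen O → O.Nonempty → (∀ i, ContDiffOn ℝ ∞ (f i) O) →
  ∃ (O' : Set E) (A : Finset ι), IsOpen O' ∧ O'.Nonempty ∧ O' ⊆ O ∧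
    (∀ y ∈ O', LinearIndependent ℝ fun a : A => f a y) ∧
    ∀ i, ∃ c : ι → E → ℝ, (∀ a, ContDiffOn ℝ ∞ (c a) O') ∧ (∀ a, a ∉ A ∨ deg i < deg a → c a = 0) ∧
      ∀ y ∈ O', f i y = ∑ a, c a y • f a y

/-- formal representation of `M` with rough coefficients read on `S` -/
def RepS : Prop := ∀ (E U F ι : Type) [NormedAddCommGroup E] [NormedSpace ℝ E]
  [FiniteDimensional ℝ E] [NormedAddCommGroup U] [NormedSpace ℝ U] [NormedAddCommGroup F]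
  [NormedSpace ℝ F] [FiniteDimensional ℝ F] [Fintype ι] (O O1 : Set E) (ρ : ℝ) (hol : E × U → E)
  (M : E × U → F) (v : E → ι → ℝ) (deg : ι → ℕ) (K : ℕ) (A : Finset ι) (y1 : E) (ρ1 : ℝ),
  Jet O ρ hol M v deg K → IsOpen O1 → O1 ⊆ O → 0 < ρ1 → closedBall y1 (2 * ρ1) ⊆ O1 →
  (∀ i, ∃ c : ι → E → ℝ, (∀ a, ContDiffOn ℝ ∞ (c a) O1) ∧ (∀ a, a ∉ A ∨ deg i < deg a → c a = 0) ∧
    ∀ y ∈ O1, v y i = ∑ a, c a y * v y a) →
  ∃ (w : ι → E × U → F) (C : ℝ), (∀ a, ContDiff ℝ ∞ (w a)) ∧ (∀ a ∉ A, w a = 0) ∧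
    ∀ p : E × U, p.1 ∈ ball y1 ρ1 → ‖p.2‖ < ρ → hol p ∈ ball y1 ρ1 →
      ‖M p - ∑ a, v (hol p) a • w a p‖ ≤ C * ‖p.2‖ ^ (K + 1)

/-- independence survives a rough shift.  Proof: `X_j` = bound of `G` on the ball of radius
`ρ1 (1/2 - j / (4 (J+1)))`, `X_0 = B`; `int_one` at scale `τ` bounds `‖G y' - G y‖` by
`C (τ^2 X_j + τ^(N+2) B)`, the hypothesis with `t = τ`, `L = J` gives
`X_{j+1} ≤ C (s / τ + τ X_j + τ^J B)`. -/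
def ShiftS : Prop := ∀ (E V : Type) [NormedAddCommGroup E] [NormedSpace ℝ E]
  [NormedAddCommGroup V] [NormedSpace ℝ V] [CompleteSpace V] (β : E → V →L[ℝ] ℝ) (y1 : E)
  (ρ1 C0 : ℝ) (J : ℕ), 0 < ρ1 → (∀ y ∈ ball y1 ρ1, ‖β y‖ ≤ C0) →
  (∀ ρ > 0, ∀ L : ℕ, ∃ (N : ℕ) (C : ℝ), ∀ q, ball q ρ ⊆ ball y1 ρ1 → ∀ (G : E → V) (s B t : ℝ),
    ContDiffOn ℝ ∞ G (ball q ρ) → (∀ y ∈ ball q ρ, |β y (G y)| ≤ s) →
    (∀ k ≤ N, ∀ y ∈ ball q ρ, ‖iteratedFDeriv ℝ k G y‖ ≤ B) → 0 < t → t ≤ 1 →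
    ‖G q‖ ≤ C * (s / t + t ^ L * B)) →
  ∃ (N : ℕ) (C τ0 : ℝ), 0 < τ0 ∧ 0 ≤ C ∧ ∀ (G : E → V) (s B τ : ℝ), 0 < τ → τ < τ0 →
    ContDiffOn ℝ ∞ G (ball y1 ρ1) → (∀ k ≤ N, ∀ y ∈ ball y1 ρ1, ‖iteratedFDeriv ℝ k G y‖ ≤ B) →
    (∀ y ∈ ball y1 (ρ1 / 2), ∃ y', ‖y' - y‖ ≤ τ ^ 3 ∧ |β y (G y')| ≤ s) →
    ∀ q ∈ ball y1 (ρ1 / 4), ‖G q‖ ≤ C * (s / τ + τ ^ J * B)

end Crest.Agent.N221.HF
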