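import Crest.Agent.N221.G0.Im2

/-! Row 221, block G0, instance (helper39): a smooth maximal bundle of relations is a `Flag`. -/

set_option autoImplicit false
set_option linter.unusedSectionVars false
set_option linter.unusedVariables false

open MeasureTheory Set Filter Topology Metric
open scoped ContDiff RealInnerProductSpace ENNReal
open Crest.GeometryTopology.Submanifold
open Crest.Agent.R241.DDefs Crest.Agent.R241.D2
open Crest.Agent.R208.J Crest.Agent.R208.L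

noncomputable section

namespace Crest.Agent.N221.Cov

variable {n N m r : ℕ} {a : ℝ} {S : Set (Euc N)} {G : Geo n N (-(a ^ 2)) S} (C : Cov G)
variable {f f' : FF n N m} {z : ZZ m} {g : Euc n → Euc n} {h c : ℝ} {α : TT N → ℝ}
  {O : Set (ZZ m)} {δ : ZZ m → WW m →L[ℝ] Euc r}

/-- `δ` is a maximal bundle of relations on `O` in the chart `f` -/
structure MaxR (α : TT N → ℝ) (c : ℝ) (f : FF n N m) (O : Set (ZZ m))
    (δ : ZZ m → WW m →L[ℝ] Euc r) : Prop where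
  op : IsOpen O
  sub : O ⊆ ball 0 (C.rr m)
  sm : ContDiffOn ℝ ∞ δ O
  rel : ∀ z ∈ O, δ z (C.MM α c f z) = 0
  max : ∀ z ∈ O, ∀ θ : Euc m → WW m →L[ℝ] ℝ, (∀ᶠ y in 𝓝 z.1, ContDiffAt ℝ ∞ θ y ∧
    θ y (C.MM α c f (C.gs f (C.ge f z).1 y)) = 0) → ∀ v, δ z v = 0 → θ z.1 v = 0

variable (H : Hyp n N a S) (hm : m + 1 = n)
include H hm

lemma ev_le (hz : ‖z‖ < C.rr m) : ∀ᶠ y in 𝓝 z.1, ‖y‖ < 2 * C.rr m :=
  (isOpen_lt continuous_norm continuous_const).mem_nhds
    ((norm_fst_le z).trans_lt (by linarith [C.rr_pos H hm]))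

lemma MaxR.deck (hM : C.MaxR α c f O δ) (hf : C.Frm f) (hg : C.Deck g) :
    C.MaxR α c (fg g f) O δ := by
  have r0 := C.rr_pos H hm
  have k : ∀ z ∈ O, ‖z‖ ≤ 2 * C.rr m := fun z hz => by linarith [mem_ball_zero_iff.1 (hM.sub hz)]
  refine ⟨hM.op, hM.sub, hM.sm, fun z hz => ?_, fun z hz θ hθ => hM.max z hz θ ?_⟩
  · rw [C.MM_fg H hf hg (C.Dm_of_le H hm hf (k z hz))]
    exact hM.rel z hz
  · have hξ := (C.rad H hm).front f hf z (k z hz)
    rw [C.ge_fg H hf hg (C.Dm_of_le H hm hf (k z hz)), C.gs_fg H hf hg (bas_ne0 hξ.1)] at hθ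
    filter_upwards [hθ, C.ev_le H hm (mem_ball_zero_iff.1 (hM.sub hz))] with y h1 h2
    rwa [C.MM_fg H hf hg (C.ge_gs H hm hf hξ h2.le).1] at h1

lemma MaxR.push (hc : Co G h α c) (hM : C.MaxR α c f O δ) (hM' : C.MaxR α c f' O δ) (hf : C.Frm f)
    (hf' : C.Frm f') (hz : z ∈ C.dm f f') (h1 : z ∈ O) (h2 : C.Tf f f' z ∈ O) {v : WW m}
    (hv : δ z v = 0) : δ (C.Tf f f' z) (C.Bc h f' f (C.Tf f f' z) v) = 0 := by
  have r0 := C.rr_pos H hm
  have hD := C.Dm_of_le H hm hf (z := z) (by linarith [hz.1])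
  have e := C.eq_gs H hf hD
  have s : ContDiff ℝ ∞ (C.gs f (C.ge f z).1) :=
    contDiff_id.prodMk (C.contDiff_pq H (bas_ne0 (C.ge_GG H hf hD).1) f)
  have t : Tendsto (C.gs f (C.ge f z).1) (𝓝 z.1) (𝓝 z) := by
    simpa only [ContinuousAt, e] using s.continuous.continuousAt (x := z.1)
  obtain ⟨b, d, -, -, k⟩ := C.am_all H hm hc (C.dd f.1 f'.1)
  ext i
  have := hM.max z h1 (fun y => EuclideanSpace.proj i ∘L δ (C.Tf f f' (C.gs f (C.ge f z).1 y)) ∘L
    C.Bc h f' f (C.Tf f f' (C.gs f (C.ge f z).1 y))) ?_ v hv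
  · simpa [e] using this
  filter_upwards [t.eventually ((C.isOpen_dm H hm hf hf').mem_nhds hz), t.eventually
    ((C.contDiffAt_Tf H hm hf hf' hz).continuousAt.eventually (hM.op.mem_nhds h2))] with y y1 y2
  obtain ⟨k1, k2, -, -, -, -, k3⟩ := k f f' _ hf hf' le_rfl y1
  refine ⟨contDiffAt_const.clm_comp ((((hM.sm.contDiffAt (hM.op.mem_nhds y2)).comp _ k1.1).comp y
    s.contDiffAt).clm_comp (k2.1.comp y s.contDiffAt)), ?_⟩
  simp [k3, hM'.rel _ y2]

theorem MaxR.flag (hc : Co G h α c) (hM : C.MaxR α c f O δ) (hf : C.Frm f) (hO : O.Nonempty) :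
    (C.pd f).Flag := by
  have r0 := C.rr_pos H hm
  refine ⟨O, r, δ, hM.op, hO, hM.sub, hM.sm, fun z hz => ?_, fun z hz => ?_, ?_⟩
  · refine ⟨dfm (C.Su f z), Real.exp (C.aa α c f (C.ge f z).2 z.1), fun v => rfl, ?_⟩
    have := congrArg (Real.exp (C.aa α c f (C.ge f z).2 z.1) • ·) (hM.rel z hz)
    simpa [← map_smul, MM_eq, smul_smul, ← Real.exp_add] using this
  · have z1 := mem_ball_zero_iff.1 (hM.sub hz)
    have hξ := (C.rad H hm).front f hf z (by linarith)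
    obtain ⟨d, -, k⟩ := C.uj_lam H hm hc
    refine ⟨(-1) ^ m * Real.exp (-C.aa α c f (C.ge f z).1 z.1), by positivity, fun φ t hv => ?_⟩
    have := hM.max z hz (C.lam α c f (C.ge f z).1) ((C.ev_le H hm z1).mono fun y hy =>
      ⟨(k f _ y hf hξ hy).1, C.lam_gs H hm hc hf hξ hy.le⟩) _ hv
    rw [lam_apply, sub_eq_zero] at this
    change t = _ * φ (gbas (C.HH f (C.ge f z).1 z.1))
    rw [mul_assoc, this, ← mul_assoc, ← mul_pow]
    simp
  · rintro z hz T ⟨g, hg, h1, h2⟩ h3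
    change z ∈ C.dm f (N221.fg g f) at h1
    change T =ᶠ[𝓝 z] C.Tf f (fg g f) at h2
    rw [h2.eq_of_nhds] at h3 ⊢
    have hf' := hf.fg C hg
    have hM' := hM.deck C H hm hf hg
    obtain ⟨a1, a2, -⟩ := C.Tf_symm H hm hf hf' h1
    have s0 : C.sg f (fg g f) z * Real.exp (h * C.tm f (fg g f) z) ≠ 0 := by
      rcases C.sg_sq H hm hf hf' h1 with e | e <;> rw [e] <;> simp
    refine ⟨_, inv_ne_zero s0, fun φ t => ?_⟩
    have e : (φ.compContinuousLinearMap fun _ => fderiv ℝ T z,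
        (C.sg f (fg g f) z * Real.exp (h * C.tm f (fg g f) z))⁻¹ * t) =
        (C.sg f (fg g f) z * Real.exp (h * C.tm f (fg g f) z))⁻¹ • C.Bc h f (fg g f) z (φ, t) := by
      rw [Bc_apply, h2.fderiv_eq, Prod.smul_mk, smul_smul, inv_mul_cancel₀ s0, one_smul]
      rfl
    rw [e, map_smul, smul_eq_zero_iff_right (inv_ne_zero s0)]
    refine ⟨fun hv => ?_, fun hv => ?_⟩
    · have := hM'.push C H hm hc hM hf' hf a1 h3 (by rwa [a2]) hv
      rwa [a2] at this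
    · have := hM.push C H hm hc hM' hf hf' h1 hz h3 hv
      rwa [C.Bc_Bc' H hm hf hf' h1] at this

end Crest.Agent.N221.Cov
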