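import Mathlib

/-!
Row 221, block G0: THE ABSTRACT SYSTEM (helper91).

Charts `f : F` with values in `E × E`; `g i f z` is the graph function of the leaf through `z`
(`i = false` stable, `i = true` unstable), so LEAVES ARE LABELLED BY POINTS of the box
`ball 0 R0`; the label `0` is the central leaf.  `M f z` is the rough section (smooth along the
unstable graphs).  `St i f z f' z' φ A` is one step of the dynamics that CONTRACTS the `i`-plaque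
of `z` (over `ball 0 R`) into the `i`-plaque of `z'` (`i = true`: backward time); `A` pushes `M`
forward, relations `θ' : W →L ℝ` are pulled back as `θ' (φ w) ∘L A w`.
Radii: `r1 ≪ R ≪ R0`; `r1` = offset of the plaques, `r0` = width of the tubes.
Order of choice in the instance: `R0, b0, th | R | r1 | q`, flight times `| b, c | r0`
(`b0` = geometry of one chart, `b, c` = bounds of the steps).
-/

set_option autoImplicit false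

open Set Metric Filter Topology
open scoped ContDiff

noncomputable section

namespace Crest.Agent.N221.G0

/-- smooth at `x`, all jets bounded by `c` -/
def UJ {X Y : Type} [NormedAddCommGroup X] [NormedSpace ℝ X] [NormedAddCommGroup Y]
    [NormedSpace ℝ Y] (c : ℕ → ℝ) (f : X → Y) (x : X) : Prop :=
  ContDiffAt ℝ ∞ f x ∧ ∀ k, ‖iteratedFDeriv ℝ k f x‖ ≤ c k

/-- data -/
structure Sy (E W : Type) where
  F : Type
  g : Bool → F → E × E → E → E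
  M : F → E × E → W
  R0 : ℝ
  R : ℝ
  r0 : ℝ
  r1 : ℝ
  q : ℝ
  b : ℝ
  b0 : ℝ
  th : ℝ
  c : ℕ → ℝ

namespace Sy

variable {E W : Type} [NormedAddCommGroup E] [NormedSpace ℝ E] [NormedAddCommGroup W]
  [NormedSpace ℝ W] (S : Sy E W)

/-- the point over `y` of the `i`-leaf through `z` -/
def pt (i : Bool) (f : S.F) (z : E × E) (y : E) : E × E := (y, S.g i f z y)

/-- `z` labels a plaque of offset `≤ ρ` -/
def Pq (i : Bool) (f : S.F) (z : E × E) (ρ : ℝ) : Prop := ‖z‖ < S.R0 ∧ ‖S.g i f z 0‖ ≤ ρ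

/-- distance of two plaques -/
def Ds (i : Bool) (f : S.F) (z z' : E × E) (ε : ℝ) : Prop :=
  ∀ y ∈ ball (0 : E) S.R, ‖S.g i f z y - S.g i f z' y‖ ≤ ε

/-- the map of plaques induced by `φ` -/
def lf (i : Bool) (f : S.F) (z : E × E) (φ : E × E → E × E) (y : E) : E := (φ (S.pt i f z y)).1

/-- the ambient part of a step, at one point -/
structure Am (f f' : S.F) (φ : E × E → E × E) (A : E × E → W →L[ℝ] W) (w : E × E) : Prop where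
  mem : ‖w‖ < S.R0
  mem' : ‖φ w‖ < S.R0
  jφ : UJ S.c φ w
  jA : UJ S.c A w
  nA : ‖A w‖ ≤ S.b
  iA : ∀ v, ‖v‖ ≤ S.b * ‖A w v‖
  iφ : ∀ v, ‖v‖ ≤ S.b * ‖fderiv ℝ φ w v‖
  eqv : ∃ t : ℝ, S.b⁻¹ ≤ |t| ∧ |t| ≤ S.b ∧ A w (S.M f w) = t • S.M f' (φ w)

/-- one step -/
structure St (i : Bool) (f : S.F) (z : E × E) (f' : S.F) (z' : E × E) (φ : E × E → E × E)
    (A : E × E → W →L[ℝ] W) : Prop where
  lab : ‖z‖ < S.R0
  lab' : ‖z'‖ < S.R0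
  am : ∀ y ∈ ball (0 : E) S.R, ∀ w ∈ ball (S.pt i f z y) S.r0, S.Am f f' φ A w
  gr : ∀ y ∈ ball (0 : E) S.R, φ (S.pt i f z y) = S.pt i f' z' (S.lf i f z φ y)
  mp : ∀ y ∈ ball (0 : E) S.R, ‖S.lf i f z φ y‖ < S.R
  con : ∀ y ∈ ball (0 : E) S.R, ‖fderiv ℝ (S.lf i f z φ) y‖ ≤ S.q
  jl : ∀ y ∈ ball (0 : E) S.R, UJ S.c (S.lf i f z φ) y

/-- the axioms -/
structure Ok : Prop where
  ne : Nonempty S.F
  r0p : 0 < S.r0
  r1p : 0 < S.r1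
  qp : 0 < S.q
  q6 : S.q ≤ 1 / 6
  b01 : 1 ≤ S.b0
  b0b : S.b0 ≤ S.b
  thp : 0 < S.th
  th1 : S.th ≤ 1
  c1 : ∀ k, 1 ≤ S.c k
  r0R : S.r0 ≤ S.R
  r1R : 12 * S.b0 * S.r1 ≤ S.R
  RR0 : 8 * S.b0 * S.R ≤ S.R0
  R01 : S.R0 ≤ 1
  /-- leaves -/
  g_self : ∀ i f z, ‖z‖ < S.R0 → S.g i f z z.1 = z.2
  g_lab : ∀ i f z y, ‖z‖ < S.R0 → ‖S.pt i f z y‖ < S.R0 → S.g i f (S.pt i f z y) = S.g i f z
  g_jet : ∀ i f z, ‖z‖ < S.R0 → ∀ y ∈ ball (0 : E) S.R0, UJ S.c (S.g i f z) y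
  g_slope : ∀ i f z, ‖z‖ < S.R0 → ∀ y ∈ ball (0 : E) S.R0, ‖fderiv ℝ (S.g i f z) y‖ ≤ S.b0
  /-- `M` is smooth along the unstable graphs -/
  M_jet : ∀ f z, ‖z‖ < S.R0 → ∃ ν : E → W, ∀ y ∈ ball (0 : E) S.R0, UJ S.c ν y ∧
    (‖S.pt true f z y‖ < S.R0 → S.M f (S.pt true f z y) = ν y)
  /-- transversality -/
  trv : ∀ f z z', ‖z‖ < S.R0 → ‖z'‖ < S.R0 → ∀ y ∈ ball (0 : E) S.R0, ∀ v,
    ‖v‖ ≤ S.b0 * ‖fderiv ℝ (S.g true f z') y v - fderiv ℝ (S.g false f z) y v‖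
  sep : ∀ f z z', ‖z‖ < S.R0 → ‖z'‖ < S.R0 → ∀ y ∈ ball (0 : E) S.R0, ∀ y' ∈ ball (0 : E) S.R0,
    ‖y - y'‖ ≤ S.b0 * ‖(S.g true f z' y - S.g false f z y) - (S.g true f z' y' - S.g false f z y')‖
  /-- crossing -/
  int : ∀ f z z' y, ‖z‖ < S.R0 → ‖z'‖ < S.R0 → ‖y‖ ≤ S.R →
    ‖S.g true f z' y - S.g false f z y‖ ≤ S.r1 → ∃ y', S.g true f z' y' = S.g false f z y' ∧
      ‖y' - y‖ ≤ S.b0 * ‖S.g true f z' y - S.g false f z y‖
  /-- Hölder slopes -/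
  hol : ∀ i f z z', ‖z‖ < S.R0 → ‖z'‖ < S.R0 →
    ‖fderiv ℝ (S.g i f z) z.1 - fderiv ℝ (S.g i f z') z'.1‖ ≤ S.b0 * ‖z - z'‖ ^ S.th
  /-- the next chart along the orbit of a plaque; all plaques of the next chart pull back -/
  fwd : ∀ i f z, S.Pq i f z (S.r1 / 2) → ∃ f' φ A, ∀ z', S.Pq i f' z' S.r1 →
    ∃ z1, S.Pq i f z1 S.r1 ∧ S.St i f z1 f' z' φ A ∧ ‖S.lf i f z1 φ 0‖ ≤ S.R / 6 ∧
      ∀ ε, S.Ds i f' z' 0 ε → S.Ds i f z1 z (S.q * ε)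
  /-- a step from a central plaque into any point -/
  bwd : ∀ i f z0, ‖z0.1‖ ≤ 2 * S.R / 3 → ‖z0.2‖ ≤ S.b0 * S.R → ∃ f' φ A,
    S.St i f' 0 f z0 φ A ∧ φ 0 = z0
  /-- specification: any two charts are joined by one step onto the central leaf -/
  hit : ∀ i f f', ∃ z φ A, S.Pq i f z S.r1 ∧ S.St i f z f' 0 φ A ∧ ‖S.lf i f z φ 0‖ ≤ S.R / 6

/-- OUTPUT: a smooth maximal bundle of relations (rows of `δ`) on an open set of one chart -/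
def Out : Prop := ∃ (f : S.F) (O : Set (E × E)) (r : ℕ)
    (δ : E × E → W →L[ℝ] EuclideanSpace ℝ (Fin r)),
  IsOpen O ∧ O.Nonempty ∧ O ⊆ ball 0 (S.R / 2) ∧ ContDiffOn ℝ ∞ δ O ∧
  (∀ z ∈ O, δ z (S.M f z) = 0) ∧
  ∀ z ∈ O, ∀ θ : E → W →L[ℝ] ℝ,
    (∀ᶠ y in 𝓝 z.1, ContDiffAt ℝ ∞ θ y ∧ θ y (S.M f (S.pt false f z y)) = 0) →
    ∀ v, δ z v = 0 → θ z.1 v = 0

end Sy

/-- ABSTRACT G0 -/
def G0A : Prop := ∀ (m : ℕ) (W : Type) [NormedAddCommGroup W] [NormedSpace ℝ W]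
  [FiniteDimensional ℝ W] (S : Sy (EuclideanSpace ℝ (Fin m)) W), S.Ok → S.Out

end Crest.Agent.N221.G0
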