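import Crest.Agent.N221.Dy.Hol
import Crest.Agent.N221.Ch.Dmb
import Crest.Agent.N221.G0.Sys

/-! Row 221, block G0 (helper94): the static fields of `G0.Sy.Ok` on the charts. -/

set_option autoImplicit false
set_option linter.unusedSectionVars false
set_option linter.unusedVariables false

open MeasureTheory Set Filter Topology Metric
open scoped ContDiff RealInnerProductSpace ENNReal
open Crest.GeometryTopology.Submanifold
open Crest.Agent.R241.DDefs Crest.Agent.R241.D2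
open Crest.Agent.R208.J Crest.Agent.R208.L

noncomputable section

namespace Crest.Agent.N221.Cov

variable {n N m : ℕ} {a : ℝ} {S : Set (Euc N)} {G : Geo n N (-(a ^ 2)) S} (C : Cov G)
variable {f f' f'' : FF n N m} {z z' : ZZ m} {x y y' ξ η : Euc n} {v u u' : Euc N} {q q' : Euc m}
  {g : Euc n → Euc n} {s t : ℝ}

/-- graph function of the `i`-leaf through `z` -/
def gg (i : Bool) (f : FF n N m) (z : ZZ m) : Euc m → Euc m :=
  cond i (fun q => -C.pq f (C.ge f z).2 q) (C.pq f (C.ge f z).1)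

lemma gg_false (f : FF n N m) (z : ZZ m) (q : Euc m) :
    (q, C.gg false f z q) = C.gs f (C.ge f z).1 q := rfl

lemma gg_true (f : FF n N m) (z : ZZ m) (q : Euc m) :
    (q, C.gg true f z q) = C.gu f (C.ge f z).2 q := rfl

/-- the static fields -/
structure GS (m : ℕ) (b0 th : ℝ) (c : ℕ → ℝ) : Prop where
  b01 : 1 ≤ b0
  thp : 0 < th
  th1 : th ≤ 1
  c1 : ∀ k, 1 ≤ c k
  jet : ∀ i (f : FF n N m) z y, C.Frm f → ‖z‖ ≤ 2 * C.rr m → ‖y‖ ≤ 1 → G0.UJ c (C.gg i f z) y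
  slope : ∀ i (f : FF n N m) z y, C.Frm f → ‖z‖ ≤ 2 * C.rr m → ‖y‖ ≤ 1 →
    ‖fderiv ℝ (C.gg i f z) y‖ ≤ b0
  trv : ∀ (f : FF n N m) z z' y v, C.Frm f → ‖z‖ ≤ 2 * C.rr m → ‖z'‖ ≤ 2 * C.rr m →
    ‖y‖ ≤ 2 * C.rr m →
    ‖v‖ ≤ b0 * ‖fderiv ℝ (C.gg true f z') y v - fderiv ℝ (C.gg false f z) y v‖
  sep : ∀ (f : FF n N m) z z' y y', C.Frm f → ‖z‖ ≤ 2 * C.rr m → ‖z'‖ ≤ 2 * C.rr m →
    ‖y‖ ≤ 2 * C.rr m → ‖y'‖ ≤ 2 * C.rr m → ‖y - y'‖ ≤
      b0 * ‖(C.gg true f z' y - C.gg false f z y) - (C.gg true f z' y' - C.gg false f z y')‖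
  int : ∀ (f : FF n N m) z z' y, C.Frm f → ‖z‖ ≤ 2 * C.rr m → ‖z'‖ ≤ 2 * C.rr m → ‖y‖ ≤ C.rr m →
    4 * b0 * ‖C.gg true f z' y - C.gg false f z y‖ ≤ C.rr m →
    ∃ y', C.gg true f z' y' = C.gg false f z y' ∧
      ‖y' - y‖ ≤ b0 * ‖C.gg true f z' y - C.gg false f z y‖
  hol : ∀ i (f : FF n N m) z z', C.Frm f → ‖z‖ ≤ 2 * C.rr m → ‖z'‖ ≤ 2 * C.rr m →
    ‖fderiv ℝ (C.gg i f z) z.1 - fderiv ℝ (C.gg i f z') z'.1‖ ≤ b0 * ‖z - z'‖ ^ th

lemma GS.mono {b b' th : ℝ} {c c' : ℕ → ℝ} (h : C.GS m b th c) (hb : b ≤ b') (hc : ∀ k, c k ≤ c' k) :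
    C.GS m b' th c' where
  b01 := h.b01.trans hb
  thp := h.thp
  th1 := h.th1
  c1 k := (h.c1 k).trans (hc k)
  jet i f z y h1 h2 h3 := ⟨(h.jet i f z y h1 h2 h3).1, fun k =>
    ((h.jet i f z y h1 h2 h3).2 k).trans (hc k)⟩
  slope i f z y h1 h2 h3 := (h.slope i f z y h1 h2 h3).trans hb
  trv f z z' y v h1 h2 h3 h4 := (h.trv f z z' y v h1 h2 h3 h4).trans (by gcongr)
  sep f z z' y y' h1 h2 h3 h4 h5 := (h.sep f z z' y y' h1 h2 h3 h4 h5).trans (by gcongr)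
  int f z z' y h1 h2 h3 h4 h5 := (h.int f z z' y h1 h2 h3 h4 (le_trans (by gcongr) h5)).imp
    fun _ k => ⟨k.1, k.2.trans (by gcongr)⟩
  hol i f z z' h1 h2 h3 := (h.hol i f z z' h1 h2 h3).trans (by gcongr)

lemma gg_fp (i : Bool) (f : FF n N m) (z : ZZ m) (q : Euc m) :
    C.gg i (fp f) (flp z) q = -C.gg (!i) f z q := by
  cases i <;> simp [gg, C.ge_fp, C.pq_fp]

lemma fderiv_gg (f : FF n N m) (z : ZZ m) (q : Euc m) :
    fderiv ℝ (C.gg false f z) q = C.HH f (C.ge f z).1 q ∧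
      fderiv ℝ (C.gg true f z) q = -C.HH f (C.ge f z).2 q := ⟨rfl, fderiv_fun_neg⟩

variable (H : Hyp n N a S) (hm : m + 1 = n)
include H hm

lemma gg_self (i : Bool) (hf : C.Frm f) (hz : ‖z‖ ≤ 2 * C.rr m) : C.gg i f z z.1 = z.2 := by
  cases i
  exacts [(C.pq_ge H hm hf hz).1, neg_eq_iff_eq_neg.2 (C.pq_ge H hm hf hz).2]

/-- the end point of the `i`-leaf is constant along it -/
lemma ge_gg (hf : C.Frm f) (hz : ‖z‖ ≤ 2 * C.rr m) (hq : ‖q‖ ≤ 2 * C.rr m) :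
    (C.ge f (q, C.gg false f z q)).1 = (C.ge f z).1 ∧ (C.ge f (q, C.gg true f z q)).2 = (C.ge f z).2 :=
  ⟨(C.ge_gs H hm hf ((C.rad H hm).front f hf z hz) hq).2.2,
    (C.ge_gu H hm hf (C.back H hm hf hz) hq).2.2⟩

lemma gg_lab (i : Bool) (hf : C.Frm f) (hz : ‖z‖ ≤ 2 * C.rr m) (hq : ‖q‖ ≤ 2 * C.rr m) :
    C.gg i f (q, C.gg i f z q) = C.gg i f z := by
  cases i
  · exact congrArg (C.pq f) (C.ge_gg H hm hf hz hq).1
  · exact congrArg (fun η q => -C.pq f η q) (C.ge_gg H hm hf hz hq).2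

lemma gg_static : ∃ b0 th c, C.GS m b0 th c := by
  obtain ⟨θ, K, θ0, θ1, K0, hK⟩ := C.hol_S H hm
  obtain ⟨L, L0, hL⟩ := C.pq_lip H hm (m := m)
  choose c hc using C.jb_pq H (m := m) 1
  have ha := H.a_pos
  have r0 := C.rr_pos H hm
  have F1 := (C.rad H hm).front
  have F2 := fun (f : FF n N m) (hf : C.Frm f) z (hz : ‖z‖ ≤ 2 * C.rr m) => C.back H hm hf hz
  have ne : ∀ ξ : Euc n, ‖ξ‖ = 1 → ξ ≠ 0 := fun ξ h => by rintro rfl; simp at h
  have b16 : 16 / a ≤ max (max 1 (16 / a)) (max K L) := le_max_of_le_left (le_max_right _ _)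
  have key : ∀ v w : Euc m, ⟪w, v⟫ ≤ -(a / 16 * ‖v‖ ^ 2) →
      ‖v‖ ≤ max (max 1 (16 / a)) (max K L) * ‖-w‖ := fun v w h => by
    refine le_trans ?_ (mul_le_mul_of_nonneg_right b16 (norm_nonneg _))
    rw [div_mul_eq_mul_div, le_div_iff₀ ha, norm_neg]
    rcases (norm_nonneg v).eq_or_lt with h0 | h0
    · rw [← h0, zero_mul]; positivity
    · exact le_of_mul_le_mul_right (by nlinarith [(abs_le.1 (abs_real_inner_le_norm w v)).1]) h0
  refine ⟨max (max 1 (16 / a)) (max K L), θ, fun k => max 1 (c k), le_max_of_le_left (le_max_left _ _),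
    θ0, θ1, fun k => le_max_left _ _, fun i f z y h1 h2 h3 => ?_, fun i f z y h1 h2 h3 => ?_,
    fun f z z' y v h1 h2 h3 h4 => ?_, fun f z z' y y' h1 h2 h3 h4 h5 => ?_,
    fun f z z' y h1 h2 h3 h4 h5 => ?_, fun i f z z' h1 h2 h3 => ?_⟩
  · cases i
    · exact ⟨(C.contDiff_pq H (ne _ (F1 f h1 z h2).1) f).contDiffAt, fun k =>
        le_max_of_le_right (hc k ((f, _), y) ⟨h1, (F1 f h1 z h2).1, h3⟩)⟩
    · refine ⟨(C.contDiff_pq H (ne _ (F2 f h1 z h2).1) f).neg.contDiffAt, fun k => ?_⟩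
      rw [show C.gg true f z = -C.pq f (C.ge f z).2 from rfl, iteratedFDeriv_neg_apply, norm_neg]
      exact le_max_of_le_right (hc k ((f, _), y) ⟨h1, (F2 f h1 z h2).1, h3⟩)
  · refine le_max_of_le_right (le_max_of_le_right ?_)
    cases i
    · exact (hL f _ y y h1 (F1 f h1 z h2).1 h3 h3).1
    · rw [(C.fderiv_gg f z y).2, norm_neg]; exact (hL f _ y y h1 (F2 f h1 z h2).1 h3 h3).1
  · have k1 := (C.rad H hm).neg f h1 _ (F1 f h1 z h2) y h4 v
    have k2 := (C.rad H hm).neg _ h1.fp _ (F2 f h1 z' h3) y h4 v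
    convert key v (C.HH f (C.ge f z).1 y v + C.HH f (C.ge f z').2 y v)
      (by rw [inner_add_left]; rw [C.HH_fp] at k2; linarith) using 3
    rw [(C.fderiv_gg f z y).1, (C.fderiv_gg f z' y).2, neg_apply]; abel
  · convert key _ _ (C.pq_mono2 H hm h1 (F1 f h1 z h2) (F2 f h1 z' h3) h4 h5) using 3
    simp only [gg, cond]; abel
  · have e : ∀ q, C.gg true f z' q - C.gg false f z q =
        -(C.pq f (C.ge f z).1 q + C.pq f (C.ge f z').2 q) := fun q => by simp only [gg, cond]; abel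
    rw [e, norm_neg] at h5 ⊢
    have k0 := mul_le_mul_of_nonneg_right b16
      (norm_nonneg (C.pq f (C.ge f z).1 y + C.pq f (C.ge f z').2 y))
    obtain ⟨q, k1, k2⟩ := exists_zero_mono
      (F := fun q => C.pq f (C.ge f z).1 (y + q) + C.pq f (C.ge f z').2 (y + q))
      (φ := fun q => C.bq f (C.ge f z).1 (y + q) + C.bq f (C.ge f z').2 (y + q)) (r := C.rr m)
      (c := a / 16) r0 (by positivity) (fun q => by
        rw [map_add]
        exact (((C.hasFDerivAt_bq H (ne _ (F1 f h1 z h2).1) f _).add (C.hasFDerivAt_bq H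
          (ne _ (F2 f h1 z' h3).1) f _)).comp q ((hasFDerivAt_id q).const_add y)))
      (fun q hq => by
        simpa using C.pq_mono2 H hm h1 (F1 f h1 z h2) (F2 f h1 z' h3) (q := y + q) (q' := y)
          ((norm_add_le _ _).trans (by linarith)) (by linarith))
      (by rw [add_zero]; rw [div_mul_eq_mul_div, div_le_iff₀ ha] at k0; nlinarith)
    refine ⟨y + q, sub_eq_zero.1 (by rw [e, k2, neg_zero]), le_trans ?_ k0⟩
    rw [add_sub_cancel_left, div_mul_eq_mul_div, le_div_iff₀ ha]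
    rw [add_zero] at k1
    linarith
  · refine le_trans ?_ (mul_le_mul_of_nonneg_right (le_max_of_le_right (le_max_left K L))
      (by positivity))
    cases i
    · exact (hK f z z' h1 h2 h3).1
    · rw [(C.fderiv_gg f z _).2, (C.fderiv_gg f z' _).2]; exact (hK f z z' h1 h2 h3).2

end Crest.Agent.N221.Cov
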