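import Crest.Agent.N221.Dy.Nd
import Crest.Agent.N221.Dy.Hol
import Crest.Agent.N221.Ch.Dmb

/-!
Row 221, block G0, instance (helper85): ONE GEOMETRIC STEP `Sg` (stable version; the unstable one
is the same for the frames `fp f`, `fp f'`), and the statement `Dyn3` of the three ways to produce
a step (`fwd`, `bwd`, `hit` of `G0.Sy.Ok`).
-/

set_option autoImplicit false
set_option linter.unusedSectionVars false
set_option linter.unusedVariables false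

open MeasureTheory Set Filter Topology Metric
open scoped ContDiff RealInnerProductSpace ENNReal
open Crest.GeometryTopology.Submanifold
open Crest.Agent.R241.DDefs Crest.Agent.R241.D2
open Crest.Agent.R208.J Crest.Agent.R208.L

noncomputable section

namespace Crest.Agent.N221.Cov

variable {n N m : ℕ} {a : ℝ} {S : Set (Euc N)} {G : Geo n N (-(a ^ 2)) S} (C : Cov G)

/-- the stable plaque of `ξ` over `ball 0 R` flies from the chart `f` to the chart `f'` in time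
`≥ τ`, with coordinates `≤ e` at both ends -/
structure Sg (R e D τ : ℝ) (f : FF n N m) (ξ : Euc n) (f' : FF n N m) : Prop where
  fr : C.Frm f
  fr' : C.Frm f'
  fw : C.Fw f ξ
  dd : C.dd f.1 f'.1 ≤ D
  l0 : ‖C.lf f f' ξ 0‖ ≤ 2 * R / 3
  pl : ∀ q ∈ ball (0 : Euc m) R, C.gs f ξ q ∈ C.dm f f' ∧ ‖C.gs f ξ q‖ ≤ e ∧
    ‖C.Tf f f' (C.gs f ξ q)‖ ≤ e ∧ τ ≤ C.tm f f' (C.gs f ξ q)

/-- the three sources of steps -/
structure Dyn3 (m : ℕ) (b0 R e r1 κ D τ : ℝ) : Prop where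
  fwd : ∀ (f : FF n N m) (ξ : Euc n), C.Frm f → C.Fw f ξ → ‖C.pq f ξ 0‖ ≤ r1 / 2 →
    ∃ f' : FF n N m, C.Frm f' ∧ (C.ge f' 0).1 = ξ ∧ ∀ ξ', C.Fw f' ξ' → ‖C.pq f' ξ' 0‖ ≤ r1 →
      ‖C.pq f ξ' 0‖ ≤ r1 ∧ C.Sg R e D τ f ξ' f' ∧ ‖C.lf f f' ξ' 0‖ ≤ R / 6 ∧
      ∀ ε, (∀ y ∈ ball (0 : Euc m) R, ‖C.pq f' ξ' y - C.pq f' ξ y‖ ≤ ε) →
        ∀ y ∈ ball (0 : Euc m) R, ‖C.pq f ξ' y - C.pq f ξ y‖ ≤ κ * ε
  bwd : ∀ (f : FF n N m) (z0 : ZZ m), C.Frm f → ‖z0.1‖ ≤ 2 * R / 3 → ‖z0.2‖ ≤ b0 * R →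
    ∃ f' : FF n N m, C.Sg R e D τ f' (C.ge f' 0).1 f ∧ C.ge f' 0 = C.ge f z0 ∧ C.Tf f' f 0 = z0
  hit : ∀ f f' : FF n N m, C.Frm f → C.Frm f' → ∃ g, C.Deck g ∧
    C.Sg R e D τ (fg g f) (C.ge f' 0).1 f' ∧ ‖C.pq (fg g f) (C.ge f' 0).1 0‖ ≤ r1 ∧
    ‖C.lf (fg g f) f' (C.ge f' 0).1 0‖ ≤ R / 6

variable {C} {f f' : FF n N m} {ξ : Euc n} {R e D τ κ : ℝ}
variable (H : Hyp n N a S) (hm : m + 1 = n)
include H hm

lemma Sg.con (h : C.Sg R e D τ f ξ f') (h0 : 0 ≤ τ) (hκ : 8 * Real.exp (-(a * τ)) ≤ κ) :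
    ∀ q ∈ ball (0 : Euc m) R, ‖fderiv ℝ (C.lf f f' ξ) q‖ ≤ κ := fun q hq => by
  obtain ⟨b, -, hb⟩ := C.norm_lf H hm (m := m)
  obtain ⟨h1, -, -, h2⟩ := h.pl q hq
  have k0 : 0 ≤ κ := le_trans (by positivity) hκ
  refine ContinuousLinearMap.opNorm_le_bound _ k0 fun v => ?_
  refine ((hb f f' ξ q v h.fr h.fr' h.fw h1).1 (h0.trans h2)).1.trans ?_
  refine mul_le_mul_of_nonneg_right (le_trans ?_ hκ) (norm_nonneg _)
  have := H.a_pos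
  gcongr

lemma Sg.lip (h : C.Sg R e D τ f ξ f') (h0 : 0 ≤ τ) (hκ : 8 * Real.exp (-(a * τ)) ≤ κ) :
    ∀ q ∈ ball (0 : Euc m) R, ∀ q' ∈ ball (0 : Euc m) R,
      ‖C.lf f f' ξ q - C.lf f f' ξ q'‖ ≤ κ * ‖q - q'‖ := fun q hq q' hq' =>
  (convex_ball (0 : Euc m) R).norm_image_sub_le_of_norm_fderiv_le (fun y hy =>
    (C.contDiffAt_lf H hm h.fr h.fr' h.fw (h.pl y hy).1).differentiableAt (by simp))
    (h.con H hm h0 hκ) hq' hq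

lemma Sg.mp (h : C.Sg R e D τ f ξ f') (h0 : 0 ≤ τ) (hκ : 8 * Real.exp (-(a * τ)) ≤ κ)
    (h6 : κ ≤ 1 / 6) : ∀ q ∈ ball (0 : Euc m) R, ‖C.lf f f' ξ q‖ < R := fun q hq => by
  have q0 := mem_ball_zero_iff.1 hq
  have R0 := (norm_nonneg q).trans_lt q0
  have k := h.lip H hm h0 hκ q hq 0 (mem_ball_self R0)
  rw [sub_zero] at k
  have k2 := norm_le_norm_add_norm_sub' (C.lf f f' ξ q) (C.lf f f' ξ 0)
  linarith [h.l0, mul_le_mul_of_nonneg_right h6 (norm_nonneg q)]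

lemma Sg.gr (h : C.Sg R e D τ f ξ f') : ∀ q ∈ ball (0 : Euc m) R,
    C.Tf f f' (C.gs f ξ q) = C.gs f' ξ (C.lf f f' ξ q) := fun q hq =>
  (C.Tf_gs H hm h.fr h.fr' h.fw (h.pl q hq).1).1

end Crest.Agent.N221.Cov
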