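import Crest.Agent.N221.G0.Im0
import Crest.Agent.N221.Ch.Sym
import Crest.Agent.N221.Ch.Unif

/-! Row 221, block G0, instance (helper39): the section `MM = (σ⁻, 1)`, its cocycle `Bc`, the slice
relation `lam = (σ⁺, -(-1)^m)`. -/

set_option autoImplicit false
set_option linter.unusedSectionVars false
set_option linter.unusedVariables false

open MeasureTheory Set Filter Topology Metric
open scoped ContDiff RealInnerProductSpace ENNReal
open Crest.GeometryTopology.Submanifold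
open Crest.Agent.R241.DDefs Crest.Agent.R241.D2
open Crest.Agent.R208.J Crest.Agent.R208.L

noncomputable section

namespace Crest.Agent.N221

/-- the fibre -/
abbrev WW (m : ℕ) := Fm m × ℝ

/-- `(φ, t) ↦ (s φ ∘ D, t)` -/
def bc {m : ℕ} (k : ℝ × (ZZ m →L[ℝ] ZZ m)) : WW m →L[ℝ] WW m :=
  (k.1 • pbk k.2).prodMap (ContinuousLinearMap.id ℝ ℝ)

lemma bc_apply {m : ℕ} (k : ℝ × (ZZ m →L[ℝ] ZZ m)) (w : WW m) :
    bc k w = (k.1 • pbk k.2 w.1, w.2) := rfl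

lemma contDiff_bc {m : ℕ} : ContDiff ℝ ∞ (bc : ℝ × (ZZ m →L[ℝ] ZZ m) → _) :=
  contDiff_clm_apply_iff.2 fun w => (contDiff_fst.smul
    ((contDiff_pbk.comp contDiff_snd).clm_apply (contDiff_const (c := w.1)))).prodMk contDiff_const

/-- `(e^{-s} dfm (-A), 1)` -/
def nu0 {m : ℕ} (k : ℝ × (Euc m →L[ℝ] Euc m)) : WW m := (Real.exp (-k.1) • dfm (-k.2), 1)

lemma contDiff_nu0 {m : ℕ} : ContDiff ℝ ∞ (nu0 : ℝ × (Euc m →L[ℝ] Euc m) → _) :=
  ((contDiff_fst.neg.exp).smul (contDiff_dfm.comp contDiff_snd.neg)).prodMk contDiff_const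

/-- `(φ, t) ↦ e^{-s} φ (gbas A) - (-1)^m t` -/
def lam0 {m : ℕ} (k : ℝ × (Euc m →L[ℝ] Euc m)) : WW m →L[ℝ] ℝ :=
  Real.exp (-k.1) • (evG k.2 ∘L ContinuousLinearMap.fst ℝ (Fm m) ℝ) -
    ((-1 : ℝ) ^ m) • ContinuousLinearMap.snd ℝ (Fm m) ℝ

lemma contDiff_lam0 {m : ℕ} : ContDiff ℝ ∞ (lam0 : ℝ × (Euc m →L[ℝ] Euc m) → _) :=
  ((contDiff_fst.neg.exp).smul ((contDiff_evG.comp contDiff_snd).clm_comp contDiff_const)).sub
    contDiff_const

namespace Cov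

variable {n N m : ℕ} {a : ℝ} {S : Set (Euc N)} {G : Geo n N (-(a ^ 2)) S} (C : Cov G)

/-- `(σ⁻, 1)` on the unstable graph of `η` -/
def nu (α : TT N → ℝ) (c : ℝ) (f : FF n N m) (η : Euc n) (q : Euc m) : WW m :=
  nu0 (C.aa α c f η q, C.HH f η q)

/-- `(σ⁻, 1)` in the chart -/
def MM (α : TT N → ℝ) (c : ℝ) (f : FF n N m) (z : ZZ m) : WW m := C.nu α c f (C.ge f z).2 z.1

/-- the slice relation on the stable graph of `ξ` -/
def lam (α : TT N → ℝ) (c : ℝ) (f : FF n N m) (ξ : Euc n) (q : Euc m) : WW m →L[ℝ] ℝ :=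
  lam0 (C.aa α c f ξ q, C.HH f ξ q)

/-- the differential of the transition on `E^u` -/
def Lu (f f' : FF n N m) (z : ZZ m) : Euc m →L[ℝ] Euc m :=
  ContinuousLinearMap.fst ℝ _ _ ∘L fderiv ℝ (C.Tf f f') z ∘L
    (ContinuousLinearMap.id ℝ _).prod (C.Su f z)

/-- its orientation -/
def sg (f f' : FF n N m) (z : ZZ m) : ℝ := SignType.sign (C.Lu f f' z).det

/-- the cocycle (pull back from the chart `f'` to the chart `f`) -/
def Bc (h : ℝ) (f f' : FF n N m) (z : ZZ m) : WW m →L[ℝ] WW m :=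
  bc (C.sg f f' z * Real.exp (h * C.tm f f' z), fderiv ℝ (C.Tf f f') z)

variable {f f' : FF n N m} {z : ZZ m} {ξ η : Euc n} {q : Euc m} {g : Euc n → Euc n}
  {h c : ℝ} {α : TT N → ℝ}

lemma MM_eq (f : FF n N m) (z : ZZ m) : C.MM α c f z =
    (Real.exp (-C.aa α c f (C.ge f z).2 z.1) • dfm (C.Su f z), 1) := rfl

lemma MM_snd (f : FF n N m) (z : ZZ m) : (C.MM α c f z).2 = 1 := rfl

lemma lam_apply (f : FF n N m) (ξ : Euc n) (q : Euc m) (w : WW m) : C.lam α c f ξ q w =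
    Real.exp (-C.aa α c f ξ q) * w.1 (gbas (C.HH f ξ q)) - (-1) ^ m * w.2 := rfl

lemma Bc_apply (f f' : FF n N m) (z : ZZ m) (w : WW m) : C.Bc h f f' z w =
    ((C.sg f f' z * Real.exp (h * C.tm f f' z)) •
      w.1.compContinuousLinearMap fun _ => fderiv ℝ (C.Tf f f') z, w.2) := rfl

lemma one_le_lam (f : FF n N m) (ξ : Euc n) (q : Euc m) : 1 ≤ ‖C.lam α c f ξ q‖ := by
  have h := (C.lam α c f ξ q).le_opNorm (0, 1)
  simpa [lam_apply] using h

variable (H : Hyp n N a S) (hm : m + 1 = n)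
include H hm

lemma MM_gu (hf : C.Frm f) (hη : C.Fw (fp f) η) (hq : ‖q‖ ≤ 2 * C.rr m) :
    C.MM α c f (C.gu f η q) = C.nu α c f η q := by
  rw [MM, (C.ge_gu H hm hf hη hq).2.2]
  rfl

lemma lam_MM (hc : Co G h α c) (hf : C.Frm f) (hz : z ∈ C.Dm f) :
    C.lam α c f (C.ge f z).1 z.1 (C.MM α c f z) = 0 := by
  have e := C.det_Su_sub_Ss H hm hc hf hz
  rw [lam_apply, MM_eq]
  change _ * (_ * dfm (C.Su f z) (gbas (C.Ss f z))) - _ = 0
  rw [dfm_gbas, e, Real.exp_add, Real.exp_neg, Real.exp_neg]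
  field_simp
  ring

lemma lam_gs (hc : Co G h α c) (hf : C.Frm f) (hξ : C.Fw f ξ) (hq : ‖q‖ ≤ 2 * C.rr m) :
    C.lam α c f ξ q (C.MM α c f (C.gs f ξ q)) = 0 := by
  obtain ⟨h1, -, h2⟩ := C.ge_gs H hm hf hξ hq
  have := C.lam_MM H hm hc hf h1
  rwa [h2] at this

lemma Lu_eq (hf : C.Frm f) (hf' : C.Frm f') (hz : z ∈ C.dm f f') :
    C.Lu f f' z = fderiv ℝ (C.lf (fp f) (fp f') (C.ge f z).2) z.1 :=
  ContinuousLinearMap.ext fun e => congrArg Prod.fst (C.fderiv_Tf_u H hm hf hf' hz e)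

lemma abs_det_Lu (hc : Co G h α c) (hf : C.Frm f) (hf' : C.Frm f') (hz : z ∈ C.dm f f') :
    |(C.Lu f f' z).det| = Real.exp (h * C.tm f f' z + C.aa α c f (C.ge f z).2 z.1 -
      C.aa α c f' (C.ge f' (C.Tf f f' z)).2 (C.Tf f f' z).1) := by
  have r0 := C.rr_pos H hm
  have h1 : ‖z‖ ≤ 2 * C.rr m := by linarith [hz.1]
  have hη := C.back H hm hf h1
  have e := C.eq_gu H hf (C.Dm_of_le H hm hf h1)
  obtain ⟨a1, a2, a3⟩ := C.Tf_gu H hm hf hf' hη (q := z.1) (by rwa [e])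
  rw [e] at a1 a3
  rw [C.Lu_eq H hm hf hf' hz, C.abs_det_lf H hm hf.fp hf'.fp hc hη a2, a3,
    (C.Tf_spec H hm hf' hz).2, a1, aa_fp, aa_fp]
  congr 1
  simp only [gu]
  ring

lemma det_Lu_ne (hf : C.Frm f) (hf' : C.Frm f') (hz : z ∈ C.dm f f') : (C.Lu f f' z).det ≠ 0 := by
  have r0 := C.rr_pos H hm
  intro e
  obtain ⟨v, hv, h0⟩ := (Submodule.ne_bot_iff _).1
    (LinearMap.det_eq_zero_iff_ker_ne_bot.1 e)
  have k := C.fderiv_Tf_u H hm hf hf' hz v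
  rw [← C.Lu_eq H hm hf hf' hz, show C.Lu f f' z v = 0 from hv, map_zero] at k
  have k2 := C.fderiv_Tf_symm H hm hf hf' hz (v, C.Su f z v)
  rw [k, show ((0 : Euc m), (0 : Euc m)) = 0 from rfl, map_zero] at k2
  exact h0 (congrArg Prod.fst k2).symm

lemma sg_sq (hf : C.Frm f) (hf' : C.Frm f') (hz : z ∈ C.dm f f') :
    C.sg f f' z = 1 ∨ C.sg f f' z = -1 := by
  rcases lt_or_gt_of_ne (C.det_Lu_ne H hm hf hf' hz) with e | e
  · right; simp [sg, sign_neg e]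
  · left; simp [sg, sign_pos e]

lemma sg_ev (hf : C.Frm f) (hf' : C.Frm f') (hz : z ∈ C.dm f f') :
    ∀ᶠ w in 𝓝 z, C.sg f f' w = C.sg f f' z := by
  have r0 := C.rr_pos H hm
  have hD := C.Dm_of_le H hm hf (z := z) (by linarith [hz.1])
  have c1 : ContinuousAt (C.Su f) z :=
    ((C.continuousOn_Su H hm).comp (f := fun w => (f, w)) (s := C.Dm f) (by fun_prop)
      fun w hw => ⟨hf, hw⟩).continuousAt ((C.isOpen_Dm H hf).mem_nhds hD)
  have c2 : ContinuousAt (fderiv ℝ (C.Tf f f')) z :=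
    ((C.contDiffAt_Tf H hm hf hf' hz).fderiv_right (m := 0) (by simp)).continuousAt
  have c3 : ContinuousAt (fun w => (ContinuousLinearMap.id ℝ (Euc m)).prod (C.Su f w)) z :=
    (ContinuousLinearMap.prodₗᵢ (𝕜 := ℝ) (E := Euc m) (F := Euc m) (G := Euc m)
      ℝ).continuous.continuousAt.comp (f := fun w => (ContinuousLinearMap.id ℝ (Euc m), C.Su f w))
      (continuousAt_const.prodMk c1)
  have c4 : ContinuousAt (fun w => (C.Lu f f' w).det) z :=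
    ContinuousLinearMap.continuous_det.continuousAt.comp
      (continuousAt_const.clm_comp (c2.clm_comp c3))
  rcases lt_or_gt_of_ne (C.det_Lu_ne H hm hf hf' hz) with e | e
  · filter_upwards [c4.eventually (gt_mem_nhds e)] with w hw
    simp [sg, sign_neg e, sign_neg hw]
  · filter_upwards [c4.eventually (lt_mem_nhds e)] with w hw
    simp [sg, sign_pos e, sign_pos hw]

/-- INVARIANCE -/
lemma MM_Tf (hc : Co G h α c) (hf : C.Frm f) (hf' : C.Frm f') (hz : z ∈ C.dm f f') :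
    C.MM α c f z = C.Bc h f f' z (C.MM α c f' (C.Tf f f' z)) := by
  have r0 := C.rr_pos H hm
  have n0 : ∀ {f : FF n N m} {z : ZZ m}, C.Frm f → ‖z‖ < C.rr m → ∀ x y,
      ⟪C.Su f z x, y⟫ = ⟪x, C.Su f z y⟫ := fun {f z} hf hz x y => by
    have := C.HH_symm H (bas_ne0 (C.ge_GG H hf (C.Dm_of_le H hm hf (z := z) (by linarith))).2.1)
      f z.1 x y
    simp only [Su, neg_apply, inner_neg_left, inner_neg_right, this]
  have k := dfm_pbk (C.om_Tf H hm hf hf' hz) (n0 hf hz.1) (n0 hf' (C.Tf_spec H hm hf' hz).1)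
    (C.fderiv_Tf_u H hm hf hf' hz)
  rw [← C.Lu_eq H hm hf hf' hz] at k
  have e := C.abs_det_Lu H hm hc hf hf' hz
  rw [MM_eq, MM_eq, Bc, bc_apply, k, map_smul, smul_smul, smul_smul]
  congr 2
  rw [← sign_mul_abs (C.Lu f f' z).det, e, sub_eq_add_neg, Real.exp_add, Real.exp_add,
    Real.exp_neg (C.aa α c f _ _)]
  simp only [sg]
  field_simp

lemma sg_symm (hf : C.Frm f) (hf' : C.Frm f') (hz : z ∈ C.dm f f') :
    C.sg f f' z * C.sg f' f (C.Tf f f' z) = 1 := by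
  have k : C.Lu f' f (C.Tf f f' z) ∘L C.Lu f f' z = ContinuousLinearMap.id ℝ _ :=
    ContinuousLinearMap.ext fun e => by
      have k1 := C.fderiv_Tf_u H hm hf hf' hz e
      rw [← C.Lu_eq H hm hf hf' hz] at k1
      have k2 := C.fderiv_Tf_symm H hm hf hf' hz (e, C.Su f z e)
      rw [k1] at k2
      exact congrArg Prod.fst k2
  have d : (C.Lu f f' z).det * (C.Lu f' f (C.Tf f f' z)).det = 1 := by
    rw [mul_comm, ← UDn.det_comp, k]
    exact LinearMap.det_id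
  rw [sg, sg, ← SignType.coe_mul, ← sign_mul, d]
  simp

lemma Bc_Bc (hf : C.Frm f) (hf' : C.Frm f') (hz : z ∈ C.dm f f') (w : WW m) :
    C.Bc h f f' z (C.Bc h f' f (C.Tf f f' z) w) = w := by
  rw [Bc, Bc, bc_apply, bc_apply, map_smul, smul_smul, pbk_pbk (C.fderiv_Tf_symm H hm hf hf' hz),
    (C.Tf_symm H hm hf hf' hz).2.2, mul_mul_mul_comm, C.sg_symm H hm hf hf' hz, ← Real.exp_add]
  simp

lemma Bc_Bc' (hf : C.Frm f) (hf' : C.Frm f') (hz : z ∈ C.dm f f') (w : WW m) :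
    C.Bc h f' f (C.Tf f f' z) (C.Bc h f f' z w) = w := by
  obtain ⟨h1, h2, -⟩ := C.Tf_symm H hm hf hf' hz
  have := C.Bc_Bc H hm (h := h) hf' hf h1 w
  rwa [h2] at this

lemma MM_Tf' (hc : Co G h α c) (hf : C.Frm f) (hf' : C.Frm f') (hz : z ∈ C.dm f f') :
    C.Bc h f' f (C.Tf f f' z) (C.MM α c f z) = C.MM α c f' (C.Tf f f' z) := by
  rw [C.MM_Tf H hm hc hf hf' hz, C.Bc_Bc' H hm hf hf' hz]

end Cov

end Crest.Agent.N221
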