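import Crest.Agent.N221.A1.Defs
import Crest.Agent.N221.Ex.UB

/-! Row 221, block G0, instance (helper39): the form `dfm A`, pull back of forms. -/

set_option autoImplicit false

open Set Filter Topology Metric
open scoped ContDiff RealInnerProductSpace
open Crest.GeometryTopology.Submanifold

noncomputable section

namespace Crest.Agent.N221

variable {m : ℕ}

instance finFm : FiniteDimensional ℝ (Fm m) :=
  Module.Finite.of_injective ContinuousMultilinearMap.toMultilinearMapLinear
    ContinuousMultilinearMap.toMultilinearMap_injective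

/-- determinant of the rows -/
def detM (m : ℕ) : ContinuousMultilinearMap ℝ (fun _ : Fin m => Euc m) ℝ where
  toMultilinearMap :=
    (Matrix.detRowAlternating (n := Fin m) (R := ℝ)).toMultilinearMap.compLinearMap
      fun _ => (WithLp.linearEquiv 2 ℝ (Fin m → ℝ)).toLinearMap
  cont := Continuous.matrix_det (A := fun v : Fin m → Euc m => Matrix.of fun i j => v i j)
    (continuous_pi fun i => continuous_pi fun j => by simp only [Matrix.of_apply]; fun_prop)

lemma detM_apply (v : Fin m → Euc m) : detM m v = (Matrix.of fun i j => v i j).det := rfl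

lemma detM_map (L : Euc m →L[ℝ] Euc m) (v : Fin m → Euc m) :
    detM m (fun i => L (v i)) = L.det * detM m v := by
  let b := (EuclideanSpace.basisFun (Fin m) ℝ).toBasis
  have h := b.det_comp (L : Euc m →ₗ[ℝ] Euc m) v
  have e : ∀ w : Fin m → Euc m, b.det w = detM m w := fun w => by
    rw [Module.Basis.det_apply, detM_apply, ← Matrix.det_transpose]
    rfl
  rw [e, e] at h
  exact h

lemma detM_single : detM m (fun i => EuclideanSpace.single i 1) = 1 := by
  rw [detM_apply, ← Matrix.det_one (n := Fin m)]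
  congr 1
  ext i j
  simp [Matrix.one_apply, eq_comm]

/-- `p - A q` -/
def prA (A : Euc m →L[ℝ] Euc m) : ZZ m →L[ℝ] Euc m :=
  ContinuousLinearMap.snd ℝ _ _ - A ∘L ContinuousLinearMap.fst ℝ _ _

lemma prA_apply (A : Euc m →L[ℝ] Euc m) (v : ZZ m) : prA A v = v.2 - A v.1 := rfl

/-- `dform A` as a continuous multilinear map -/
def dfm (A : Euc m →L[ℝ] Euc m) : Fm m := (detM m).compContinuousLinearMap fun _ => prA A

lemma dfm_apply (A : Euc m →L[ℝ] Euc m) (v : Fin m → ZZ m) : dfm A v = dform A v := rfl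

lemma contDiff_dfm : ContDiff ℝ ∞ (dfm : (Euc m →L[ℝ] Euc m) → Fm m) := by
  have h : ContDiff ℝ ∞ (prA : (Euc m →L[ℝ] Euc m) → _) :=
    contDiff_const.sub (contDiff_id.clm_comp contDiff_const)
  exact (ContinuousMultilinearMap.compContinuousLinearMapLRight (E := fun _ => ZZ m)
    (detM m)).contDiff.comp (contDiff_pi.2 fun _ => h)

lemma dfm_gbas (A B : Euc m →L[ℝ] Euc m) : dfm A (gbas B) = (-1) ^ m * (A - B).det := by
  have h := detM_map (B - A) fun i => EuclideanSpace.single i 1
  rw [detM_single, mul_one] at h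
  have e : B - A = (-1 : ℝ) • (A - B) := by ext; simp
  have e2 : ((-1 : ℝ) • (A - B)).det = (-1) ^ m * (A - B).det := by
    rw [ContinuousLinearMap.det, ContinuousLinearMap.toLinearMap_smul, LinearMap.det_smul,
      finrank_euclideanSpace_fin]
  rw [← e2, ← e, ← h]
  rfl

/-- pull back of forms -/
def pbk (D : ZZ m →L[ℝ] ZZ m) : Fm m →L[ℝ] Fm m :=
  ContinuousMultilinearMap.compContinuousLinearMapL fun _ => D

lemma pbk_apply (D : ZZ m →L[ℝ] ZZ m) (φ : Fm m) :
    pbk D φ = φ.compContinuousLinearMap fun _ => D := rfl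

lemma contDiff_pbk : ContDiff ℝ ∞ (pbk : (ZZ m →L[ℝ] ZZ m) → _) := by
  have h1 := ContinuousMultilinearMap.contDiff (𝕜 := ℝ) (E := fun _ : Fin m => ZZ m →L[ℝ] ZZ m)
    (F := Fm m →L[ℝ] Fm m) (n := ∞)
    (ContinuousMultilinearMap.compContinuousLinearMapContinuousMultilinear ℝ
      (fun _ : Fin m => ZZ m) (fun _ => ZZ m) ℝ)
  have h2 : ContDiff ℝ ∞ fun (D : ZZ m →L[ℝ] ZZ m) (_ : Fin m) => D :=
    contDiff_pi.2 fun _ => contDiff_id
  exact h1.comp h2

lemma pbk_pbk {D D' : ZZ m →L[ℝ] ZZ m} (h : ∀ v, D' (D v) = v) (φ : Fm m) :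
    pbk D (pbk D' φ) = φ := by
  ext v
  simp [pbk_apply, h]

/-- a symplectic map that takes the graph of `A` to the graph of `A'` -/
lemma dfm_pbk {D : ZZ m →L[ℝ] ZZ m} {A A' L : Euc m →L[ℝ] Euc m}
    (hD : ∀ v w, om (D v) (D w) = om v w) (hA : ∀ x y, ⟪A x, y⟫ = ⟪x, A y⟫)
    (hA' : ∀ x y, ⟪A' x, y⟫ = ⟪x, A' y⟫) (hL : ∀ e, D (e, A e) = (L e, A' (L e))) :
    dfm A = L.det • pbk D (dfm A') := by
  have k : ∀ v, L.adjoint (prA A' (D v)) = prA A v := fun v => ext_inner_right ℝ fun e => by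
    have h := hD (e, A e) v
    rw [hL] at h
    simp only [om] at h
    rw [ContinuousLinearMap.adjoint_inner_left, prA_apply, prA_apply, inner_sub_left,
      inner_sub_left, hA', hA, real_inner_comm (A' (L e)), real_inner_comm (A e)]
    linarith
  have d : L.adjoint.det = L.det := by
    let b := EuclideanSpace.basisFun (Fin m) ℝ
    rw [ContinuousLinearMap.det, ContinuousLinearMap.det, ← ContinuousLinearMap.adjoint_toLinearMap,
      ← LinearMap.det_toMatrix b.toBasis, LinearMap.toMatrix_adjoint, Matrix.det_conjTranspose,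
      LinearMap.det_toMatrix, star_trivial]
  ext v
  have h := detM_map L.adjoint fun i => prA A' (D (v i))
  simp only [k, d] at h
  exact h

/-- evaluation on the standard basis of a graph -/
def evG (A : Euc m →L[ℝ] Euc m) : Fm m →L[ℝ] ℝ :=
  ContinuousMultilinearMap.apply ℝ (fun _ : Fin m => ZZ m) ℝ (gbas A)

lemma evG_apply (A : Euc m →L[ℝ] Euc m) (φ : Fm m) : evG A φ = φ (gbas A) := rfl

/-- the map `(q, p) ↦ (q, A q)` -/
def grA (A : Euc m →L[ℝ] Euc m) : ZZ m →L[ℝ] ZZ m :=
  (ContinuousLinearMap.fst ℝ _ _).prod (A ∘L ContinuousLinearMap.fst ℝ _ _)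

lemma contDiff_evG : ContDiff ℝ ∞ (evG : (Euc m →L[ℝ] Euc m) → _) := by
  have h : ContDiff ℝ ∞ (grA : (Euc m →L[ℝ] Euc m) → _) :=
    (ContinuousLinearMap.prodₗᵢ (𝕜 := ℝ) (E := ZZ m) (F := Euc m) (G := Euc m) ℝ).contDiff.comp
      (f := fun A => (ContinuousLinearMap.fst ℝ _ _, A ∘L ContinuousLinearMap.fst ℝ _ _))
      (contDiff_const.prodMk (contDiff_id.clm_comp contDiff_const))
  have e : (evG : (Euc m →L[ℝ] Euc m) → _) = fun A => evG 0 ∘L pbk (grA A) := by
    ext A φ
    rfl
  rw [e]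
  exact contDiff_const.clm_comp (contDiff_pbk.comp h)

end Crest.Agent.N221
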