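import Crest.Agent.N221.G0.Im
import Crest.Agent.N221.G0.Sys
import Crest.Agent.N221.Ex.Inst

/-! Row 221, block G0, instance (helper39): uniform bounds of `nu`, `lam`, `Bc`, deck invariance,
continuity, the ambient part `Am` of a step. -/

set_option autoImplicit false
set_option linter.unusedSectionVars false
set_option linter.unusedVariables false

open MeasureTheory Set Filter Topology Metric
open scoped ContDiff RealInnerProductSpace ENNReal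
open Crest.GeometryTopology.Submanifold
open Crest.Agent.R241.DDefs Crest.Agent.R241.D2
open Crest.Agent.R208.J Crest.Agent.R208.L

noncomputable section

namespace Crest.Agent.N221

open Ex G0

lemma Ex.UB.uj {ι X Y : Type} [NormedAddCommGroup X] [NormedSpace ℝ X] [NormedAddCommGroup Y]
    [NormedSpace ℝ Y] {U : ι → Set X} {φ : ι → X → Y} (h : UB U φ) :
    ∃ c : ℕ → ℝ, (∀ k, 1 ≤ c k) ∧ ∀ i, ∀ x ∈ U i, UJ c (φ i) x := by
  obtain ⟨c, h1, h2⟩ := h.bds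
  exact ⟨c, h1, fun i x hx => ⟨h.at hx, fun k => h2 k i x hx⟩⟩

lemma G0.UJ.mono {X Y : Type} [NormedAddCommGroup X] [NormedSpace ℝ X] [NormedAddCommGroup Y]
    [NormedSpace ℝ Y] {c c' : ℕ → ℝ} {f : X → Y} {x : X} (h : UJ c f x) (hc : ∀ k, c k ≤ c' k) :
    UJ c' f x := ⟨h.1, fun k => (h.2 k).trans (hc k)⟩

lemma G0.UJ.congr {X Y : Type} [NormedAddCommGroup X] [NormedSpace ℝ X] [NormedAddCommGroup Y]
    [NormedSpace ℝ Y] {c : ℕ → ℝ} {f f' : X → Y} {x : X} (h : UJ c f x) (e : f' =ᶠ[𝓝 x] f) :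
    UJ c f' x :=
  ⟨h.1.congr_of_eventuallyEq e, fun k => by rw [(e.iteratedFDeriv ℝ k).eq_of_nhds]; exact h.2 k⟩

lemma G0.UJ.neg {X Y : Type} [NormedAddCommGroup X] [NormedSpace ℝ X] [NormedAddCommGroup Y]
    [NormedSpace ℝ Y] {c : ℕ → ℝ} {f : X → Y} {x : X} (h : UJ c f x) : UJ c (fun y => -f y) x :=
  ⟨h.1.neg, fun k => by
    have := iteratedFDeriv_neg_apply (𝕜 := ℝ) (i := k) (f := f) (x := x)
    rw [show (fun y => -f y) = -f from rfl, this, norm_neg]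
    exact h.2 k⟩

lemma G0.UJ.norm_le {X Y : Type} [NormedAddCommGroup X] [NormedSpace ℝ X] [NormedAddCommGroup Y]
    [NormedSpace ℝ Y] {c : ℕ → ℝ} {f : X → Y} {x : X} (h : UJ c f x) :
    ‖f x‖ ≤ c 0 ∧ ‖fderiv ℝ f x‖ ≤ c 1 :=
  ⟨norm_iteratedFDeriv_zero.symm.trans_le (h.2 0), (norm_iteratedFDeriv_one _).symm.trans_le (h.2 1)⟩

namespace Cov

variable {n N m : ℕ} {a : ℝ} {S : Set (Euc N)} {G : Geo n N (-(a ^ 2)) S} (C : Cov G)
variable {f f' : FF n N m} {z : ZZ m} {ξ η : Euc n} {q : Euc m} {g : Euc n → Euc n}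
  {h c : ℝ} {α : TT N → ℝ}

/-- pairs of frames at distance `≤ R` -/
abbrev PR (m : ℕ) (R : ℝ) : Type :=
  {p : FF n N m × FF n N m // C.Frm p.1 ∧ C.Frm p.2 ∧ C.dd p.1.1 p.2.1 ≤ R}

/-- frames with a boundary point in front -/
abbrev PF (m : ℕ) : Type := {p : FF n N m × Euc n // C.Frm p.1 ∧ C.Fw p.1 p.2}

variable (H : Hyp n N a S) (hm : m + 1 = n)
include H hm

lemma ub_tmP (R : ℝ) : UB (fun p : C.PR m R => C.dm p.1.1 p.1.2) fun p => C.tm p.1.1 p.1.2 :=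
  ⟨fun p => C.isOpen_dm H hm p.2.1 p.2.2.1,
    fun p _ hz => (C.contDiffAt_tm H hm p.2.1 p.2.2.1 hz).contDiffWithinAt, fun k => by
      obtain ⟨B, hB⟩ := C.jb_tm H hm R k
      exact ⟨max B 1, by positivity, fun p z hz =>
        (hB (p.1, z) ⟨p.2.1, p.2.2.1, p.2.2.2, hz⟩).trans (le_max_left _ _)⟩⟩

lemma ub_Bc (h R : ℝ) :
    UB (fun p : C.PR m R => C.dm p.1.1 p.1.2) fun p => C.Bc h p.1.1 p.1.2 := by
  have h1 := (C.ub_Tf H hm R).fderiv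
  have h2 := (C.ub_tmP H hm R).smooth (Φ := fun t => Real.exp (h * t)) (by fun_prop)
  have o : ∀ p : C.PR m R × Bool, IsOpen (C.dm p.1.1.1 p.1.1.2) := fun p => h1.op p.1
  have k1 := h1.mono (Prod.fst : C.PR m R × Bool → _) o fun _ => Subset.rfl
  have k2 := h2.mono (Prod.fst : C.PR m R × Bool → _) o fun _ => Subset.rfl
  have k3 := UB.const (M := 1) (c := fun p : C.PR m R × Bool => (bif p.2 then 1 else -1 : ℝ)) o
    fun p => by cases p.2 <;> simp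
  have h3 := ((UB.bilin (ContinuousLinearMap.mul ℝ ℝ) k3 k2).prod k1).smooth (contDiff_bc (m := m))
  refine h3.of_local h1.op fun p z hz => ?_
  have e := C.sg_ev H hm p.2.1 p.2.2.1 hz
  rcases C.sg_sq H hm p.2.1 p.2.2.1 hz with k | k
  · exact ⟨(p, true), hz, e.mono fun w hw => by rw [Bc, hw, k]; rfl⟩
  · exact ⟨(p, false), hz, e.mono fun w hw => by rw [Bc, hw, k]; rfl⟩

/-- the push forward cocycle -/
lemma ub_Bc' (h R : ℝ) : UB (fun p : C.PR m R => C.dm p.1.1 p.1.2)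
    fun p z => C.Bc h p.1.2 p.1.1 (C.Tf p.1.1 p.1.2 z) :=
  UB.comp (V := fun p : C.PR m R => C.dm p.1.2 p.1.1) (ψ := fun p => C.Bc h p.1.2 p.1.1)
    ((C.ub_Bc H hm h R).mono (fun p : C.PR m R => (⟨(p.1.2, p.1.1), p.2.2.1, p.2.1,
      (C.dd_comm _ _).trans_le p.2.2.2⟩ : C.PR m R)) (fun p => C.isOpen_dm H hm p.2.2.1 p.2.1)
      fun _ => Subset.rfl) (C.ub_Tf H hm R) fun p _ hz => (C.Tf_symm H hm p.2.1 p.2.2.1 hz).1

lemma ub_aaH (hc : Co G h α c) : UB (fun _ : C.PF m => ball (0 : Euc m) (2 * C.rr m))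
    fun p q => (C.aa α c p.1.1 p.1.2 q, C.HH p.1.1 p.1.2 q) :=
  UB.prod ⟨fun _ => isOpen_ball, fun p q hq => ((C.jc_aa H hm hc).sm (p.1, q)
      ⟨p.2.1, p.2.2, (mem_ball_zero_iff.1 hq).le⟩).contDiffWithinAt, fun k => by
      obtain ⟨B, hB⟩ := C.jb_aa H hm hc k
      exact ⟨max B 1, by positivity, fun p q hq =>
        (hB (p.1, q) ⟨p.2.1, p.2.2, (mem_ball_zero_iff.1 hq).le⟩).trans (le_max_left _ _)⟩⟩
    ⟨fun _ => isOpen_ball, fun p q hq =>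
      ((C.jc_HH H).sm (p.1, q) p.2.2.1).contDiffWithinAt, fun k => by
      obtain ⟨B, hB⟩ := C.jb_HH (m := m) H (2 * C.rr m) k
      exact ⟨max B 1, by positivity, fun p q hq =>
        (hB (p.1, q) ⟨p.2.1, p.2.2.1, (mem_ball_zero_iff.1 hq).le⟩).trans (le_max_left _ _)⟩⟩

lemma ub_lam (hc : Co G h α c) : UB (fun _ : C.PF m => ball (0 : Euc m) (2 * C.rr m))
    fun p => C.lam α c p.1.1 p.1.2 := (C.ub_aaH H hm hc).smooth contDiff_lam0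

/-- `nu` on the unstable graphs; the parameter is `(fp f, η)` -/
lemma ub_nu (hc : Co G h α c) : UB (fun _ : C.PF m => ball (0 : Euc m) (2 * C.rr m))
    fun p => C.nu α c p.1.1 p.1.2 := (C.ub_aaH H hm hc).smooth contDiff_nu0

lemma uj_nu (hc : Co G h α c) : ∃ d : ℕ → ℝ, (∀ k, 1 ≤ d k) ∧ ∀ (f : FF n N m) (η : Euc n)
    (q : Euc m), C.Frm f → C.Fw (fp f) η → ‖q‖ < 2 * C.rr m → UJ d (C.nu α c f η) q := by
  obtain ⟨d, h1, h2⟩ := (C.ub_nu H hm hc).uj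
  exact ⟨d, h1, fun f η q hf hη hq => h2 ⟨(fp f, η), hf.fp, hη⟩ q (mem_ball_zero_iff.2 hq)⟩

lemma uj_lam (hc : Co G h α c) : ∃ d : ℕ → ℝ, (∀ k, 1 ≤ d k) ∧ ∀ (f : FF n N m) (ξ : Euc n)
    (q : Euc m), C.Frm f → C.Fw f ξ → ‖q‖ < 2 * C.rr m → UJ d (C.lam α c f ξ) q := by
  obtain ⟨d, h1, h2⟩ := (C.ub_lam H hm hc).uj
  exact ⟨d, h1, fun f ξ q hf hξ hq => h2 ⟨(f, ξ), hf, hξ⟩ q (mem_ball_zero_iff.2 hq)⟩

/-- everything the ambient part `Am` of a step needs, `φ = Tf f f'`, `A w = Bc f' f (φ w)` -/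
lemma am_all (hc : Co G h α c) (R : ℝ) : ∃ (b : ℝ) (d : ℕ → ℝ), 1 ≤ b ∧ (∀ k, 1 ≤ d k) ∧
    ∀ (f f' : FF n N m) (w : ZZ m), C.Frm f → C.Frm f' → C.dd f.1 f'.1 ≤ R → w ∈ C.dm f f' →
      UJ d (C.Tf f f') w ∧ UJ d (fun w => C.Bc h f' f (C.Tf f f' w)) w ∧
      ‖C.Bc h f' f (C.Tf f f' w)‖ ≤ b ∧ (∀ v, ‖v‖ ≤ b * ‖C.Bc h f' f (C.Tf f f' w) v‖) ∧
      ‖fderiv ℝ (C.Tf f f') w‖ ≤ b ∧ (∀ v, ‖v‖ ≤ b * ‖fderiv ℝ (C.Tf f f') w v‖) ∧
      C.Bc h f' f (C.Tf f f' w) (C.MM α c f w) = C.MM α c f' (C.Tf f f' w) := by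
  obtain ⟨d1, a1, k1⟩ := (C.ub_Tf H hm R).uj
  obtain ⟨d2, a2, k2⟩ := (C.ub_Bc' H hm h R).uj
  obtain ⟨d3, a3, k3⟩ := (C.ub_Bc H hm h R).uj
  have := a1 1
  have := a2 0
  have := a3 0
  refine ⟨d1 1 + d2 0 + d3 0, fun k => d1 k + d2 k, by linarith, fun k => by linarith [a1 k, a2 k],
    fun f f' w hf hf' hd hw => ⟨(k1 ⟨(f, f'), hf, hf', hd⟩ w hw).mono fun k => by linarith [a2 k],
    (k2 ⟨(f, f'), hf, hf', hd⟩ w hw).mono fun k => by linarith [a1 k],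
    (k2 ⟨(f, f'), hf, hf', hd⟩ w hw).norm_le.1.trans (by linarith), fun v => ?_,
    (k1 ⟨(f, f'), hf, hf', hd⟩ w hw).norm_le.2.trans (by linarith), fun v => ?_,
    C.MM_Tf' H hm hc hf hf' hw⟩⟩
  · conv_lhs => rw [← C.Bc_Bc H hm (h := h) hf hf' hw v]
    exact ContinuousLinearMap.le_of_opNorm_le _
      ((k3 ⟨(f, f'), hf, hf', hd⟩ w hw).norm_le.1.trans (by linarith)) _
  · conv_lhs => rw [← C.fderiv_Tf_symm H hm hf hf' hw v]
    exact ContinuousLinearMap.le_of_opNorm_le _ ((k1 ⟨(f', f), hf', hf, (C.dd_comm _ _).trans_le hd⟩ _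
      (C.Tf_symm H hm hf hf' hw).1).norm_le.2.trans (by linarith)) _

omit hm in
lemma nu_fg (hf : C.Frm f) (hg : C.Deck g) (hη : η ≠ 0) :
    C.nu α c (fg g f) (C.act g η) = C.nu α c f η := by
  funext q
  rw [nu, nu, C.aa_fg H α c hf hg hη, C.HH_fg H hf hg hη]

omit hm in
lemma lam_fg (hf : C.Frm f) (hg : C.Deck g) (hξ : ξ ≠ 0) :
    C.lam α c (fg g f) (C.act g ξ) = C.lam α c f ξ := by
  funext q
  rw [lam, lam, C.aa_fg H α c hf hg hξ, C.HH_fg H hf hg hξ]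

omit hm in
lemma MM_fg (hf : C.Frm f) (hg : C.Deck g) (hz : z ∈ C.Dm f) :
    C.MM α c (fg g f) z = C.MM α c f z := by
  rw [MM, MM, C.ge_fg H hf hg hz, C.nu_fg H hf hg (bas_ne0 (C.ge_GG H hf hz).2.1)]

lemma continuousOn_MM (hc : Co G h α c) : ContinuousOn (fun k : FF n N m × ZZ m => C.MM α c k.1 k.2)
    {k | C.Frm k.1 ∧ ‖k.2‖ ≤ 2 * C.rr m} := by
  have c0 : ContinuousOn (fun k : FF n N m × ZZ m => ((fp k.1, (C.ge k.1 k.2).2), k.2.1))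
      {k | C.Frm k.1 ∧ ‖k.2‖ ≤ 2 * C.rr m} :=
    (ContinuousOn.prodMk (by unfold fp; fun_prop) (((C.continuousOn_ge H).mono
      fun k hk => ⟨hk.1, C.Dm_of_le H hm hk.1 hk.2⟩).snd)).prodMk (by fun_prop)
  have c1 := (C.jc_aa H hm hc).continuousOn.comp c0 fun k hk =>
    ⟨hk.1.fp, C.back H hm hk.1 hk.2, (norm_fst_le _).trans hk.2⟩
  have c2 := (C.jc_HH (m := m) H).continuousOn.comp c0 fun k hk => (C.back H hm hk.1 hk.2).1
  exact contDiff_nu0.continuous.comp_continuousOn (c1.prodMk c2)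

end Cov

end Crest.Agent.N221
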