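import Crest.Agent.N221.Ex.UB
import Crest.Agent.N221.X.Camp

/-!
Row 221, block G0, the LADDER (helper10).  One chart `Q × P`, stable graphs `s x`, unstable graphs
`u y`, an affine defect `df z v = D z v - b z` that is smooth along the unstable graphs only.
Models: `A = F2 →L F1`, `D z w = w (M2 z)`, `b = M1`; or `A` = `r`-forms, `A' = (r-1)-forms × ℝ`,
`D z E = (i_M E, ψ E)`, `b = (0, 1)`.
`LS`: uniqueness of approximate relations on stable slices (`UQ`), good leaves at every level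
(`Fam`) and one approximate relation at arbitrarily small scales (`Start`) give a smooth exact
relation on an open set.
-/

set_option autoImplicit false

open Set Metric Filter Topology Real
open scoped ContDiff Nat

noncomputable section

namespace Crest.Agent.N221.G0.L

/-- Taylor polynomial of degree `≤ K` at `a` -/
def Ty {E V : Type} [NormedAddCommGroup E] [NormedSpace ℝ E] [NormedAddCommGroup V]
    [NormedSpace ℝ V] (K : ℕ) (w : E → V) (a z : E) : V :=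
  ∑ i ∈ Finset.range (K + 1), (i ! : ℝ)⁻¹ • iteratedFDeriv ℝ i w a (fun _ => z - a)

structure Box (Q P A A' X Y : Type) [NormedAddCommGroup A] [NormedSpace ℝ A]
    [NormedAddCommGroup A'] [NormedSpace ℝ A'] where
  R : ℝ
  Om : Set (Q × P)
  s : X → Q → P
  u : Y → Q → P
  D : Q × P → A →L[ℝ] A'
  b : Q × P → A'

namespace Box

variable {Q P A A' X Y : Type} [NormedAddCommGroup Q] [NormedSpace ℝ Q] [NormedAddCommGroup P]
  [NormedSpace ℝ P] [NormedAddCommGroup A] [NormedSpace ℝ A] [NormedAddCommGroup A']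
  [NormedSpace ℝ A'] (β : Box Q P A A' X Y)

def gs (x : X) (q : Q) : Q × P := (q, β.s x q)

def gu (y : Y) (q : Q) : Q × P := (q, β.u y q)

/-- the defect -/
def df (z : Q × P) (v : A) : A' := β.D z v - β.b z

structure Ok : Prop where
  sub : ∀ z ∈ β.Om, ‖z.1‖ < β.R / 2
  ubs : Ex.UB (fun _ : X => ball (0 : Q) β.R) β.s
  ubu : Ex.UB (fun _ : Y => ball (0 : Q) β.R) β.u
  ubD : Ex.UB (fun _ : Y => ball (0 : Q) β.R) fun y q => β.D (β.gu y q)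
  ubb : Ex.UB (fun _ : Y => ball (0 : Q) β.R) fun y q => β.b (β.gu y q)
  cov : ∀ z ∈ β.Om, ∃ x, β.s x z.1 = z.2
  cross : ∃ L δ : ℝ, 0 < δ ∧ ∀ z ∈ β.Om, ∃ y, β.u y z.1 = z.2 ∧ ∀ x, ‖β.s x z.1 - z.2‖ < δ →
    ∃ q, β.u y q = β.s x q ∧ ‖q - z.1‖ ≤ L * ‖β.s x z.1 - z.2‖

/-- approximate relation on the piece of the stable leaf `x` over `ball q ρ` -/
structure SR (N : ℕ) (x : X) (g : Q → A) (q : Q) (ρ ε B : ℝ) : Prop where
  pos : 0 < ρ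
  le : ρ ≤ 1
  one : 1 ≤ B
  sub : ∀ q' ∈ ball q ρ, β.gs x q' ∈ β.Om
  sm : ContDiffOn ℝ ∞ g (ball q ρ)
  df : ∀ q' ∈ ball q ρ, ‖β.df (β.gs x q') (g q')‖ ≤ ε
  bd : ∀ q' ∈ ball q ρ, ∀ i ≤ N, ‖iteratedFDeriv ℝ i g q'‖ ≤ B

/-- uniqueness of approximate relations (from NR) -/
def UQ (N a : ℕ) (θ : ℝ) : Prop := ∃ C : ℝ, ∀ x g g' q ρ ε B,
  β.SR N x g q ρ ε B → β.SR N x g' q ρ ε B → ‖g q - g' q‖ ≤ C * (B / ρ) ^ a * ε ^ θ

/-- the Taylor polynomial of degree `≤ K` of the defect of `w` along every unstable graph through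
`gs x q` is at most `τ` (`Fml.of_isBigO`, `Fml.of_jets` in `G0/LPoly`) -/
def Fml (x : X) (w : Q × P → A) (q : Q) (K : ℕ) (τ : ℝ) : Prop := ∀ y, β.u y q = β.s x q →
  ∀ q', ‖q' - q‖ ≤ 1 → ‖Ty K (fun t => β.df (β.gu y t) (w (β.gu y t))) q q'‖ ≤ τ

/-- a good leaf `x` of level `j`; `w` is its normalised relation, defined near the leaf over `O` -/
structure Good (N a : ℕ) (θ χ ε' : ℝ) (k : ℕ) (Λ c : ℝ) (K : ℕ) (A0 C : ℝ) (j : ℕ) (x : X)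
    (O : Set Q) (w : Q × P → A) : Prop where
  sm : ∀ q ∈ O, β.gs x q ∈ β.Om → ∀ᶠ z in 𝓝 (β.gs x q), ContDiffAt ℝ ∞ w z
  fml : ∀ q ∈ O, β.gs x q ∈ β.Om → ‖w (β.gs x q)‖ ≤ A0 →
    β.Fml x w q K (C * exp (-(χ * (K + 1) * j)))
  new : ∀ g q ρ ε B, β.SR N x g q ρ ε B → exp (-(χ * (K + 1) * j)) ≤ ε →
    C * (B * exp j / ρ) ^ a * ε ^ θ ≤ 1 →
    q ∈ O ∧ ‖w (β.gs x q) - g q‖ ≤ C * (B * exp j / ρ) ^ a * ε ^ θ
  crude : ∀ q ∈ O, β.gs x q ∈ β.Om → ‖w (β.gs x q)‖ ≤ A0 →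
    ‖iteratedFDeriv ℝ (k + 1) (fun t => w (β.gs x t)) q‖ ≤ C * exp (Λ * j)
  apr : ∀ q, (∀ q' ∈ ball q (exp (-(c * j))), β.gs x q' ∈ β.Om ∧ q' ∈ O ∧
      ‖w (β.gs x q')‖ ≤ A0 ∧ ∀ i ≤ k, ‖iteratedFDeriv ℝ i (fun t => w (β.gs x t)) q'‖ ≤ exp j) →
    ∀ i ≤ K + 1, ‖iteratedFDeriv ℝ i w (β.gs x q)‖ ≤ C * exp (ε' * (i + 1) * j)

/-- good leaves of order `K` pass near every point at every level -/
def Fam (N a : ℕ) (θ χ ε' : ℝ) (k : ℕ) (Λ c : ℝ) (K : ℕ) : Prop :=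
  ∀ A0 : ℝ, ∃ (C : ℝ) (j1 : ℕ), ∀ j, j1 ≤ j → ∀ z ∈ β.Om, ∃ x O w, ‖β.s x z.1 - z.2‖ ≤ C * exp (-(χ * j)) ∧
    β.Good N a θ χ ε' k Λ c K A0 C j x O w

/-- an approximate relation of order `n` at arbitrarily small scales -/
def Start (n : ℕ) : Prop := ∃ C : ℝ, ∀ ρ0 > 0, ∃ (ρ : ℝ) (z : Q × P) (g : Q × P → A),
  0 < ρ ∧ ρ < ρ0 ∧ ball z ρ ⊆ β.Om ∧ ContDiffOn ℝ ∞ g (ball z ρ) ∧ ∀ y ∈ ball z ρ,
    ‖β.df y (g y)‖ ≤ C * ρ ^ n ∧ ∀ i ≤ n, ‖iteratedFDeriv ℝ i g y‖ ≤ C / ρ ^ i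

/-- a smooth exact relation on an open set -/
def Out : Prop := ∃ (W : Set (Q × P)) (w : Q × P → A), IsOpen W ∧ W.Nonempty ∧ W ⊆ β.Om ∧
  ContDiffOn ℝ ∞ w W ∧ ∀ z ∈ W, β.D z (w z) = β.b z

end Box

/-- THE LADDER.  The box may depend on `n`; only the numbers before it have to be uniform. -/
def LS : Prop := ∀ (N a : ℕ) (θ χ : ℝ), 0 < θ → 0 < χ → ∃ ε' : ℝ, 0 < ε' ∧
  ∀ (k : ℕ) (Λ : ℝ) (c : ℕ → ℝ), (∀ K, 0 < c K) → ∃ n : ℕ,
  ∀ (Q P A A' X Y : Type) [NormedAddCommGroup Q] [NormedSpace ℝ Q] [NormedAddCommGroup P]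
    [NormedSpace ℝ P] [NormedAddCommGroup A] [NormedSpace ℝ A] [CompleteSpace A]
    [NormedAddCommGroup A'] [NormedSpace ℝ A'] [CompleteSpace A'] (β : Box Q P A A' X Y),
    β.Ok → β.UQ N a θ → (∀ K, β.Fam N a θ χ ε' k Λ (c K) K) → β.Start n → β.Out

end Crest.Agent.N221.G0.L
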