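import Crest.Agent.N221.G0.LStep

/-! Row 221, block G0/L: start, first run, limit, second run. -/

set_option autoImplicit false
set_option linter.unusedSectionVars false

open Set Metric Filter Topology Real
open scoped ContDiff Nat

namespace Crest.Agent.N221.G0.L

lemma exists_level {η ρ : ℝ} (hη : 0 < η) (hρ : 0 < ρ) {J : ℕ} (h : ρ ≤ exp (-η * J)) :
    ∃ j : ℕ, J ≤ j ∧ exp (-η * (j + 1 : ℕ)) < ρ ∧ ρ ≤ exp (-η * j) := by
  have h1 : (J : ℝ) ≤ -log ρ / η := by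
    rw [le_div_iff₀ hη]; linarith [(log_le_iff_le_exp hρ).2 h]
  have h2 := Nat.floor_le (J.cast_nonneg.trans h1)
  have h3 := Nat.lt_floor_add_one (-log ρ / η)
  rw [le_div_iff₀ hη] at h2
  rw [div_lt_iff₀ hη] at h3
  exact ⟨⌊-log ρ / η⌋₊, Nat.le_floor h1, (lt_log_iff_exp_lt hρ).1 (by push_cast; linarith),
    (log_le_iff_le_exp hρ).1 (by linarith)⟩

lemma al_nonneg {χ ε' : ℝ} (hχ : 0 < χ) (h : 4 * ε' ≤ χ) (K : ℕ) : 0 ≤ al χ ε' K := by
  have : (0 : ℝ) ≤ K := K.cast_nonneg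
  unfold al; nlinarith

namespace Box

variable {Q P A A' X Y : Type} [NormedAddCommGroup Q] [NormedSpace ℝ Q] [NormedAddCommGroup P]
  [NormedSpace ℝ P] [NormedAddCommGroup A] [NormedSpace ℝ A] [NormedAddCommGroup A']
  [NormedSpace ℝ A'] {β : Box Q P A A' X Y} {N a k K n : ℕ} {θ χ ε' η : ℝ}

lemma Lv.mono {C C' : ℝ} {j : ℕ} {p : Q × P} {G : Q × P → A} (h : β.Lv N χ ε' K C j p G)
    (hC : C ≤ C') : β.Lv N χ ε' K C' j p G :=
  ⟨h.poly, h.ar.mono h.ar.pos h.ar.le subset_rfl (by gcongr) (by gcongr)⟩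

set_option maxHeartbeats 800000 in
lemma Ok.start [CompleteSpace A] (h : β.Ok) (hη : 0 < η) (h1 : η ≤ ε') (h2 : η < χ / 2)
    (h3 : η * (k + 1) < 1 / 2) (h4 : al χ ε' K ≤ η * n) (h5 : K + 1 ≤ n) (hS : β.Start n) :
    ∃ C a0 : ℝ, 1 ≤ C ∧ ∀ J : ℕ, ∃ j, J ≤ j ∧ ∃ (z : Q × P) (ρ : ℝ), exp (-η * (j + 1 : ℕ)) < ρ ∧
      ∀ p ∈ ball z (ρ / 2), ∃ G, β.Lv N χ ε' K C j p G ∧ ∀ y ∈ ball p (rho χ j), ‖G y‖ ≤ a0 ∧
        ∀ i ≤ k + 1, ‖iteratedFDeriv ℝ i G y‖ ≤ exp (1 / 2 * j) - 1 := by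
  obtain ⟨C0', hS⟩ := hS
  obtain ⟨C0, hC0, hC0'⟩ : ∃ C0 : ℝ, 1 ≤ C0 ∧ C0' ≤ C0 := ⟨_, le_max_right _ _, le_max_left _ _⟩
  obtain ⟨c0, hc0, hD⟩ := h.norm_D
  obtain ⟨Cp, hCp, hp⟩ := poly_jets K
  set C1 := Cp * ((K + 1) * C0) with hC1
  have q1 : 0 ≤ c0 * (C0 * (4 * exp η) ^ (K + 1)) := by positivity
  have q2 : 0 ≤ C1 * (2 * exp η) ^ K := by positivity
  refine ⟨C0 + c0 * (C0 * (4 * exp η) ^ (K + 1)) + C1 * (2 * exp η) ^ K, (K + 1) * C0,
    by linarith, fun J => ?_⟩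
  obtain ⟨J1, hJ1⟩ := eventually_atTop.1 ((ev 4 (show 0 < exp (-η) / 2 by positivity)
    (show -(χ / 2) < -η by linarith)).and ((ev (C1 * (2 * exp η) ^ (k + 1)) one_half_pos h3).and
      (ev 1 one_half_pos (show (0 : ℝ) < 1 / 2 by norm_num))))
  obtain ⟨ρ, z, g, ρ0, ρ1, hsub, hg, hb⟩ := hS _ (exp_pos (-η * (max J J1 : ℕ)))
  obtain ⟨j, hj, l1, l2⟩ := exists_level hη ρ0 ρ1.le
  obtain ⟨e1, e2, e3⟩ := hJ1 j (le_of_max_le_right hj)
  refine ⟨j, le_of_max_le_left hj, z, ρ, l1, fun p hpz => ?_⟩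
  have j0 : (0 : ℝ) ≤ j := j.cast_nonneg
  have K0 : (0 : ℝ) ≤ K := K.cast_nonneg
  have r0 := rho_pos χ j
  have l3 : exp (-η) * exp (-η * j) < ρ := by
    rw [← exp_add]; refine lt_of_eq_of_lt ?_ l1; push_cast; ring_nf
  have l4 : 4 * rho χ j ≤ ρ / 2 := by unfold rho; linarith
  have l5 : ρ ≤ 1 := l2.trans (exp_le_one_iff.2 (by nlinarith))
  have l6 : 1 / ρ ≤ exp η * exp (η * j) := by
    rw [div_le_iff₀ ρ0]
    calc (1 : ℝ) = exp η * exp (η * j) * (exp (-η) * exp (-η * j)) := by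
          simp only [← exp_add]; ring_nf; simp
      _ ≤ _ := by gcongr
  have s1 : ball p (ρ / 2) ⊆ ball z ρ := ball_subset_ball' (by rw [mem_ball] at hpz; linarith)
  have s2 : ball p (4 * rho χ j) ⊆ ball p (ρ / 2) := ball_subset_ball l4
  have b1 : ∀ y ∈ ball z ρ, ∀ i ≤ n, ‖iteratedFDeriv ℝ i g y‖ ≤ C0 / ρ ^ i := fun y hy i hi =>
    ((hb y hy).2 i hi).trans (by gcongr)
  have mp := s1 (mem_ball_self (by positivity))
  have b2 : ∀ y ∈ ball p (2 * (ρ / 2)), ‖Ty K g p y‖ ≤ (K + 1) * C0 := fun y hy => by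
    have a1 := Ty_sub_self (K := K) (w := g) (a := p) (z := y) (δ := C0) fun i hi => by
      have : ‖y - p‖ ≤ ρ := by rw [mem_ball_iff_norm] at hy; linarith
      calc _ ≤ C0 / ρ ^ (i + 1) * ρ ^ (i + 1) := by gcongr; exact b1 p mp _ (by omega)
        _ = C0 := by field_simp
    have a2 := b1 p mp 0 (by omega)
    rw [norm_iteratedFDeriv_zero, pow_zero, div_one] at a2
    linarith [norm_le_norm_add_norm_sub' (Ty K g p y) (g p)]
  have b3 : ∀ y ∈ ball p (ρ / 2), ∀ m i, i ≤ m →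
      ‖iteratedFDeriv ℝ i (Ty K g p) y‖ ≤ C1 * (2 * exp η) ^ m * exp (η * m * j) := by
    intro y hy m i hi
    refine (hp _ A _ p (ρ / 2) _ (poly_Ty K g p) (by positivity) b2 i y hy).trans ?_
    have a1 : 1 ≤ 1 / ρ := by rw [le_div_iff₀ ρ0]; linarith
    calc _ = C1 * (2 * (1 / ρ)) ^ i := by rw [hC1, mul_one_div, div_pow, div_pow]; field_simp
      _ ≤ C1 * (2 * (1 / ρ)) ^ m := by gcongr; linarith
      _ ≤ C1 * (2 * (exp η * exp (η * j))) ^ m := by gcongr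
      _ = _ := by rw [← mul_assoc 2, mul_pow, ← exp_nat_mul, mul_assoc C1]; ring_nf
  have be1 : η * K ≤ be ε' K := by unfold be; nlinarith
  have x1 : 1 ≤ exp (be ε' K * j) := one_le_exp (by nlinarith [mul_nonneg hη.le K0])
  refine ⟨Ty K g p, ⟨poly_Ty K g p, by positivity, by linarith,
    one_le_mul_of_one_le_of_one_le (by linarith) x1, (s2.trans s1).trans hsub, (poly_Ty K g p).sm,
    fun y hy => ?_, fun y hy i _ => ?_⟩, fun y hy => ⟨b2 y (ball_subset_ball (by linarith) hy),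
      fun i hi => (b3 y (ball_subset_ball (by linarith) hy) (k + 1) i hi).trans ?_⟩⟩
  · have my := s1 (s2 hy)
    have a1 := Ty_rem (K := K) (hg.mono s1) (fun y hy => b1 y (s1 hy) _ h5) (s2 hy)
    have a2 : C0 / ρ ^ (K + 1) * ‖y - p‖ ^ (K + 1) ≤
        C0 * (4 * exp η) ^ (K + 1) * exp (-al χ ε' K * j) := by
      calc _ = C0 * (‖y - p‖ * (1 / ρ)) ^ (K + 1) := by rw [mul_one_div, div_pow]; field_simp
        _ ≤ C0 * (4 * rho χ j * (exp η * exp (η * j))) ^ (K + 1) := by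
          gcongr; exact (mem_ball_iff_norm.1 hy).le
        _ = C0 * (4 * exp η) ^ (K + 1) * exp ((η - χ / 2) * (K + 1) * j) := by
          rw [rho, mul_mul_mul_comm, ← exp_add, mul_pow _ (exp _), ← exp_nat_mul, mul_assoc C0]
          push_cast; ring_nf
        _ ≤ _ := by gcongr; unfold al; nlinarith
    have a3 : C0' * ρ ^ n ≤ C0 * exp (-al χ ε' K * j) := by
      calc _ ≤ C0 * exp (-η * j) ^ n := by gcongr
        _ ≤ _ := by rw [← exp_nat_mul]; gcongr C0 * exp ?_; nlinarith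
    have e : β.df y (Ty K g p y) = β.df y (g y) - β.D y (g y - Ty K g p y) := by
      simp only [df, map_sub]; abel
    have a4 := ((β.D y).le_of_opNorm_le (hD y (hsub my)) _).trans
      (mul_le_mul_of_nonneg_left (a1.trans a2) (by linarith))
    rw [e]
    linarith only [norm_sub_le (β.df y (g y)) (β.D y (g y - Ty K g p y)), a4, a3, (hb y my).1,
      mul_nonneg q2 (exp_pos (-al χ ε' K * j)).le]
  · rcases lt_or_ge K i with hi | hi
    · rw [(poly_Ty K g p).zero' hi, norm_zero]; positivity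
    · refine (b3 y (s2 hy) K i hi).trans ?_
      gcongr; linarith
  · push_cast
    simp only [zero_mul, exp_zero] at e3
    linarith

lemma Ok.cmpL (h : β.Ok) (hU : β.UQ N a θ) (hχ : 0 < χ) (hε : 0 < ε') (hε' : 4 * ε' ≤ χ) (K : ℕ)
    {C : ℝ} (hC : 1 ≤ C) : ∃ C2 : ℝ, 0 ≤ C2 ∧ ∀ (j i i' : ℕ) (p p' z : Q × P) (G G' : Q × P → A)
      (r : ℝ), j ≤ i → i ≤ j + 1 → j ≤ i' → i' ≤ j + 1 → β.Lv N χ ε' K C i p G →
      β.Lv N χ ε' K C i' p' G' → rho χ (j + 1) ≤ r → r ≤ 1 → ball z r ⊆ ball p (4 * rho χ i) →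
      ball z r ⊆ ball p' (4 * rho χ i') →
      ∀ y ∈ ball z (r / 2), ‖G y - G' y‖ ≤ C2 * exp (-mm a θ χ ε' K * j) := by
  obtain ⟨Cc, hCc, hc⟩ := h.cmp hU
  refine ⟨Cc * ((C * exp (be ε' K) * exp (χ / 2)) ^ a * C ^ θ), by positivity,
    fun j i i' p p' z G G' r a1 a2 a3 a4 hG hG' r1 r2 s1 s2 y hy => ?_⟩
  have al0 := al_nonneg hχ hε' K
  have be0 : 0 ≤ be ε' K := by unfold be; positivity
  have r0 := rho_pos χ (j + 1)
  have j0 : (0 : ℝ) ≤ j := j.cast_nonneg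
  have key : ∀ (i : ℕ) (p : Q × P) (G : Q × P → A), j ≤ i → i ≤ j + 1 → β.Lv N χ ε' K C i p G →
      ball z r ⊆ ball p (4 * rho χ i) →
      β.AR N G z r (C * exp (-al χ ε' K * j)) (C * exp (be ε' K * (j + 1))) := by
    intro i p G b1 b2 hG s
    have c1 : (j : ℝ) ≤ i := by exact_mod_cast b1
    have c2 : (i : ℝ) ≤ j + 1 := by exact_mod_cast b2
    exact hG.ar.mono (r0.trans_le r1) r2 s (by gcongr C * exp ?_; nlinarith) (by gcongr)
  refine (hc _ _ _ _ _ _ (key i p G a1 a2 hG s1) (key i' p' G' a3 a4 hG' s2) y hy).trans ?_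
  have b1 : C * exp (be ε' K * (j + 1)) / r ≤
      C * exp (be ε' K) * exp (χ / 2) * exp ((be ε' K + 1 + χ / 2) * j) := by
    calc _ ≤ C * exp (be ε' K * (j + 1)) / rho χ (j + 1) := by gcongr
      _ = C * exp (be ε' K) * exp (χ / 2) * exp ((be ε' K + χ / 2) * j) := by
        rw [rho, mul_div_assoc, ← exp_sub, mul_assoc, mul_assoc, ← exp_add, ← exp_add]
        push_cast; ring_nf
      _ ≤ _ := by gcongr; linarith
  have r3 := r0.trans_le r1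
  rw [mul_assoc, mul_assoc Cc, mm, ← num (by linarith)]
  gcongr

lemma Ok.lim [CompleteSpace A] (h : β.Ok) (hU : β.UQ N a θ) (hχ : 0 < χ) (hε : 0 < ε')
    (hε' : 4 * ε' ≤ χ) (hm : 0 < mm a θ χ ε' K) {C : ℝ} (hC : 1 ≤ C) : ∃ C3 : ℝ, 0 ≤ C3 ∧
    ∀ (j0 : ℕ) (p : Q × P) (G : ℕ → Q × P → A), (∀ j, j0 ≤ j → β.Lv N χ ε' K C j p (G j)) →
      ∃ v, Tendsto (fun j => G j p) atTop (𝓝 v) ∧
        ∀ j, j0 ≤ j → ‖G j p - v‖ ≤ C3 * exp (-mm a θ χ ε' K * j) := by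
  obtain ⟨C2, hC2, hc⟩ := h.cmpL hU hχ hε hε' K hC
  set m := mm a θ χ ε' K
  have r1 : exp (-m) < 1 := exp_lt_one_iff.2 (by linarith)
  have r2 : 0 < 1 - exp (-m) := by linarith
  refine ⟨C2 / (1 - exp (-m)), by positivity, fun j0 p G hG => ?_⟩
  have hu : ∀ i : ℕ, dist (G (i + j0) p) (G (i + 1 + j0) p) ≤ C2 * exp (-m * j0) * exp (-m) ^ i := by
    intro i
    have a1 := hG (i + j0 + 1) (by omega)
    have a2 := hc (i + j0) _ _ p p p _ _ _ le_rfl (by omega) (by omega) le_rfl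
      (hG (i + j0) (by omega)) a1 (by linarith [rho_pos χ (i + j0 + 1)]) a1.ar.le
      (ball_subset_ball (by linarith [rho_anti hχ (Nat.le_succ (i + j0))])) subset_rfl p
      (mem_ball_self (by linarith [a1.ar.pos]))
    rw [dist_eq_norm, Nat.add_right_comm]
    refine a2.trans_eq ?_
    rw [← exp_nat_mul, mul_assoc, ← exp_add]; push_cast; ring_nf
  obtain ⟨v, hv⟩ := cauchySeq_tendsto_of_complete
    (cauchySeq_of_le_geometric (f := fun i => G (i + j0) p) _ _ r1 hu)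
  refine ⟨v, (tendsto_add_atTop_iff_nat j0).1 hv, fun j hj => ?_⟩
  obtain ⟨i, rfl⟩ := Nat.exists_eq_add_of_le' hj
  have := dist_le_of_le_geometric_of_tendsto (f := fun i => G (i + j0) p) _ _ r1 hu hv i
  rw [dist_eq_norm] at this
  refine this.trans_eq ?_
  rw [← exp_nat_mul, mul_assoc, ← exp_add, div_mul_eq_mul_div]; push_cast; ring_nf

set_option maxHeartbeats 800000 in
/-- the first run -/
lemma Ok.first [CompleteSpace A] [CompleteSpace A'] (h : β.Ok) (hR : 0 < β.R) (hU : β.UQ N a θ)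
    {Λ c c' : ℝ} (hχ : 0 < χ) (hε : 0 < ε') (hε' : 4 * ε' ≤ χ) (h1 : c' < c) (h2 : c' < χ / 2)
    (hm : (k + 2) * (|Λ| + χ + 2) ≤ mm a θ χ ε' K) (hF : β.Fam N a θ χ ε' k Λ c K)
    (hη : 0 < η) (g1 : η ≤ ε') (g2 : η < c') (g3 : η * (k + 1) < 1 / 2) (g4 : al χ ε' K ≤ η * n)
    (g5 : K + 1 ≤ n) (hS : β.Start n) :
    ∃ (C A0 A1 r : ℝ) (j0 : ℕ) (z : Q × P), 1 ≤ C ∧ 0 < r ∧ A1 ≤ exp (1 / 2 * j0) ∧
      ∀ j, j0 ≤ j → ∀ p ∈ ball z r, ∃ G, β.Lv N χ ε' K C j p G ∧ ∀ y ∈ ball p (rho χ j),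
        ‖G y‖ ≤ A0 ∧ ∀ i ≤ k + 1, ‖iteratedFDeriv ℝ i G y‖ ≤ A1 := by
  obtain ⟨Cs, a0, hCs, hs⟩ := h.start (N := N) hη g1 (g2.trans h2) g3 g4 g5 hS
  obtain ⟨C', hC', hst⟩ := h.step hR hχ hε hε' h1 h2 le_rfl hm hF (a0 + 1)
  have hC : 1 ≤ max Cs C' := le_max_of_le_left hCs
  obtain ⟨C2, hC2, hc⟩ := h.cmpL hU hχ hε hε' K hC
  obtain ⟨Cp, hCp, hp⟩ := poly_jets K
  set m := mm a θ χ ε' K
  have c0 : 0 < c' := hη.trans g2
  have d0 : 0 < 1 - exp (-c') := sub_pos.2 (exp_lt_one_iff.2 (by linarith))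
  have d1 : 0 < 1 - exp (-1) := sub_pos.2 (exp_lt_one_iff.2 (by norm_num))
  have k0 : (0 : ℝ) ≤ k := k.cast_nonneg
  have Λ0 := abs_nonneg Λ
  obtain ⟨J, hJ⟩ := eventually_atTop.1 ((hst _ hC).and
    ((ev (1 - exp (-c'))⁻¹ (show 0 < exp (-η) / 4 by positivity) (show -c' < -η by linarith)).and
    ((ev C2 d1 (show -m < -1 by nlinarith)).and
    (ev (Cp * C2 * exp ((k + 1) * (χ / 2))) d1 (show -m + (k + 1) * (χ / 2) < -1 by nlinarith)))))
  obtain ⟨j0, hj0, z, ρ, l1, hz⟩ := hs J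
  have ρ0 : 0 < ρ := (exp_pos _).trans l1
  have key : ∀ j, j0 ≤ j → ∀ p ∈ ball z (ρ / 4 + (1 - exp (-c'))⁻¹ * exp (-c' * j)),
      ∃ G, β.Lv N χ ε' K (max Cs C') j p G ∧ ∀ y ∈ ball p (rho χ j),
        ‖G y‖ ≤ a0 + 1 - exp (-1 * j) ∧
        ∀ i ≤ k + 1, ‖iteratedFDeriv ℝ i G y‖ ≤ exp (1 / 2 * j0) - exp (-1 * j) := by
    intro j hj
    induction j, hj using Nat.le_induction with
    | base =>
      intro p hp'
      have a1 := (hJ j0 hj0).2.1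
      have a2 : exp (-η) * exp (-η * j0) < ρ := by
        rw [← exp_add]; refine lt_of_eq_of_lt ?_ l1; push_cast; ring_nf
      have a3 : exp (-1 * (j0 : ℝ)) ≤ 1 := exp_le_one_iff.2 (by linarith [j0.cast_nonneg (α := ℝ)])
      obtain ⟨G, b1, b2⟩ := hz p (ball_subset_ball (by linarith) hp')
      exact ⟨G, b1.mono (le_max_left _ _), fun y hy => ⟨by linarith [(b2 y hy).1],
        fun i hi => by linarith [(b2 y hy).2 i hi]⟩⟩
    | succ j hj ih =>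
      intro p hp'
      obtain ⟨e1, -, e2, e3⟩ := hJ j (hj0.trans hj)
      choose! G hG using ih
      have eJ : ((j + 1 : ℕ) : ℝ) = j + 1 := by push_cast; ring
      have s1 : ball p (exp (-c' * j)) ⊆ ball z (ρ / 4 + (1 - exp (-c'))⁻¹ * exp (-c' * j)) := by
        refine ball_subset_ball' ?_
        have : (1 - exp (-c'))⁻¹ * exp (-c' * j) =
            exp (-c' * j) + (1 - exp (-c'))⁻¹ * exp (-c' * (j + 1 : ℕ)) := by
          rw [eJ, mul_add (-c'), exp_add, mul_one]; field_simp; ring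
        rw [mem_ball] at hp'; linarith
      have x1 := exp_pos (-1 * (j : ℝ))
      have x2 : (j0 : ℝ) ≤ j := by exact_mod_cast hj
      obtain ⟨G', b1, -⟩ := e1 p G (exp (1 / 2 * j0)) (exp_le_exp.2 (by linarith)) fun p' hp'' =>
        ⟨(hG p' (s1 hp'')).1, fun y hy => ⟨by linarith [((hG p' (s1 hp'')).2 y hy).1],
          fun i hi => by linarith [((hG p' (s1 hp'')).2 y hy).2 i hi]⟩⟩
      have hp0 := hG p (s1 (mem_ball_self (exp_pos _)))
      have b2 := b1.mono (le_max_right Cs C')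
      have r0 := rho_pos χ (j + 1)
      have r1 := rho_anti hχ (Nat.le_succ j)
      have b3 := hc j _ _ p p p _ _ _ (Nat.le_succ j) le_rfl le_rfl (Nat.le_succ j) b2 hp0.1
        (by linarith) b2.ar.le subset_rfl (ball_subset_ball (by linarith))
      have x3 : (1 - exp (-1)) * exp (-1 * (j : ℝ)) = exp (-1 * j) - exp (-1 * (j + 1 : ℕ)) := by
        rw [eJ, mul_add, exp_add]; ring_nf
      refine ⟨G', b2, fun y hy => ⟨?_, fun i hi => ?_⟩⟩
      · linarith [b3 y (ball_subset_ball (by linarith) hy), (hp0.2 y (ball_subset_ball r1 hy)).1,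
          norm_le_norm_add_norm_sub' (G' y) (G p y)]
      have b4 := hp _ A _ p _ _ (b2.poly.sub hp0.1.poly) r0
        (fun y hy => b3 y (ball_subset_ball (by linarith) hy)) i y hy
      have b5 : Cp * (C2 * exp (-m * j)) / rho χ (j + 1) ^ i ≤
          Cp * C2 * exp ((k + 1) * (χ / 2)) * exp ((-m + (k + 1) * (χ / 2)) * j) := by
        refine (div_le_div_of_nonneg_left (by positivity) (pow_pos r0 (k + 1))
          (pow_le_pow_of_le_one r0.le (by linarith [b2.ar.le]) hi)).trans_eq ?_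
        rw [rho, ← exp_nat_mul, ← mul_assoc, mul_div_assoc, ← exp_sub, mul_assoc (Cp * C2), ← exp_add]
        push_cast; ring_nf
      rw [fun_iteratedFDeriv_sub_apply (b2.poly.sm.contDiffAt.of_le (li _))
        (hp0.1.poly.sm.contDiffAt.of_le (li _))] at b4
      linarith [(hp0.2 y (ball_subset_ball r1 hy)).2 i hi,
        norm_le_norm_add_norm_sub' (iteratedFDeriv ℝ i G' y) (iteratedFDeriv ℝ i (G p) y)]
  refine ⟨_, a0 + 1, _, ρ / 4, j0, z, hC, by positivity, le_rfl, fun j hj p hp' => ?_⟩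
  obtain ⟨G, b1, b2⟩ := key j hj p (ball_subset_ball (le_add_of_nonneg_right (by positivity)) hp')
  have x1 := exp_pos (-1 * (j : ℝ))
  exact ⟨G, b1, fun y hy => ⟨by linarith [(b2 y hy).1], fun i hi => by linarith [(b2 y hy).2 i hi]⟩⟩

end Box

end Crest.Agent.N221.G0.L
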