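import Crest.Agent.N221.G0.LTay

/-! Row 221, block G0/L: one step of the ladder. -/

set_option autoImplicit false
set_option linter.unusedSectionVars false

open Set Metric Filter Topology Real
open scoped ContDiff Nat

namespace Crest.Agent.N221.G0.L

noncomputable def rho (χ : ℝ) (j : ℕ) : ℝ := exp (-(χ / 2) * j)

noncomputable def al (χ ε' : ℝ) (K : ℕ) : ℝ := χ / 2 * (K + 1) - ε' * (K + 2)

noncomputable def be (ε' : ℝ) (K : ℕ) : ℝ := ε' * (K + 2)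

noncomputable def mm (a : ℕ) (θ χ ε' : ℝ) (K : ℕ) : ℝ :=
  θ * al χ ε' K - a * (be ε' K + 1 + χ / 2)

lemma rho_pos (χ : ℝ) (j : ℕ) : 0 < rho χ j := exp_pos _

lemma rho_anti {χ : ℝ} (hχ : 0 < χ) {i j : ℕ} (h : i ≤ j) : rho χ j ≤ rho χ i := by
  have : (i : ℝ) ≤ j := by exact_mod_cast h
  exact exp_le_exp.2 (by nlinarith)

lemma ev (C : ℝ) {η s t : ℝ} (hη : 0 < η) (h : s < t) :
    ∀ᶠ j : ℕ in atTop, C * exp (s * j) ≤ η * exp (t * j) := by
  have h1 : Tendsto (fun j : ℕ => C * exp ((s - t) * j)) atTop (𝓝 (C * 0)) :=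
    (tendsto_exp_atBot.comp (tendsto_natCast_atTop_atTop.const_mul_atTop_of_neg
      (sub_neg.2 h))).const_mul C
  rw [mul_zero] at h1
  filter_upwards [h1.eventually (gt_mem_nhds hη)] with j hj
  calc C * exp (s * j) = C * exp ((s - t) * j) * exp (t * j) := by
        rw [mul_assoc, ← exp_add]; ring_nf
    _ ≤ _ := by gcongr

lemma ev1 (C : ℝ) {η s t : ℝ} (hη : 0 < η) (h : s < t) :
    ∀ᶠ j : ℕ in atTop, C * exp (s * (j + 1 : ℕ)) ≤ η * exp (t * (j + 1 : ℕ)) :=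
  (tendsto_add_atTop_nat 1).eventually (ev C hη h)

lemma num {C1 C2 : ℝ} (h2 : 0 ≤ C2) (γ α θ t : ℝ) (a : ℕ) :
    (C1 * exp (γ * t)) ^ a * (C2 * exp (-α * t)) ^ θ =
      C1 ^ a * C2 ^ θ * exp (-(θ * α - a * γ) * t) := by
  rw [mul_pow, mul_rpow h2 (exp_pos _).le, ← exp_mul, ← exp_nat_mul, mul_mul_mul_comm, ← exp_add]
  ring_nf

namespace Box

variable {Q P A A' X Y : Type} [NormedAddCommGroup Q] [NormedSpace ℝ Q] [NormedAddCommGroup P]
  [NormedSpace ℝ P] [NormedAddCommGroup A] [NormedSpace ℝ A] [NormedAddCommGroup A']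
  [NormedSpace ℝ A'] {β : Box Q P A A' X Y}

/-- a polynomial prediction of level `j` at `p` -/
structure Lv (β : Box Q P A A' X Y) (N : ℕ) (χ ε' : ℝ) (K : ℕ) (C : ℝ) (j : ℕ) (p : Q × P)
    (G : Q × P → A) : Prop where
  poly : Poly K G
  ar : β.AR N G p (4 * rho χ j) (C * exp (-al χ ε' K * j)) (C * exp (be ε' K * j))

set_option maxHeartbeats 1600000 in
lemma Ok.step [CompleteSpace A] [CompleteSpace A'] (h : β.Ok) (hR : 0 < β.R) {N a k K0 K : ℕ}
    {θ χ ε' Λ c c' : ℝ} (hχ : 0 < χ) (hε : 0 < ε') (hε' : 4 * ε' ≤ χ) (h1 : c' < c)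
    (h2 : c' < χ / 2) (hK : K0 ≤ K) (hm : (k + 2) * (|Λ| + χ + 2) ≤ mm a θ χ ε' K0)
    (hF : β.Fam N a θ χ ε' k Λ c K) (A0 : ℝ) :
    ∃ C' : ℝ, 1 ≤ C' ∧ ∀ C : ℝ, 1 ≤ C → ∀ᶠ j : ℕ in atTop,
      ∀ (p : Q × P) (G : Q × P → Q × P → A) (A1 : ℝ), A1 ≤ exp (1 / 2 * j) →
      (∀ p' ∈ ball p (exp (-c' * j)), β.Lv N χ ε' K0 C j p' (G p') ∧ ∀ y ∈ ball p' (rho χ j),
        ‖G p' y‖ ≤ A0 ∧ ∀ i ≤ k + 1, ‖iteratedFDeriv ℝ i (G p') y‖ ≤ A1) →
      ∃ G', β.Lv N χ ε' K C' (j + 1) p G' ∧ ‖G' p - G p p‖ ≤ C' * (1 + A1) * rho χ j := by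
  obtain ⟨CF0, jF, hF⟩ := hF (A0 + 1)
  obtain ⟨L, Cs, hL, hCs, hsl⟩ := h.slice N
  obtain ⟨Ls, hLs, hs⟩ := ub_lip h.ubgs
  obtain ⟨Ck, hCk, hck⟩ := ub_comp h.ubgs (k + 1)
  obtain ⟨Ci, hCi, hi⟩ := N221.X.int_all (k + 1)
  obtain ⟨CT, LT, δT, hCT, hLT, hδT, hT⟩ := h.tay hR N K
  obtain ⟨CF, hCF, hCF0⟩ : ∃ CF : ℝ, 1 ≤ CF ∧ CF0 ≤ CF := ⟨_, le_max_right _ _, le_max_left _ _⟩
  have p1 : 0 ≤ CT * CF * (4 ^ (K + 1) + 1) := by positivity
  have p2 : 0 ≤ K * CF ^ 2 := by positivity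
  refine ⟨CT * CF * (4 ^ (K + 1) + 1) + K * CF ^ 2 + 1, by linarith, fun C hC => ?_⟩
  set m := mm a θ χ ε' K0 with hmm
  set κ := |Λ| + χ + 2 with hκ
  have Λ0 := abs_nonneg Λ
  have k0 : (0 : ℝ) ≤ k := k.cast_nonneg
  have κ0 : 0 < κ := by positivity
  set Cδ := CF * ((Cs * C * exp 1 * L / 2) ^ a * C ^ θ) with hCδ
  have Cδ0 : 0 ≤ Cδ := by positivity
  filter_upwards [eventually_ge_atTop jF, ev Cδ one_pos (show -m < -(χ / 2) by nlinarith),
    ev Ls one_pos (show -κ < -(χ / 2) by linarith),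
    ev (Ci * Cδ) one_half_pos (show -m + k * κ < 0 by nlinarith),
    ev (Ci * (CF * exp |Λ| + Ck)) one_half_pos (show |Λ| + 1 + -κ < 0 by linarith),
    ev (Ck + 1) one_pos (show (1 : ℝ) / 2 < 1 by norm_num),
    ev (Ls * LT * 4) (show (0 : ℝ) < 1 / 4 by norm_num) (show -(χ / 2) < -c' by linarith),
    ev (Ls * exp (-c)) (show (0 : ℝ) < 1 / 4 by norm_num) (show -c < -c' by linarith),
    ev 1 (show (0 : ℝ) < 1 / 4 by norm_num) (show -(χ / 2) < -c' by linarith),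
    ev1 CF one_pos (show -χ < -(χ / 2) by linarith),
    ev1 4 hδT (show -(χ / 2) < 0 by linarith),
    ev1 CF one_pos (show ε' + -χ < 0 by linarith)] with j e1 e2 e3 e4 e5 e6 e7 e8 e9 e10 e11 e12
  intro p G A1 hA1 hG
  simp only [zero_mul, exp_zero, mul_one, one_mul] at e2 e3 e4 e5 e6 e9 e10 e11 e12
  have j0 : (0 : ℝ) ≤ j := j.cast_nonneg
  have eJ : ((j + 1 : ℕ) : ℝ) = j + 1 := by push_cast; ring
  change _ ≤ rho χ j at e2 e3
  change _ * rho χ j ≤ _ at e7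
  change rho χ j ≤ _ at e9
  change _ ≤ rho χ (j + 1) at e10
  change 4 * rho χ (j + 1) ≤ _ at e11
  have ρ0 := rho_pos χ j
  have ρ0' := rho_pos χ (j + 1)
  have ρ1 : rho χ (j + 1) < rho χ j := exp_lt_exp.2 (by rw [eJ]; linarith only [hχ])
  set col := exp (-c' * j) with hcol
  have col0 : 0 < col := exp_pos _
  have hp := hG p (mem_ball_self col0)
  have ρ2 : rho χ j ≤ 1 := by linarith [hp.1.ar.le]
  have A10 : 0 ≤ A1 := (norm_nonneg _).trans ((hp.2 p (mem_ball_self ρ0)).2 0 (by omega))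
  have sO : ball p col ⊆ β.Om := fun y hy => (hG y hy).1.ar.sub (mem_ball_self (by positivity))
  obtain ⟨x, O, w, hx, hw⟩ := hF (j + 1) (by omega) p (sO (mem_ball_self col0))
  set d := CF * exp (-χ * (j + 1 : ℕ)) with hd
  have n0 : ‖p - β.gs x p.1‖ ≤ d := by
    rw [norm_sub_rev, Prod.norm_def]
    simp only [gs, Prod.fst_sub, sub_self, norm_zero, Prod.snd_sub]
    rw [max_eq_right (norm_nonneg _)]
    refine hx.trans ?_
    rw [hd, neg_mul]; gcongr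
  have hA0 : ∀ p' ∈ ball p col, ∀ q, β.gs x q ∈ ball p' (rho χ j) →
      q ∈ O ∧ ‖w (β.gs x q) - G p' (β.gs x q)‖ ≤ Cδ * exp (-m * j) := by
    intro p' hp' q hq
    have a1 := hsl _ _ _ _ _ x q (hG p' hp').1.ar (ball_subset_ball (by linarith) hq)
    have a2 : CF0 * (Cs * (C * exp (be ε' K0 * j)) * exp (j + 1 : ℕ) / (4 * rho χ j / (2 * L))) ^ a *
        (C * exp (-al χ ε' K0 * j)) ^ θ ≤ Cδ * exp (-m * j) := by
      have : Cs * (C * exp (be ε' K0 * j)) * exp (j + 1 : ℕ) / (4 * rho χ j / (2 * L)) =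
          Cs * C * exp 1 * L / 2 * exp ((be ε' K0 + 1 + χ / 2) * j) := by
        rw [eJ, rho, neg_mul, exp_neg, add_mul, add_mul, exp_add, exp_add, exp_add, one_mul]
        field_simp; ring
      rw [this, mul_assoc, num (by linarith), hCδ, mul_assoc CF]
      exact mul_le_mul_of_nonneg_right hCF0 (by positivity)
    have a3 : exp (-(χ * (K + 1) * (j + 1 : ℕ))) ≤ C * exp (-al χ ε' K0 * j) := by
      refine le_trans (exp_le_exp.2 ?_) (le_mul_of_one_le_left (exp_pos _).le hC)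
      have b1 : (K0 : ℝ) ≤ K := by exact_mod_cast hK
      have b2 : (0 : ℝ) ≤ K0 := K0.cast_nonneg
      have b3 : al χ ε' K0 ≤ χ * (K + 1) := by unfold al; nlinarith only [b1, b2, hχ, hε]
      rw [eJ]; nlinarith only [b1, b2, b3, hχ, j0]
    have := hw.new _ q _ _ _ a1 a3 (a2.trans (e2.trans ρ2))
    exact ⟨this.1, this.2.trans a2⟩
  have hA : ∀ q, β.gs x q ∈ ball p col → β.gs x q ∈ β.Om ∧ q ∈ O ∧ ‖w (β.gs x q)‖ ≤ A0 + 1 ∧
      ∀ i ≤ k, ‖iteratedFDeriv ℝ i (fun t => w (β.gs x t)) q‖ ≤ exp (j + 1 : ℕ) := by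
    intro q hq
    have hc := hG _ hq
    set σ := exp (-κ * j) with hσ
    have σ0 : 0 < σ := exp_pos _
    have σ1 : σ ≤ rho χ j := (le_mul_of_one_le_left σ0.le hLs).trans e3
    have b0 : ∀ t ∈ ball q σ, t ∈ ball (0 : Q) β.R := fun t ht =>
      h.mem' hc.1.ar.sub ((mem_ball_iff_norm.1 ht).trans_le (by linarith))
    have b1 : ∀ t ∈ ball q σ, β.gs x t ∈ ball (β.gs x q) (rho χ j) := fun t ht => by
      rw [mem_ball_iff_norm]
      refine (hs x q (b0 q (mem_ball_self σ0)) t (b0 t ht)).trans_lt (lt_of_lt_of_le ?_ e3)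
      gcongr; exact mem_ball_iff_norm.1 ht
    have b2 : ∀ t ∈ ball q σ, β.gs x t ∈ β.Om := fun t ht =>
      hc.1.ar.sub (ball_subset_ball (by linarith) (b1 t ht))
    have b3 : ∀ t ∈ ball q σ, ‖w (β.gs x t)‖ ≤ A0 + 1 := fun t ht => by
      have := norm_le_norm_add_norm_sub' (w (β.gs x t)) (G (β.gs x q) (β.gs x t))
      linarith [(hA0 _ hq t (b1 t ht)).2, (hc.2 _ (b1 t ht)).1]
    have b4 : ∀ t ∈ ball q σ, ContDiffAt ℝ ∞ (fun t => w (β.gs x t)) t := fun t ht =>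
      (hw.sm t (hA0 _ hq t (b1 t ht)).1 (b2 t ht)).self_of_nhds.comp t (h.ubgs.at (b0 t ht))
    have b5 : ∀ t ∈ ball q σ, ContDiffAt ℝ ∞ (fun t => G (β.gs x q) (β.gs x t)) t := fun t ht =>
      hc.1.poly.sm.contDiffAt.comp t (h.ubgs.at (b0 t ht))
    have b6 : ∀ t ∈ ball q σ, ∀ i ≤ k + 1,
        ‖iteratedFDeriv ℝ i (fun t => G (β.gs x q) (β.gs x t)) t‖ ≤ Ck * A1 := fun t ht =>
      hck A _ A1 x t (b0 t ht) hc.1.poly.sm (hc.2 _ (b1 t ht)).2
    have hqσ := mem_ball_self (x := q) σ0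
    refine ⟨b2 q hqσ, (hA0 _ hq q (b1 q hqσ)).1, b3 q hqσ, fun i hik => ?_⟩
    have x1 : 1 ≤ exp (1 / 2 * (j : ℝ)) := one_le_exp (by positivity)
    have c1 := hi Q A (fun t => w (β.gs x t) - G (β.gs x q) (β.gs x t)) q σ (Cδ * exp (-m * j))
      ((CF * exp |Λ| + Ck) * exp ((|Λ| + 1) * j)) σ0
      (fun t ht => (((b4 t ht).sub (b5 t ht)).of_le (li _)).contDiffWithinAt)
      (fun t ht => (hA0 _ hq t (b1 t ht)).2) (fun t ht => by
        rw [fun_iteratedFDeriv_sub_apply ((b4 t ht).of_le (li _)) ((b5 t ht).of_le (li _))]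
        have c2 := hw.crude t (hA0 _ hq t (b1 t ht)).1 (b2 t ht) (b3 t ht)
        have c3 : CF0 * exp (Λ * (j + 1 : ℕ)) ≤ CF * exp |Λ| * exp ((|Λ| + 1) * j) := by
          rw [mul_assoc, ← exp_add, eJ]
          exact mul_le_mul hCF0 (exp_le_exp.2 (by nlinarith only [le_abs_self Λ, j0])) (exp_pos _).le
            (by linarith)
        have c4 : Ck * A1 ≤ Ck * exp ((|Λ| + 1) * j) :=
          mul_le_mul_of_nonneg_left (hA1.trans (exp_le_exp.2 (by nlinarith only [Λ0, j0]))) (by linarith)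
        linarith [norm_sub_le (iteratedFDeriv ℝ (k + 1) (fun t => w (β.gs x t)) t)
          (iteratedFDeriv ℝ (k + 1) (fun t => G (β.gs x q) (β.gs x t)) t), b6 t ht _ le_rfl])
      i (by omega) q (mem_ball_self (by positivity))
    have σ2 : σ ≤ 1 := σ1.trans ρ2
    have c5 : Cδ * exp (-m * j) / σ ^ i ≤ Cδ * exp ((-m + k * κ) * j) := by
      refine (div_le_div_of_nonneg_left (by positivity) (pow_pos σ0 k)
        (pow_le_pow_of_le_one σ0.le σ2 hik)).trans_eq ?_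
      rw [hσ, ← exp_nat_mul, mul_div_assoc, ← exp_sub]; ring_nf
    have c6 : (CF * exp |Λ| + Ck) * exp ((|Λ| + 1) * j) * σ ^ (k + 1 - i) ≤
        (CF * exp |Λ| + Ck) * exp ((|Λ| + 1 + -κ) * j) := by
      rw [add_mul (|Λ| + 1), exp_add, ← mul_assoc]
      gcongr
      exact pow_le_of_le_one σ0.le σ2 (by omega)
    have c7 : ‖iteratedFDeriv ℝ i (fun t => w (β.gs x t) - G (β.gs x q) (β.gs x t)) q‖ ≤ 1 := by
      refine c1.trans ((mul_le_mul_of_nonneg_left (add_le_add c5 c6) hCi.le).trans ?_)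
      linarith
    rw [fun_iteratedFDeriv_sub_apply ((b4 q hqσ).of_le (li _)) ((b5 q hqσ).of_le (li _))] at c7
    have c8 := norm_le_norm_add_norm_sub' (iteratedFDeriv ℝ i (fun t => w (β.gs x t)) q)
      (iteratedFDeriv ℝ i (fun t => G (β.gs x q) (β.gs x t)) q)
    have c9 : exp (j : ℝ) ≤ exp (j + 1 : ℕ) := exp_le_exp.2 (by rw [eJ]; linarith)
    have c10 : Ck * A1 ≤ Ck * exp (1 / 2 * j) := mul_le_mul_of_nonneg_left hA1 (by linarith)
    linarith [b6 q hqσ i (by omega)]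
  have hB : ∀ q, Ls * ‖q - p.1‖ ≤ col / 2 → β.gs x q ∈ ball p col := fun q hq => by
    have a0 : ‖q - p.1‖ ≤ Ls * ‖q - p.1‖ := le_mul_of_one_le_left (norm_nonneg _) hLs
    have a1 := hs x p.1 (h.mem (sO (mem_ball_self col0))) q (h.mem' sO (by linarith))
    have a2 := norm_sub_le_norm_sub_add_norm_sub (β.gs x q) (β.gs x p.1) p
    rw [norm_sub_rev] at n0
    rw [mem_ball_iff_norm]; linarith
  have hC1 : ∀ q ∈ ball p.1 (LT * (4 * rho χ (j + 1))), Ls * ‖q - p.1‖ ≤ col / 4 := fun q hq => by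
    have : ‖q - p.1‖ ≤ LT * (4 * rho χ j) :=
      (mem_ball_iff_norm.1 hq).le.trans (by gcongr)
    linarith only [mul_le_mul_of_nonneg_left this (zero_le_one.trans hLs), e7]
  have hJ : ∀ q ∈ ball p.1 (LT * (4 * rho χ (j + 1))), ∀ i ≤ K + 1,
      ‖iteratedFDeriv ℝ i w (β.gs x q)‖ ≤ CF * exp (ε' * (i + 1) * (j + 1 : ℕ)) := fun q hq i hi =>
    (hw.apr q (fun t ht => hA t (hB t (by
      have a1 := hC1 q hq
      have a2 := norm_sub_le_norm_sub_add_norm_sub t q p.1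
      have a3 : ‖t - q‖ ≤ exp (-c) * exp (-c * j) := (mem_ball_iff_norm.1 ht).le.trans_eq (by
        rw [eJ, ← exp_add]; ring_nf)
      linarith only [mul_le_mul_of_nonneg_left (a2.trans (add_le_add_left a3 _))
        (zero_le_one.trans hLs), a1, e8]))) i hi).trans (by gcongr)
  set M := CF * exp (be ε' K * (j + 1 : ℕ)) with hM
  have be0 : 0 ≤ be ε' K := by unfold be; positivity
  have M1 : 1 ≤ M := one_le_mul_of_one_le_of_one_le hCF (one_le_exp (by positivity))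
  have d0 : 0 < d := by positivity
  have hAR := hT x w p.1 p (4 * rho χ (j + 1)) M (CF * exp (-(χ * (K + 1) * (j + 1 : ℕ))))
    (by positivity) e11 M1 (by positivity) ((ball_subset_ball (by linarith)).trans hp.1.ar.sub)
    (by linarith) fun q hq => by
      have a1 := hA q (hB q (by linarith [hC1 q hq]))
      refine ⟨a1.1, hw.sm q a1.2.1 a1.1, fun y hy t ht =>
        (hw.fml q a1.2.1 a1.1 a1.2.2.1 y hy t ht).trans (by gcongr), fun i hi => (hJ q hq i hi).trans ?_⟩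
      have : (i : ℝ) ≤ K + 1 := by exact_mod_cast hi
      have a2 : ε' * (i + 1) ≤ be ε' K := mul_le_mul_of_nonneg_left (by linarith) hε.le
      rw [hM]; gcongr
  have x4 : (1 : ℝ) ≤ 4 ^ (K + 1) := one_le_pow₀ (by norm_num)
  refine ⟨_, ⟨poly_Ty K w _, hAR.mono hAR.pos hAR.le subset_rfl ?_ ?_⟩, ?_⟩
  · have a1 : M * (4 * rho χ (j + 1)) ^ (K + 1) = CF * 4 ^ (K + 1) * exp (-al χ ε' K * (j + 1 : ℕ)) := by
      rw [hM, mul_pow, rho, ← exp_nat_mul, mul_mul_mul_comm, ← exp_add, al, be]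
      push_cast; ring_nf
    have a2 : exp (-(χ * (K + 1) * (j + 1 : ℕ))) ≤ exp (-al χ ε' K * (j + 1 : ℕ)) := by
      have b2 : (0 : ℝ) ≤ K := K.cast_nonneg
      have b3 : al χ ε' K ≤ χ * (K + 1) := by unfold al; nlinarith only [b2, hχ, hε]
      exact exp_le_exp.2 (by rw [eJ]; nlinarith only [b3, j0])
    have a3 := exp_pos (-al χ ε' K * (j + 1 : ℕ))
    have a4 : CT * (CF * exp (-(χ * (K + 1) * (j + 1 : ℕ)))) ≤
      CT * (CF * exp (-al χ ε' K * (j + 1 : ℕ))) := by gcongr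
    rw [a1]
    linarith only [mul_nonneg p2 a3.le, a4, a3]
  · rw [hM, ← mul_assoc]
    gcongr
    have a1 : 0 ≤ CT * CF * 4 ^ (K + 1) := by positivity
    linarith only [a1, p2]
  · have m0 : β.gs x p.1 ∈ ball p (rho χ j) := by
      rw [mem_ball_iff_norm, norm_sub_rev]; linarith
    have a1 := (hA0 p (mem_ball_self col0) p.1 m0).2
    have a2 : ‖G p (β.gs x p.1) - G p p‖ ≤ A1 * ‖β.gs x p.1 - p‖ :=
      (convex_ball _ _).norm_image_sub_le_of_norm_fderiv_le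
        (fun u _ => hp.1.poly.sm.contDiffAt.differentiableAt (by simp))
        (fun u hu => (norm_iteratedFDeriv_one _).symm.trans_le ((hp.2 u hu).2 1 (by omega)))
        (mem_ball_self ρ0) m0
    have a3 : A1 * ‖β.gs x p.1 - p‖ ≤ A1 * rho χ j := by
      gcongr; exact (mem_ball_iff_norm.1 m0).le
    have a4 := Ty_sub_self (K := K) (w := w) (a := β.gs x p.1) (z := p) (δ := CF ^ 2 * rho χ j)
      fun i hi => by
        have b1 := hJ p.1 (mem_ball_self (by positivity)) (i + 1) (by omega)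
        have b2 : CF * exp (ε' * ((i + 1 : ℕ) + 1) * (j + 1 : ℕ)) * d ^ (i + 1) =
            CF ^ 2 * exp ((2 * ε' + -χ) * (j + 1 : ℕ)) * (CF * exp ((ε' + -χ) * (j + 1 : ℕ))) ^ i := by
          rw [hd, mul_pow, mul_pow, ← exp_nat_mul, ← exp_nat_mul, mul_mul_mul_comm, ← exp_add,
            mul_mul_mul_comm, ← exp_add]
          push_cast; ring_nf
        have b3 : exp ((2 * ε' + -χ) * (j + 1 : ℕ)) ≤ rho χ j :=
          exp_le_exp.2 (by rw [eJ]; nlinarith only [hε', hε, hχ, j0])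
        calc _ ≤ CF * exp (ε' * ((i + 1 : ℕ) + 1) * (j + 1 : ℕ)) * d ^ (i + 1) := by gcongr
          _ ≤ CF ^ 2 * rho χ j * 1 := by
            rw [b2]; gcongr; exact pow_le_one₀ (by positivity) e12
          _ = _ := mul_one _
    have a5 := norm_sub_le_norm_sub_add_norm_sub (Ty K w (β.gs x p.1) p) (w (β.gs x p.1)) (G p p)
    have a6 := norm_sub_le_norm_sub_add_norm_sub (w (β.gs x p.1)) (G p (β.gs x p.1)) (G p p)
    linarith only [mul_nonneg p1 ρ0.le, mul_nonneg (mul_nonneg p1 A10) ρ0.le,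
      mul_nonneg (mul_nonneg p2 A10) ρ0.le, a1, a2, a3, a4, a5, a6, e2]

end Box

end Crest.Agent.N221.G0.L
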