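import Crest.Agent.N221.G0.LPoly
import Crest.Agent.N221.G0.Ly

/-! Row 221, block G0/L: approximate relations on ambient balls; slices, comparison, and the Taylor
polynomial of a formal relation. -/

set_option autoImplicit false
set_option linter.unusedSectionVars false

open Set Metric Filter Topology Real
open scoped ContDiff Nat

namespace Crest.Agent.N221.G0.L

section
variable {ι E F V : Type} [NormedAddCommGroup E] [NormedSpace ℝ E] [NormedAddCommGroup F]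
  [NormedSpace ℝ F]

lemma ub_lip {R : ℝ} {γ : ι → E → F} (h : Ex.UB (fun _ => ball (0 : E) R) γ) : ∃ L : ℝ, 1 ≤ L ∧
    ∀ i, ∀ q ∈ ball (0 : E) R, ∀ q' ∈ ball (0 : E) R, ‖γ i q' - γ i q‖ ≤ L * ‖q' - q‖ := by
  obtain ⟨c, hc, hb⟩ := h.bdn 1
  exact ⟨c, hc, fun i q hq q' hq' => (convex_ball _ _).norm_image_sub_le_of_norm_fderiv_le
    (fun u hu => (h.at hu).differentiableAt (by simp))
    (fun u hu => (norm_iteratedFDeriv_one _).symm.trans_le (hb 1 le_rfl i u hu)) hq hq'⟩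

lemma ub_comp {U : ι → Set E} {γ : ι → E → F} (h : Ex.UB U γ) (n : ℕ) : ∃ C : ℝ, 1 ≤ C ∧
    ∀ (V : Type) [NormedAddCommGroup V] [NormedSpace ℝ V] (g : F → V) (B : ℝ) (i : ι), ∀ q ∈ U i,
      ContDiff ℝ ∞ g → (∀ m ≤ n, ‖iteratedFDeriv ℝ m g (γ i q)‖ ≤ B) →
      ∀ m ≤ n, ‖iteratedFDeriv ℝ m (fun t => g (γ i t)) q‖ ≤ C * B := by
  obtain ⟨D, hD, hb⟩ := h.bdn n
  have f1 : (1 : ℝ) ≤ n ! := by exact_mod_cast n.factorial_pos
  refine ⟨n ! * D ^ n, one_le_mul_of_one_le_of_one_le f1 (one_le_pow₀ hD),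
    fun V _ _ g B i q hq hg hB m hm => ?_⟩
  have B0 : 0 ≤ B := (norm_nonneg _).trans (hB 0 n.zero_le)
  rw [← iteratedFDerivWithin_of_isOpen m (h.op i) hq]
  refine (norm_iteratedFDerivWithin_comp_le (C := B) (D := D) hg.contDiffOn (h.sm i) (li m)
    uniqueDiffOn_univ (h.op i).uniqueDiffOn (mapsTo_univ _ _) hq (fun j hj => ?_)
    fun j h1 hj => ?_).trans ?_
  · rw [iteratedFDerivWithin_univ]; exact hB j (hj.trans hm)
  · rw [iteratedFDerivWithin_of_isOpen j (h.op i) hq]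
    exact (hb j (hj.trans hm) i q hq).trans (le_self_pow₀ hD (by omega))
  · rw [mul_right_comm]
    gcongr

end

namespace Box

variable {Q P A A' X Y : Type} [NormedAddCommGroup Q] [NormedSpace ℝ Q] [NormedAddCommGroup P]
  [NormedSpace ℝ P] [NormedAddCommGroup A] [NormedSpace ℝ A] [NormedAddCommGroup A']
  [NormedSpace ℝ A'] {β : Box Q P A A' X Y}

/-- approximate relation on an ambient ball -/
structure AR (β : Box Q P A A' X Y) (N : ℕ) (g : Q × P → A) (z : Q × P) (r ε B : ℝ) : Prop where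
  pos : 0 < r
  le : r ≤ 1
  one : 1 ≤ B
  sub : ball z r ⊆ β.Om
  sm : ContDiff ℝ ∞ g
  df : ∀ y ∈ ball z r, ‖β.df y (g y)‖ ≤ ε
  bd : ∀ y ∈ ball z r, ∀ i ≤ N, ‖iteratedFDeriv ℝ i g y‖ ≤ B

variable {N : ℕ} {g : Q × P → A} {z z' : Q × P} {r ε B r' ε' B' : ℝ}

lemma AR.mono (h : β.AR N g z r ε B) (h0 : 0 < r') (h1 : r' ≤ 1) (hs : ball z' r' ⊆ ball z r)
    (hε : ε ≤ ε') (hB : B ≤ B') : β.AR N g z' r' ε' B' :=
  ⟨h0, h1, h.one.trans hB, hs.trans h.sub, h.sm, fun y hy => (h.df y (hs hy)).trans hε,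
    fun y hy i hi => (h.bd y (hs hy) i hi).trans hB⟩

lemma AR.nonneg (h : β.AR N g z r ε B) : 0 ≤ ε :=
  (norm_nonneg _).trans (h.df z (mem_ball_self h.pos))

lemma Ok.mem (h : β.Ok) (hz : z ∈ β.Om) : z.1 ∈ ball (0 : Q) β.R := by
  have := h.sub z hz
  rw [mem_ball_zero_iff]; linarith [norm_nonneg z.1]

lemma Ok.mem' (h : β.Ok) (hs : ball z r ⊆ β.Om) {q : Q} (hq : ‖q - z.1‖ < r) :
    q ∈ ball (0 : Q) β.R :=
  h.mem (z := (q, z.2)) (hs (by
    rw [mem_ball_iff_norm, Prod.norm_def]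
    simpa using hq))

lemma Ok.ubgs (h : β.Ok) : Ex.UB (fun _ : X => ball (0 : Q) β.R) β.gs :=
  (Ex.UB.id (M := β.R) h.ubs.op fun _ _ hx => (mem_ball_zero_iff.1 hx).le).prod h.ubs

lemma Ok.ubgu (h : β.Ok) : Ex.UB (fun _ : Y => ball (0 : Q) β.R) β.gu :=
  (Ex.UB.id (M := β.R) h.ubu.op fun _ _ hx => (mem_ball_zero_iff.1 hx).le).prod h.ubu

lemma Ok.norm_D (h : β.Ok) : ∃ c : ℝ, 1 ≤ c ∧ ∀ z ∈ β.Om, ‖β.D z‖ ≤ c := by
  obtain ⟨c, hc, hb⟩ := h.ubD.bdn 0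
  obtain ⟨L, δ, -, h1⟩ := h.cross
  refine ⟨c, hc, fun z hz => ?_⟩
  obtain ⟨y, hy, -⟩ := h1 z hz
  have := hb 0 le_rfl y z.1 (h.mem hz)
  rwa [norm_iteratedFDeriv_zero, gu, hy] at this

/-- restriction to a stable slice -/
lemma Ok.slice (h : β.Ok) (N : ℕ) : ∃ L C : ℝ, 1 ≤ L ∧ 1 ≤ C ∧
    ∀ (g : Q × P → A) (z : Q × P) (r ε B : ℝ) (x : X) (q : Q), β.AR N g z r ε B →
      β.gs x q ∈ ball z (r / 2) → β.SR N x (fun t => g (β.gs x t)) q (r / (2 * L)) ε (C * B) := by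
  obtain ⟨L, hL, hl⟩ := ub_lip h.ubgs
  obtain ⟨C, hC, hc⟩ := ub_comp h.ubgs N
  refine ⟨L, C, hL, hC, fun g z r ε B x q hg hq => ?_⟩
  have hr := hg.pos
  have s0 : ball (β.gs x q) (r / 2) ⊆ ball z r :=
    ball_subset_ball' (by rw [mem_ball] at hq; linarith)
  have e1 : r / (2 * L) ≤ r / 2 := by gcongr; linarith
  have m1 : ∀ q' ∈ ball q (r / (2 * L)), q' ∈ ball (0 : Q) β.R := fun q' hq' =>
    h.mem' (s0.trans hg.sub) ((mem_ball_iff_norm.1 hq').trans_le e1)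
  have m2 : ∀ q' ∈ ball q (r / (2 * L)), β.gs x q' ∈ ball z r := fun q' hq' => s0 (by
    rw [mem_ball_iff_norm]
    refine (hl x q (m1 q (mem_ball_self (by positivity))) q' (m1 q' hq')).trans_lt ?_
    calc L * ‖q' - q‖ < L * (r / (2 * L)) := by gcongr; exact mem_ball_iff_norm.1 hq'
      _ = r / 2 := by field_simp)
  exact ⟨by positivity, e1.trans (by linarith [hg.le]), one_le_mul_of_one_le_of_one_le hC hg.one,
    fun q' hq' => hg.sub (m2 q' hq'), hg.sm.comp_contDiffOn ((h.ubgs.sm x).mono m1),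
    fun q' hq' => hg.df _ (m2 q' hq'),
    fun q' hq' => hc A g B x q' (m1 q' hq') hg.sm (hg.bd _ (m2 q' hq'))⟩

/-- two approximate relations on an ambient ball are close -/
lemma Ok.cmp (h : β.Ok) {a : ℕ} {θ : ℝ} (hU : β.UQ N a θ) : ∃ C : ℝ, 1 ≤ C ∧
    ∀ (g g' : Q × P → A) (z : Q × P) (r ε B : ℝ), β.AR N g z r ε B → β.AR N g' z r ε B →
      ∀ y ∈ ball z (r / 2), ‖g y - g' y‖ ≤ C * (B / r) ^ a * ε ^ θ := by
  obtain ⟨L, C, hL, hC, hs⟩ := h.slice N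
  obtain ⟨Cu, hu⟩ := hU
  have h2 : 1 ≤ C * (2 * L) := one_le_mul_of_one_le_of_one_le hC (by linarith)
  refine ⟨max Cu 1 * (C * (2 * L)) ^ a, one_le_mul_of_one_le_of_one_le (le_max_right _ _)
    (one_le_pow₀ h2), fun g g' z r ε B hg hg' y hy => ?_⟩
  have hr := hg.pos
  have hB := hg.one
  have hε := hg.nonneg
  obtain ⟨x, hx⟩ := h.cov y (hg.sub (ball_subset_ball (by linarith) hy))
  have e : β.gs x y.1 = y := by rw [gs, hx]
  have := hu x _ _ y.1 _ ε _ (hs g z r ε B x y.1 hg (e.symm ▸ hy)) (hs g' z r ε B x y.1 hg' (e.symm ▸ hy))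
  simp only [e] at this
  refine this.trans ?_
  rw [show C * B / (r / (2 * L)) = C * (2 * L) * (B / r) by field_simp, mul_pow, ← mul_assoc]
  gcongr
  exact le_max_left _ _

set_option maxHeartbeats 1600000 in
/-- the Taylor polynomial of a formal relation is an approximate relation -/
lemma Ok.tay [CompleteSpace A] [CompleteSpace A'] (h : β.Ok) (hR : 0 < β.R) (N K : ℕ) :
    ∃ C L δ : ℝ, 1 ≤ C ∧ 1 ≤ L ∧ 0 < δ ∧
    ∀ (x : X) (w : Q × P → A) (q : Q) (z : Q × P) (r M τ : ℝ), 0 < r → r ≤ δ → 1 ≤ M → 0 ≤ τ →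
      ball z r ⊆ β.Om → ‖z - β.gs x q‖ ≤ r →
      (∀ q' ∈ ball q (L * r), β.gs x q' ∈ β.Om ∧ (∀ᶠ y in 𝓝 (β.gs x q'), ContDiffAt ℝ ∞ w y) ∧
        β.Fml x w q' K τ ∧ ∀ i ≤ K + 1, ‖iteratedFDeriv ℝ i w (β.gs x q')‖ ≤ M) →
      β.AR N (Ty K w (β.gs x q)) z r (C * (M * r ^ (K + 1) + τ)) (C * M) := by
  obtain ⟨Ls, hLs, hs⟩ := ub_lip h.ubgs
  obtain ⟨Lu, hLu, hu⟩ := ub_lip h.ubgu
  obtain ⟨Cu, hCu, hcu⟩ := ub_comp h.ubgu (K + 1)
  obtain ⟨cD, hcD, hD⟩ := h.ubD.bdn (K + 1)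
  obtain ⟨cb, hcb, hb⟩ := h.ubb.bdn (K + 1)
  obtain ⟨c0, hc0, hD0⟩ := h.norm_D
  obtain ⟨Lc, δc, hδc, hx⟩ := h.cross
  obtain ⟨Cp, hCp, hp⟩ := poly_jets K
  set Cj := max (Cp * ((K + 1) * 2 ^ K)) 1 with hCj
  have hCj1 : 1 ≤ Cj := le_max_right _ _
  have jets : ∀ (w : Q × P → A) (c : Q × P) (M : ℝ), 1 ≤ M →
      (∀ i ≤ K + 1, ‖iteratedFDeriv ℝ i w c‖ ≤ M) → ∀ y ∈ ball c 1, ∀ i,
      ‖iteratedFDeriv ℝ i (Ty K w c) y‖ ≤ Cj * M := fun w c M hM hw y hy i => by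
    have := hp _ A (Ty K w c) c 1 _ (poly_Ty K w c) one_pos (fun y hy => Ty_size one_le_two
      (fun i hi => hw i (by omega)) (by simpa using (mem_ball_iff_norm.1 hy).le)) i y hy
    rw [one_pow, div_one, ← mul_assoc] at this
    exact this.trans (mul_le_mul_of_nonneg_right (le_max_left _ _) (by linarith))
  set L1 := (|Lc| + 1) * (4 * Ls) with hL1
  have L10 : 0 < L1 := by positivity
  set ρ := min (β.R / 2) (1 / Lu) with hρ
  have ρ0 : 0 < ρ := by positivity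
  set G := 2 ^ (K + 1) * (cD * (Cu * Cj)) + cb with hG
  set Cγ := (6 * (2 + Ls * (L1 + 2))) ^ K * (2 * (1 + 2 ^ (K + 1))) * (Ls * (L1 + 2)) with hCγ
  have G0 : 0 ≤ G * L1 ^ (K + 1) := by positivity
  have γ0 : 0 ≤ c0 * Cγ := by positivity
  refine ⟨Cj + G * L1 ^ (K + 1) + c0 * Cγ, L1 + 2, min (min (1 / 2) (δc / (8 * Ls))) (ρ / (2 * L1)),
    by linarith, by linarith, by positivity, fun x w q z r M τ hr hrδ hM hτ hsub hz hw => ?_⟩
  obtain ⟨⟨r1, r2⟩, r3⟩ := (le_min_iff.1 hrδ).imp_left le_min_iff.1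
  rw [le_div_iff₀ (by positivity)] at r2 r3
  have hq := hw q (mem_ball_self (by positivity))
  have near : ∀ y ∈ ball z r, ‖y - β.gs x q‖ < 2 * r := fun y hy => by
    have := norm_sub_le_norm_sub_add_norm_sub y z (β.gs x q)
    rw [mem_ball_iff_norm] at hy; linarith
  refine ⟨hr, by linarith, one_le_mul_of_one_le_of_one_le (by linarith) hM, hsub,
    (poly_Ty K w _).sm, fun y hy => ?_, fun y hy i _ => (jets w _ M hM hq.2.2.2 y
      (mem_ball_iff_norm.2 ((near y hy).trans_le (by linarith))) i).trans (by gcongr; linarith)⟩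
  obtain ⟨v, hv, hx⟩ := hx y (hsub hy)
  have ev : β.gu v y.1 = y := by rw [gu, hv]
  have n1 : ‖y.1 - q‖ < 2 * r := (norm_fst_le (y - β.gs x q)).trans_lt (near y hy)
  have n2 : ‖β.s x y.1 - y.2‖ ≤ 4 * Ls * r := by
    have a1 := hs x q (h.mem hq.1) y.1 (h.mem (hsub hy))
    have a2 := norm_sub_le_norm_sub_add_norm_sub (β.gs x y.1) (β.gs x q) y
    have a3 : ‖β.s x y.1 - y.2‖ ≤ ‖β.gs x y.1 - y‖ := norm_snd_le (β.gs x y.1 - y)
    have a4 := near y hy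
    rw [norm_sub_rev] at a4
    nlinarith
  obtain ⟨q1, e1, n3⟩ := hx x (by nlinarith)
  have n4 : ‖q1 - y.1‖ ≤ L1 * r := n3.trans (by
    rw [hL1, mul_assoc]
    exact mul_le_mul ((le_abs_self _).trans (by linarith)) n2 (norm_nonneg _) (by positivity))
  have n5 : ‖q1 - q‖ < (L1 + 2) * r := by
    have := norm_sub_le_norm_sub_add_norm_sub q1 y.1 q
    linarith
  have hq1 := hw q1 (mem_ball_iff_norm.2 n5)
  have e2 : β.gu v q1 = β.gs x q1 := by rw [gu, gs, e1]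
  set T1 := Ty K w (β.gs x q1) with hT1
  have sT := (poly_Ty K w (β.gs x q1)).sm
  have sb : ball q1 ρ ⊆ ball (0 : Q) β.R := ball_subset_ball' (by
    have := h.sub _ hq1.1
    have h2 : ρ ≤ β.R / 2 := min_le_left _ _
    rw [dist_zero_right]; simp only [gs] at this; linarith)
  have mq1 := sb (mem_ball_self ρ0)
  have s1 : ∀ t ∈ ball (0 : Q) β.R, ∀ g : Q × P → A, ContDiffAt ℝ ∞ g (β.gu v t) →
      ContDiffAt ℝ ∞ (fun t => β.df (β.gu v t) (g (β.gu v t))) t := fun t ht g hg =>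
    ((h.ubD.at ht).clm_apply (hg.comp t (h.ubgu.at ht))).sub (h.ubb.at ht)
  have d1 : ∀ t ∈ ball q1 ρ,
      ‖iteratedFDeriv ℝ (K + 1) (fun t => β.df (β.gu v t) (T1 (β.gu v t))) t‖ ≤ G * M := by
    intro t ht
    have b1 : β.gu v t ∈ ball (β.gs x q1) 1 := by
      rw [mem_ball_iff_norm, ← e2]
      refine (hu v q1 mq1 t (sb ht)).trans_lt ?_
      have := (mem_ball_iff_norm.1 ht).trans_le (min_le_right _ _)
      rwa [lt_div_iff₀' (by positivity)] at this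
    have c1 : ContDiffAt ℝ (K + 1 : ℕ) (fun t => T1 (β.gu v t)) t :=
      (sT.contDiffAt.comp t (h.ubgu.at (i := v) (sb ht))).of_le (li (K + 1))
    have c2 := (h.ubD.at (i := v) (sb ht)).of_le (li (K + 1))
    have b2 := bil_le (ContinuousLinearMap.id ℝ (A →L[ℝ] A')) (K + 1) zero_le_one
      (fun a p => by simpa using a.le_opNorm p) c2 c1 (fun i hi => hD i hi v t (sb ht))
      (hcu A T1 _ v t (sb ht) sT fun i _ => jets w _ M hM hq1.2.2.2 _ b1 i)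
    unfold df
    rw [fun_iteratedFDeriv_sub_apply (c2.clm_apply c1) ((h.ubb.at (i := v) (sb ht)).of_le (li _))]
    refine (norm_sub_le _ _).trans ((add_le_add b2 (hb _ le_rfl v t (sb ht))).trans ?_)
    rw [hG]; nlinarith
  have my : y.1 ∈ ball q1 ρ := by rw [mem_ball_iff_norm, norm_sub_rev]; nlinarith
  have d2 := Ty_rem (fun t ht => (s1 t (sb ht) T1 sT.contDiffAt).contDiffWithinAt) d1 my
  have ct : Tendsto (β.gu v) (𝓝 q1) (𝓝 (β.gs x q1)) := e2 ▸ (h.ubgu.at mq1).continuousAt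
  have nb : ∀ᶠ t in 𝓝 q1, t ∈ ball (0 : Q) β.R := isOpen_ball.mem_nhds mq1
  rw [Ty_congr (g := fun t => β.df (β.gu v t) (w (β.gu v t)))
    (nb.mono fun t ht => s1 t ht T1 sT.contDiffAt)
    ((nb.and (ct.eventually hq1.2.1)).mono fun t ht => s1 t ht.1 w ht.2) (by
      have o1 := (isBigO_rem hq1.2.1 K).comp_tendsto ct
      have o2 : (fun t => ‖β.gu v t - β.gs x q1‖ ^ (K + 1)) =O[𝓝 q1] fun t => ‖t - q1‖ ^ (K + 1) :=
        (Asymptotics.IsBigO.of_bound Lu (nb.mono fun t ht => by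
          simpa [e2] using hu v q1 mq1 t ht)).pow _
      refine (Asymptotics.IsBigO.of_bound cD (nb.mono fun t ht => ?_)).trans (o1.trans o2)
      have := hD 0 (by omega) v t ht
      rw [norm_iteratedFDeriv_zero] at this
      simp only [df, sub_sub_sub_cancel_right, ← map_sub, Function.comp]
      rw [norm_sub_rev (w _)]
      exact (β.D _).le_of_opNorm_le this _)] at d2
  have ρ1 : ρ ≤ 1 := (min_le_right _ _).trans (by rw [div_le_one (by positivity)]; exact hLu)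
  have d3 := hq1.2.2.1 v e1 y.1 ((mem_ball_iff_norm.1 my).le.trans ρ1)
  simp only [ev] at d2
  have d4 : ‖β.df y (T1 y)‖ ≤ G * L1 ^ (K + 1) * (M * r ^ (K + 1)) + τ := by
    have a1 : G * M * ‖y.1 - q1‖ ^ (K + 1) ≤ G * M * (L1 * r) ^ (K + 1) := by
      rw [norm_sub_rev]; gcongr
    have a2 := norm_le_norm_add_norm_sub' (β.df y (T1 y))
      (Ty K (fun t => β.df (β.gu v t) (w (β.gu v t))) q1 y.1)
    rw [mul_pow] at a1
    linarith
  have seg : ∀ t ∈ Icc (0 : ℝ) 1, ‖q + t • (q1 - q) - q‖ < (L1 + 2) * r := fun t ht => by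
    rw [add_sub_cancel_left, norm_smul, Real.norm_of_nonneg ht.1]
    exact (mul_le_of_le_one_left (norm_nonneg _) ht.2).trans_lt n5
  have sg := fun t ht => hw _ (mem_ball_iff_norm.2 (seg t ht))
  have d5 := path (K := K) (w := w) (z := y) (γ := fun t => β.gs x (q + t • (q1 - q)))
    (l := Ls * (L1 + 2) * r) (r := (2 + Ls * (L1 + 2)) * r) (X := 2 * M) (by positivity)
    (fun s hs' t ht => by
      refine (hs x _ (h.mem (sg s hs').1) _ (h.mem (sg t ht).1)).trans ?_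
      simp only [gs]
      rw [add_sub_add_left_eq_sub, ← sub_smul, norm_smul, Real.norm_eq_abs, mul_comm |t - s|,
        ← mul_assoc, mul_assoc Ls (L1 + 2)]
      gcongr)
    (fun t ht => ⟨(sg t ht).2.1, ((sg t ht).2.2.2 _ le_rfl).trans_lt (by linarith), by
      have a1 := hs x q (h.mem hq.1) _ (h.mem (sg t ht).1)
      have a2 := norm_sub_le_norm_sub_add_norm_sub y (β.gs x q) (β.gs x (q + t • (q1 - q)))
      have a3 := near y hy
      have a4 := seg t ht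
      simp only [gs] at a1 a2 a3 ⊢
      rw [norm_sub_rev] at a1
      nlinarith⟩)
  simp only [one_smul, add_sub_cancel, zero_smul, add_zero] at d5
  have d6 : ‖T1 y - Ty K w (β.gs x q) y‖ ≤ Cγ * (M * r ^ (K + 1)) :=
    d5.trans_eq (by rw [hCγ, ← mul_assoc 6, mul_pow _ r]; ring)
  have e3 : β.df y (Ty K w (β.gs x q) y) = β.df y (T1 y) - β.D y (T1 y - Ty K w (β.gs x q) y) := by
    simp only [df, map_sub]; abel
  have d7 := ((β.D y).le_of_opNorm_le (hD0 y (hsub hy)) _).trans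
    (mul_le_mul_of_nonneg_left d6 (by linarith))
  have p1 : 0 ≤ M * r ^ (K + 1) := by positivity
  rw [e3]
  refine (norm_sub_le _ _).trans ?_
  nlinarith [mul_nonneg G0 hτ, mul_nonneg γ0 hτ, mul_nonneg (sub_nonneg.2 hCj1) hτ,
    mul_nonneg (zero_le_one.trans hCj1) p1]

end Box

end Crest.Agent.N221.G0.L
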