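import Crest.Agent.N221.A1.PAll

/-! Row 221, block G0: `PS.ps'` = `PSS` with the order `n` chosen BEFORE the bounds `d`
(the proofs of helper16's `numS`, `psS` with the quantifiers reordered). -/

set_option autoImplicit false

open Set Metric Finset
open scoped ContDiff Nat Topology

namespace Crest.Agent.N221.PS

set_option maxHeartbeats 1600000 in
theorem numS' (q b B R α δ : ℝ) (hq : 0 < q) (hq1 : q < 1) (hb : 1 ≤ b) (hB : 1 ≤ B) (hR : 0 < R)
    (hα : 0 < α) (hδ : 0 < δ) : ∃ n0 : ℕ, ∀ d K : ℕ → ℝ, (∀ n, 0 ≤ K n) → (∀ n, 0 ≤ d n) →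
    ∃ C : ℝ, 0 < C ∧ ∀ (T : ℕ) (η : ℝ) (M : ℕ → ℝ) (ρ P : ℕ → ℕ → ℝ), 0 ≤ η →
    (∀ j < T, M j ≤ b * M (j + 1)) → M T ≤ d 0 * Real.exp (α * T) →
    (∀ n ≤ n0, ρ n T ≤ d (n + 1) * Real.exp (α * T)) →
    (∀ n ≤ n0, ∀ j < T, ρ n j ≤ 2 * b * q ^ (n + 1) * ρ n (j + 1) + K n * M (j + 1)) →
    (∀ n ≤ n0, ∀ j ≤ T, P n j ≤ K n * B ^ ((n + 1) * j) * η) →
    (∀ n ≤ n0, ∀ j i, j + i ≤ T →
      M j ≤ b ^ i * (P n (j + i) + ρ n (j + i) * (q ^ i * R) ^ (n + 1))) →
    M 0 ≤ C * Real.exp (δ * T) * (η + Real.exp (-(α * T))) := by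
  set s := Real.sqrt q with hs
  have hs0 : 0 < s := Real.sqrt_pos.2 hq
  have hs1 : s < 1 := by rw [hs, Real.sqrt_lt' one_pos]; simpa using hq1
  have hss : s ^ 2 = q := Real.sq_sqrt hq.le
  obtain ⟨N0, hN0⟩ := exists_pow_lt_of_lt_one
    (x := min (1 / (4 * b)) (Real.exp (-(2 * α)))) (y := s) (by positivity) hs1
  set lam := -Real.log s with hlam
  have hl0 : 0 < lam := by have := Real.log_neg hs0 hs1; linarith
  set u := Real.log B with hu
  have hu0 : 0 ≤ u := Real.log_nonneg hB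
  have hlb : 0 ≤ Real.log b := Real.log_nonneg hb
  obtain ⟨L, hL⟩ := exists_nat_gt (2 * u * (Real.log b + 2 * α) / (lam * δ))
  have hL0 : 0 < L := by
    have : (0 : ℝ) < L := lt_of_le_of_lt (by positivity) hL
    exact_mod_cast this
  have hLr : (1 : ℝ) ≤ L := by exact_mod_cast hL0
  refine ⟨2 ^ L * (N0 + 1), fun d K hK hd => ?_⟩
  have hsl : ∀ n : ℕ, ∃ C : ℝ, 0 ≤ C ∧ (N0 ≤ n + 1 → ∀ (T : ℕ) (η : ℝ) (M ρ P : ℕ → ℝ) (j : ℕ),
      0 ≤ η → j ≤ T → 0 ≤ M j → (∀ k ≤ T, M k * (s ^ (n + 1)) ^ k ≤ M j * (s ^ (n + 1)) ^ j) →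
      (∀ j < T, M j ≤ b * M (j + 1)) → M T ≤ d 0 * Real.exp (α * T) →
      ρ T ≤ d (n + 1) * Real.exp (α * T) →
      (∀ j < T, ρ j ≤ 2 * b * (s ^ (n + 1)) ^ 2 * ρ (j + 1) + K n * M (j + 1)) →
      (∀ j ≤ T, P j ≤ K n * B ^ ((n + 1) * j) * η) →
      (∀ j i, j + i ≤ T →
        M j ≤ b ^ i * (P (j + i) + ρ (j + i) * (((s ^ (n + 1)) ^ 2) ^ i * R ^ (n + 1)))) →
      M 0 ≤ C * (B ^ ((n + 1) * j) * η + Real.exp (-(α * T)))) := by
    intro n
    by_cases hn : N0 ≤ n + 1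
    · have h1 : s ^ (n + 1) ≤ s ^ N0 := pow_le_pow_of_le_one hs0.le hs1.le hn
      have h2 : s ^ (n + 1) ≤ 1 / (4 * b) := h1.trans (hN0.le.trans (min_le_left _ _))
      have h3 : s ^ (n + 1) ≤ Real.exp (-(2 * α)) := h1.trans (hN0.le.trans (min_le_right _ _))
      rw [le_div_iff₀ (by positivity)] at h2
      obtain ⟨C, hC, h⟩ := slope b B (R ^ (n + 1)) α (s ^ (n + 1)) (K n) (d (n + 1)) (d 0) (n + 1)
        hb hB (by positivity) (by positivity) (by linarith) h3 (hK n) (hd _) (hd 0)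
      exact ⟨C, hC, fun _ => h⟩
    · exact ⟨0, le_rfl, fun h => absurd h hn⟩
  choose Cn hCn hsl using hsl
  set n0 := 2 ^ L * (N0 + 1) with hn0
  set C1 := Real.exp (2 * u * d 0 / lam) with hC1
  have hC11 : 1 ≤ C1 := Real.one_le_exp (by have := hd 0; positivity)
  have hS : 0 ≤ ∑ n ∈ range (n0 + 1), Cn n := sum_nonneg fun n _ => hCn n
  refine ⟨1 + C1 * ∑ n ∈ range (n0 + 1), Cn n, by positivity, ?_⟩
  intro T η M ρ P hη hch hT hρT hρ hP h5
  have hE' : 0 < Real.exp (-(α * T)) := Real.exp_pos _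
  have hδT : 1 ≤ Real.exp (δ * T) := Real.one_le_exp (by positivity)
  have hCS : 0 ≤ C1 * ∑ n ∈ range (n0 + 1), Cn n := by positivity
  by_cases hM0 : M 0 ≤ Real.exp (-(α * T))
  · have h1 : 1 ≤ (1 + C1 * ∑ n ∈ range (n0 + 1), Cn n) * Real.exp (δ * T) := by nlinarith
    nlinarith
  push Not at hM0
  have hM00 : 0 < M 0 := hE'.trans hM0
  have hpos : ∀ j ≤ T, 0 < M j := by
    intro j hj
    have h1 := chain_le hb hch 0 j (by omega)
    rw [zero_add] at h1
    have h2 : 0 < b ^ j := by positivity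
    by_contra hc
    push Not at hc
    nlinarith
  have hex : ∀ N : ℕ, ∃ j ≤ T, ∀ k ≤ T, M k * (s ^ N) ^ k ≤ M j * (s ^ N) ^ j := by
    intro N
    obtain ⟨j, hj, h⟩ := exists_max_image (range (T + 1)) (fun k => M k * (s ^ N) ^ k)
      ⟨0, by simp⟩
    exact ⟨j, by simpa [Nat.lt_succ_iff] using hj, fun k hk => h k (by simpa [Nat.lt_succ_iff])⟩
  choose J hJ hJm using hex
  set Nl : ℕ → ℕ := fun l => 2 ^ l * (N0 + 1) with hNl
  have hlog : ∀ (N k : ℕ), k ≤ T →
      Real.log (M k * (s ^ N) ^ k) = Real.log (M k) - lam * (N * k) := by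
    intro N k hk
    rw [Real.log_mul (hpos k hk).ne' (by positivity), Real.log_pow, Real.log_pow, hlam]; ring
  have hcmp : ∀ (N k : ℕ), k ≤ T → Real.log (M k) - lam * (N * k)
      ≤ Real.log (M (J N)) - lam * (N * J N) := by
    intro N k hk
    rw [← hlog N k hk, ← hlog N _ (hJ N)]
    exact Real.log_le_log (mul_pos (hpos k hk) (by positivity)) (hJm N k hk)
  obtain ⟨l, hl, hal⟩ := abel_ex
    (fun l => Real.log (M (J (Nl l))) - lam * (Nl l * J (Nl l)) - Real.log (M 0))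
    (fun l => lam / 2 * (Nl (l + 1) * J (Nl (l + 1)))) L hL0 (by
      intro l _
      have h1 := hcmp (Nl l) (J (Nl (l + 1))) (hJ _)
      have h2 : (Nl (l + 1) : ℝ) = 2 * Nl l := by simp only [hNl]; push_cast; ring
      simp only [h2]
      nlinarith) (by
      have h1 := hcmp (Nl L) 0 (Nat.zero_le _)
      simp only [Nat.cast_zero, mul_zero, sub_zero] at h1
      linarith)
  have hz : Real.log (M (J (Nl 0))) - lam * (Nl 0 * J (Nl 0)) - Real.log (M 0)
      ≤ (Real.log b + 2 * α) * T + d 0 := by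
    set j := J (Nl 0)
    have hj : j ≤ T := hJ _
    have h1 := chain_le hb hch j (T - j) (by omega)
    rw [show j + (T - j) = T by omega] at h1
    have h2 : b ^ (T - j) ≤ b ^ T := pow_le_pow_right₀ hb (by omega)
    have h3 : d 0 ≤ Real.exp (d 0) := by have := Real.add_one_le_exp (d 0); linarith
    have hMT := hpos T le_rfl
    have h4 : M j ≤ b ^ T * (Real.exp (d 0) * Real.exp (α * T)) := by
      calc M j ≤ b ^ (T - j) * M T := h1
        _ ≤ b ^ T * (Real.exp (d 0) * Real.exp (α * T)) := by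
          gcongr
          exact hT.trans (mul_le_mul_of_nonneg_right h3 (Real.exp_pos _).le)
    have h6 := Real.log_le_log (hpos j hj) h4
    rw [Real.log_mul (by positivity) (by positivity), Real.log_pow, ← Real.exp_add,
      Real.log_exp] at h6
    have h7 := Real.log_le_log hE' hM0.le
    rw [Real.log_exp] at h7
    have h8 : 0 ≤ lam * ((Nl 0 : ℝ) * j) := by positivity
    nlinarith
  obtain ⟨n, hn⟩ : ∃ n, Nl (l + 1) = n + 1 := ⟨Nl (l + 1) - 1, by
    have : 0 < Nl (l + 1) := by simp only [hNl]; positivity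
    omega⟩
  have hnn : n + 1 ≤ n0 := by
    rw [← hn, hn0]
    exact Nat.mul_le_mul_right _ (Nat.pow_le_pow_right (by norm_num) hl)
  have hN0n : N0 ≤ n + 1 := by
    rw [← hn]
    have : 1 ≤ 2 ^ (l + 1) := Nat.one_le_two_pow
    simp only [hNl]; nlinarith
  rw [hn] at hal
  set j := J (n + 1) with hj
  have hq' : (s ^ (n + 1)) ^ 2 = q ^ (n + 1) := by rw [← hss, ← pow_mul, ← pow_mul, mul_comm]
  have main := hsl n hN0n T η M (ρ n) (P n) j hη (hJ _) (hpos _ (hJ _)).le (hJm _) hch hT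
    (hρT n (by omega)) (by rw [hq']; exact hρ n (by omega)) (hP n (by omega)) (by
      intro j i h
      have := h5 n (by omega) j i h
      rw [hq', ← pow_mul, mul_comm (n + 1) i, pow_mul, ← mul_pow]; exact this)
  have hBj : B ^ ((n + 1) * j) ≤ C1 * Real.exp (δ * T) := by
    have e : B ^ ((n + 1) * j) = Real.exp (u * ((n + 1 : ℕ) * j)) := by
      rw [hu, mul_comm (Real.log B), ← Nat.cast_mul, Real.exp_nat_mul, Real.exp_log (by linarith)]
    rw [e, hC1, ← Real.exp_add]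
    apply Real.exp_le_exp.2
    set m : ℝ := (n + 1 : ℕ) * j with hm
    have hm0 : 0 ≤ m := by positivity
    have h1 : lam / 2 * m * L ≤ (Real.log b + 2 * α) * T + d 0 := by
      rw [le_div_iff₀ (by positivity)] at hal; exact hal.trans hz
    rw [div_lt_iff₀ (by positivity)] at hL
    have hT0 : (0 : ℝ) ≤ T := by positivity
    have h2 : lam * L * (u * m) ≤ lam * L * (2 * u * d 0 / lam + δ * T) := by
      have a1 : lam * L * (u * m) = 2 * u * (lam / 2 * m * L) := by ring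
      have a2 : 2 * u * (lam / 2 * m * L) ≤ 2 * u * ((Real.log b + 2 * α) * T + d 0) :=
        mul_le_mul_of_nonneg_left h1 (by positivity)
      have a3 : lam * L * (2 * u * d 0 / lam + δ * T) = L * (2 * u * d 0) + L * (lam * δ) * T := by
        field_simp
      have a4 : 2 * u * (Real.log b + 2 * α) * T ≤ L * (lam * δ) * T :=
        mul_le_mul_of_nonneg_right hL.le hT0
      have a5 : 1 * (2 * u * d 0) ≤ L * (2 * u * d 0) :=
        mul_le_mul_of_nonneg_right hLr (by have := hd 0; positivity)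
      linarith
    exact le_of_mul_le_mul_left h2 (by positivity)
  have hCle : Cn n ≤ ∑ n ∈ range (n0 + 1), Cn n :=
    single_le_sum (f := Cn) (fun n _ => hCn n) (mem_range.2 (by omega))
  have h1 : B ^ ((n + 1) * j) * η + Real.exp (-(α * T))
      ≤ C1 * Real.exp (δ * T) * (η + Real.exp (-(α * T))) := by
    have a1 : B ^ ((n + 1) * j) * η ≤ C1 * Real.exp (δ * T) * η := mul_le_mul_of_nonneg_right hBj hη
    have a2 : 1 ≤ C1 * Real.exp (δ * T) := by nlinarith
    nlinarith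
  have h2 : 0 ≤ C1 * Real.exp (δ * T) * (η + Real.exp (-(α * T))) := by positivity
  calc M 0 ≤ Cn n * (B ^ ((n + 1) * j) * η + Real.exp (-(α * T))) := main
    _ ≤ (∑ n ∈ range (n0 + 1), Cn n) * (C1 * Real.exp (δ * T) * (η + Real.exp (-(α * T)))) :=
      mul_le_mul hCle h1 (by positivity) hS
    _ ≤ _ := by
      have : 0 ≤ Real.exp (δ * T) * (η + Real.exp (-(α * T))) := by positivity
      nlinarith

set_option maxHeartbeats 800000 in
theorem ps' (E V : Type) [NormedAddCommGroup E] [NormedSpace ℝ E] [FiniteDimensional ℝ E]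
    [NormedAddCommGroup V] [NormedSpace ℝ V] [FiniteDimensional ℝ V] (R q b α δ : ℝ) (c : ℕ → ℝ)
    (hR : 0 < R) (hq : 0 < q) (hq1 : q < 1) (hb : 1 ≤ b) (hα : 0 < α) (hδ : 0 < δ) :
    ∃ n : ℕ, ∀ d : ℕ → ℝ, ∃ C : ℝ, 0 < C ∧
    ∀ (T : ℕ) (ψ : ℕ → E → E) (A : ℕ → E → V →L[ℝ] V) (f : ℕ → E → V) (η : ℝ),
    Chain R q b c T ψ A f →
    (∀ k, ∀ x ∈ ball (0 : E) R, ‖iteratedFDeriv ℝ k (f T) x‖ ≤ d k * Real.exp (α * T)) →
    (∀ i ≤ n, ‖iteratedFDeriv ℝ i (f 0) 0‖ ≤ η) →
    ∀ x ∈ ball (0 : E) R, ‖f 0 x‖ ≤ C * Real.exp (δ * T) * (η + Real.exp (-(α * T))) := by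
  have hT := tay_
  have hS := step_
  haveI : CompleteSpace V := FiniteDimensional.complete ℝ V
  choose K1 r0 hK1 hr0 hr0R hst using fun n => hS E V R q b c n hR hq hq1 hb
  have hr : ∀ n, ∃ r : ℝ, 0 < r ∧ r < R ∧ K1 n * (6 * R) ^ n * r ≤ b * q ^ (n + 1) := by
    intro n
    have hp : 0 < K1 n * (6 * R) ^ n := by have := hK1 n; positivity
    refine ⟨min (R / 2) (b * q ^ (n + 1) / (K1 n * (6 * R) ^ n)), by positivity,
      (min_le_left _ _).trans_lt (by linarith), ?_⟩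
    have := min_le_right (R / 2) (b * q ^ (n + 1) / (K1 n * (6 * R) ^ n))
    rw [le_div_iff₀ hp] at this
    linarith
  choose r hr hrR hrK using hr
  set K : ℕ → ℝ := fun n =>
    K1 n * (6 * R / r n) ^ n + (6 * R / r0 n) ^ n * ((n + 1) * (max 1 R) ^ n) with hK
  have hKa : ∀ n, 0 ≤ K1 n * (6 * R / r n) ^ n := fun n => by
    have := hK1 n; have := hr n; positivity
  have hKb : ∀ n, 0 ≤ (6 * R / r0 n) ^ n * (((n : ℝ) + 1) * (max 1 R) ^ n) := fun n => by
    have := hr0 n; positivity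
  have hK0 : ∀ n, 0 ≤ K n := fun n => add_nonneg (hKa n) (hKb n)
  obtain ⟨n0, hnum⟩ := numS' q b (6 * b) R α δ hq hq1 hb (by linarith) hR hα hδ
  refine ⟨n0, fun d => ?_⟩
  obtain ⟨C, hC, hnum⟩ := hnum (fun k => max (d k) 0) K hK0 (fun k => le_max_right _ _)
  refine ⟨C, hC, ?_⟩
  intro T ψ A f η hch hd hη
  have hη0 : 0 ≤ η := (norm_nonneg _).trans (hη 0 (Nat.zero_le _))
  have hE : 0 < Real.exp (α * T) := Real.exp_pos _
  have hd' : ∀ k, ∀ x ∈ ball (0 : E) R,
      ‖iteratedFDeriv ℝ k (f T) x‖ ≤ max (d k) 0 * Real.exp (α * T) := fun k x hx =>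
    (hd k x hx).trans (mul_le_mul_of_nonneg_right (le_max_left _ _) hE.le)
  have hfT : ∀ x ∈ ball (0 : E) R, ‖f T x‖ ≤ max (d 0) 0 * Real.exp (α * T) := fun x hx => by
    simpa using hd' 0 x hx
  set M : ℕ → ℝ := fun j => sSup ((fun x => ‖f j x‖) '' ball 0 R) with hM
  have hle : ∀ j ≤ T, ∀ x ∈ ball (0 : E) R, ‖f j x‖ ≤ M j := by
    intro j hj x hx
    refine le_csSup ⟨b ^ (T - j) * (max (d 0) 0 * Real.exp (α * T)), ?_⟩ ⟨x, hx, rfl⟩
    rintro _ ⟨x, hx, rfl⟩
    obtain ⟨y, hy, -, h2⟩ := hch.iter hq hq1 hb j (T - j) (by omega) x hx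
    rw [show j + (T - j) = T by omega] at h2
    exact h2.trans (mul_le_mul_of_nonneg_left (hfT y hy) (by positivity))
  have hsup : ∀ j (m : ℝ), (∀ x ∈ ball (0 : E) R, ‖f j x‖ ≤ m) → M j ≤ m := by
    intro j m h
    refine csSup_le ⟨_, 0, mem_ball_self hR, rfl⟩ ?_
    rintro _ ⟨x, hx, rfl⟩
    exact h x hx
  have hM0 : ∀ j ≤ T, 0 ≤ M j := fun j hj => (norm_nonneg _).trans (hle j hj 0 (mem_ball_self hR))
  set ρ' : ℕ → ℕ → ℝ := fun n => rrec (2 * b * q ^ (n + 1)) (max (d (n + 1)) 0 * Real.exp (α * T))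
    (fun k => K n * M (T - k)) with hρ'
  have hrem : ∀ n k, k ≤ T → 0 ≤ ρ' n k ∧ ∀ x ∈ ball (0 : E) R,
      ‖f (T - k) x - tay n (f (T - k)) x‖ ≤ ρ' n k * ‖x‖ ^ (n + 1) := by
    intro n k
    induction k with
    | zero =>
      intro _
      refine ⟨by simp only [hρ', rrec]; positivity, ?_⟩
      simp only [hρ', rrec, Nat.sub_zero]
      exact (hT E V n).1 (f T) R _ hch.smf (hd' (n + 1))
    | succ k ih =>
      intro hk
      obtain ⟨h0, h1⟩ := ih (by omega)
      have hMk := hM0 (T - k) (by omega)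
      have e : ρ' n (k + 1) = 2 * b * q ^ (n + 1) * ρ' n k + K n * M (T - k) := by
        simp only [hρ', rrec]
      refine ⟨by rw [e]; have := hK0 n; positivity, ?_⟩
      have e2 : T - k = T - (k + 1) + 1 := by omega
      have hp : ∀ x : E, ‖x‖ ≤ R →
          ‖tay n (f (T - k)) x‖ ≤ (6 * R / r n) ^ n * (M (T - k) + ρ' n k * r n ^ (n + 1)) := by
        refine (hT E V n).2.1 _ (r n) R _ (hr n) (hrR n).le ?_
        intro x hx
        have hx' : x ∈ ball (0 : E) R := mem_ball_zero_iff.2 (hx.trans_lt (hrR n))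
        have a1 := h1 x hx'
        have a2 := hle (T - k) (by omega) x hx'
        have a3 : ρ' n k * ‖x‖ ^ (n + 1) ≤ ρ' n k * r n ^ (n + 1) := by gcongr
        have a4 := norm_sub_le (f (T - k) x) (f (T - k) x - tay n (f (T - k)) x)
        rw [sub_sub_cancel] at a4
        linarith
      intro x hx
      have h2 := ((hst n T ψ A f hch).2 (T - (k + 1)) (by omega)).1 (ρ' n k) _ h0
        (by rw [← e2]; exact h1) (by rw [← e2]; exact hp) x hx
      refine h2.trans (mul_le_mul_of_nonneg_right ?_ (by positivity))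
      rw [e]
      have a1 : K1 n * ((6 * R / r n) ^ n * (M (T - k) + ρ' n k * r n ^ (n + 1)))
          = K1 n * (6 * R / r n) ^ n * M (T - k) + K1 n * (6 * R) ^ n * r n * ρ' n k := by
        have := (hr n).ne'
        rw [div_pow, pow_succ]; field_simp
      have a2 := mul_le_mul_of_nonneg_right (hrK n) h0
      have a3 : K1 n * (6 * R / r n) ^ n * M (T - k) ≤ K n * M (T - k) :=
        mul_le_mul_of_nonneg_right (le_add_of_nonneg_right (hKb n)) hMk
      linarith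
  have hpol : ∀ n ≤ n0, ∀ j ≤ T, ∀ x : E, ‖x‖ ≤ R →
      ‖tay n (f j) x‖ ≤ K n * (6 * b) ^ ((n + 1) * j) * η := by
    intro n hn
    have h1 : ∀ j ≤ T, ∀ x : E, ‖x‖ ≤ r0 n →
        ‖tay n (f j) x‖ ≤ (6 * b) ^ ((n + 1) * j) * ((n + 1) * (max 1 R) ^ n * η) := by
      intro j
      induction j with
      | zero =>
        intro _ x hx
        simp only [mul_zero, pow_zero, one_mul]
        exact (hT E V n).2.2.2.1 _ _ _ (le_max_left _ _) (fun i hi => hη i (hi.trans hn)) x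
          (hx.trans ((hr0R n).le.trans (le_max_right _ _)))
      | succ j ih =>
        intro hj x hx
        refine (((hst n T ψ A f hch).2 j (by omega)).2 _ (ih (by omega)) x hx).trans ?_
        rw [mul_add (n + 1) j 1, mul_one, pow_add,
          mul_comm ((6 * b) ^ ((n + 1) * j)) ((6 * b) ^ (n + 1)), mul_assoc ((6 * b) ^ (n + 1))]
        refine mul_le_mul_of_nonneg_right ?_ (by positivity)
        rw [pow_succ]
        have : 0 ≤ (6 * b) ^ n := by positivity
        nlinarith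
    intro j hj x hx
    refine ((hT E V n).2.1 _ (r0 n) R _ (hr0 n) (hr0R n).le (h1 j hj) x hx).trans ?_
    have a1 : (6 * R / r0 n) ^ n * ((n + 1) * (max 1 R) ^ n) ≤ K n := le_add_of_nonneg_left (hKa n)
    have a2 : 0 ≤ (6 * b) ^ ((n + 1) * j) * η := by positivity
    have a3 := mul_le_mul_of_nonneg_right a1 a2
    linarith
  have main := hnum T η M (fun n j => ρ' n (T - j)) (fun n j => K n * (6 * b) ^ ((n + 1) * j) * η)
    hη0 (by
      intro j hj
      refine hsup j _ fun x hx => ?_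
      obtain ⟨y, hy, -, h2⟩ := hch.iter hq hq1 hb j 1 (by omega) x hx
      rw [pow_one] at h2
      exact h2.trans (mul_le_mul_of_nonneg_left (hle _ (by omega) y hy) (by positivity)))
    (hsup T _ hfT) (by intro n _; simp only [Nat.sub_self, hρ', rrec]; exact le_rfl) (by
      intro n _ j hj
      have e : T - j = T - (j + 1) + 1 := by omega
      have e2 : T - (T - (j + 1)) = j + 1 := by omega
      simp only [e, hρ', rrec, e2]; exact le_rfl) (fun n _ j _ => le_rfl) (by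
      intro n hn j i hji
      refine hsup j _ fun x hx => ?_
      obtain ⟨y, hy, h1, h2⟩ := hch.iter hq hq1 hb j i hji x hx
      refine h2.trans (mul_le_mul_of_nonneg_left ?_ (by positivity))
      obtain ⟨h0, h3⟩ := hrem n (T - (j + i)) (by omega)
      rw [show T - (T - (j + i)) = j + i by omega] at h3
      have a1 := h3 y hy
      have a2 := hpol n hn (j + i) hji y (mem_ball_zero_iff.1 hy).le
      have a3 : ‖y‖ ≤ q ^ i * R :=
        h1.trans (mul_le_mul_of_nonneg_left (mem_ball_zero_iff.1 hx).le (by positivity))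
      have a4 : ρ' n (T - (j + i)) * ‖y‖ ^ (n + 1) ≤ ρ' n (T - (j + i)) * (q ^ i * R) ^ (n + 1) := by
        gcongr
      have a5 := norm_add_le (tay n (f (j + i)) y) (f (j + i) y - tay n (f (j + i)) y)
      rw [add_sub_cancel] at a5
      linarith)
  intro x hx
  exact (hle 0 (Nat.zero_le _) x hx).trans main

end Crest.Agent.N221.PS
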