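import Crest.Agent.N221.G0.Net
import Crest.Agent.N221.G0.Ps2

/-!
Row 221, block G0 (helper18): LM, the local lower modulus along a chain.  If `‖F‖ |μ| ≤ A` near `y`
(`μ = 1 / ψ(Θ)`, `A` = `C^0` bound of the direction) and `μ` has crude `C^k` bounds on the ball of
radius `e^{-s T}`, then `sup ‖F‖ ≤ C e^{κ T} A / |μ y|` on the whole plaque.
-/

set_option autoImplicit false

open Set Metric Finset Filter Real
open scoped ContDiff Topology

namespace Crest.Agent.N221.G0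

theorem lm (E V : Type) [NormedAddCommGroup E] [NormedSpace ℝ E] [FiniteDimensional ℝ E]
    [NormedAddCommGroup V] [NormedSpace ℝ V] [FiniteDimensional ℝ V] (R q b α κ : ℝ) (c : ℕ → ℝ)
    (hR : 0 < R) (hq : 0 < q) (hq1 : q < 1) (hb : 1 ≤ b) (hα : 0 < α) (hκ : 0 < κ) :
    ∃ (s : ℝ) (k : ℕ), 0 < s ∧ ∀ d : ℕ → ℝ, ∃ (C : ℝ) (T0 : ℕ), 0 < C ∧ ∀ T : ℕ, T0 ≤ T →
      ∀ (F : E → V) (μ : E → ℝ) (y : E) (A : ℝ), 1 ≤ A →
      (∀ x₀ ∈ ball y (exp (-(s * T))), ∃ (ψ : ℕ → E → E) (B : ℕ → E → V →L[ℝ] V) (f : ℕ → E → V),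
        PS.Chain R q b c T ψ B f ∧
        (∀ i, ∀ x ∈ ball (0 : E) R, ‖iteratedFDeriv ℝ i (f T) x‖ ≤ d i * exp (α * T)) ∧
        ∀ x ∈ ball (0 : E) R, f 0 x = F (x₀ + x)) →
      ContDiffOn ℝ ∞ F (ball y (exp (-(s * T)))) → ContDiffOn ℝ ∞ μ (ball y (exp (-(s * T)))) →
      (∀ i, ∀ x ∈ ball y (exp (-(s * T))), ‖iteratedFDeriv ℝ i F x‖ ≤ d i * exp (α * T)) →
      (∀ x ∈ ball y (exp (-(s * T))), ‖iteratedFDeriv ℝ k μ x‖ ≤ d k * exp (α * T)) →
      exp (-(α * T)) ≤ d 0 * |μ y| → |μ y| ≤ d 0 * exp (α * T) →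
      (∀ x ∈ ball y (exp (-(s * T))), ‖F x‖ * |μ x| ≤ A) →
      ∀ x ∈ ball y (R - exp (-(s * T))), ‖F x‖ ≤ C * exp (κ * T) * (A / |μ y|) := by
  have := FiniteDimensional.complete ℝ V
  obtain ⟨n, h1⟩ := PS.ps' E V R q b α (κ / 2) c hR hq hq1 hb hα (by linarith)
  set s := κ / 2 / (n + 1) with hs
  have s0 : 0 < s := by positivity
  obtain ⟨k, hk⟩ := exists_nat_ge ((2 * α + 1) / s)
  rw [div_le_iff₀ s0] at hk
  refine ⟨s, k + 1, s0, fun d => ?_⟩
  obtain ⟨C1, c1, h1⟩ := h1 d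
  obtain ⟨C2, c2, h2⟩ := lm0 k (n + (k + 1))
  obtain ⟨T0, hT0⟩ := exists_nat_ge (|d 0| * |d (k + 1)|)
  refine ⟨C1 * (C2 * (1 + |d (n + (k + 1))| * |d 0|) + |d 0|), T0, by positivity,
    fun T hT F μ y A hA hch hF hμ dF dμ lo up hFA x hx => ?_⟩
  set ρ := exp (-(s * T)) with hρ
  have ρ0 : 0 < ρ := exp_pos _
  have T0' : (0 : ℝ) ≤ T := Nat.cast_nonneg _
  have ρ1 : ρ ≤ 1 := exp_le_one_iff.2 (by nlinarith)
  have E0 : 0 < exp (-(α * T)) := exp_pos _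
  have y0 : 0 < |μ y| := by
    refine (abs_nonneg _).lt_of_ne' fun e => ?_
    rw [e, mul_zero] at lo
    linarith
  have d0 : 0 < d 0 := (mul_pos_iff_of_pos_right y0).1 (E0.trans_le lo)
  have key : exp (α * T) * ρ ^ (k + 1) ≤ exp (-(α * T)) * exp (-T) := by
    rw [hρ, ← exp_nat_mul, ← exp_add, ← exp_add]
    refine exp_le_exp.2 ?_
    push_cast
    nlinarith [mul_le_mul_of_nonneg_right hk T0', mul_nonneg s0.le T0']
  have eT : exp (-(T : ℝ)) ≤ 1 := exp_le_one_iff.2 (by linarith)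
  have low : exp (-(α * T)) ≤ d 0 * (A / |μ y|) := by
    rw [← mul_div_assoc, le_div_iff₀ y0]
    have a1 := mul_le_mul_of_nonneg_left up E0.le
    have a2 : exp (-(α * T)) * (d 0 * exp (α * T)) = d 0 := by
      rw [mul_left_comm, ← exp_add, neg_add_cancel, exp_zero, mul_one]
    nlinarith
  obtain ⟨x₀, hx₀, h3⟩ := h2 E V F μ y ρ A (|d (k + 1)| * exp (α * T))
    (|d (n + (k + 1))| * exp (α * T)) ρ0 hμ (hF.of_le (by exact_mod_cast le_top)) (abs_pos.1 y0)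
    (fun x hx => (dμ x hx).trans (by gcongr; exact le_abs_self _)) (by
      have a1 : |d 0| * |d (k + 1)| * exp (-(T : ℝ)) ≤ 1 := by
        have b1 : (T0 : ℝ) ≤ T := by exact_mod_cast hT
        have b2 := add_one_le_exp (T : ℝ)
        rw [exp_neg, mul_inv_le_iff₀ (exp_pos _)]
        linarith
      rw [abs_of_pos d0] at a1
      have a2 := mul_le_mul_of_nonneg_left key (abs_nonneg (d (k + 1)))
      have a3 : |d (k + 1)| * (exp (-(α * T)) * exp (-T)) ≤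
          |d (k + 1)| * (d 0 * |μ y| * exp (-T)) := by gcongr
      nlinarith) hFA (fun x hx => (dF _ x hx).trans (by gcongr; exact le_abs_self _))
  obtain ⟨ψ, B, f, hc, hd, he⟩ := hch x₀ hx₀
  set Z := A / |μ y| with hZ
  have Z0 : 0 ≤ Z := by positivity
  have one : 1 ≤ exp (κ / 2 * T) := one_le_exp (by positivity)
  have jet : ∀ i ≤ n, ‖iteratedFDeriv ℝ i (f 0) 0‖ ≤
      C2 * (1 + |d (n + (k + 1))| * |d 0|) * (exp (κ / 2 * T) * Z) := fun i hi => by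
    have e : f 0 =ᶠ[𝓝 0] fun x => F (x₀ + x) := by
      filter_upwards [ball_mem_nhds (0 : E) hR] with x hx using he x hx
    rw [(e.iteratedFDeriv ℝ i).eq_of_nhds, iteratedFDeriv_comp_add_left, add_zero]
    refine (h3 i (by omega)).trans ?_
    rw [mul_assoc C2]
    refine mul_le_mul_of_nonneg_left ?_ (by linarith)
    have a1 : Z / ρ ^ i ≤ exp (κ / 2 * T) * Z := by
      rw [div_eq_inv_mul, hρ, ← exp_nat_mul, ← exp_neg]
      refine mul_le_mul_of_nonneg_right (exp_le_exp.2 ?_) Z0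
      have b1 : (i : ℝ) ≤ n + 1 := by exact_mod_cast (by omega : i ≤ n + 1)
      have b2 : (n + 1 : ℝ) * s = κ / 2 := by rw [hs]; field_simp
      nlinarith [mul_le_mul_of_nonneg_right b1 (mul_nonneg s0.le T0')]
    have a2 : ρ ^ (n + (k + 1) - i) ≤ ρ ^ (k + 1) := pow_le_pow_of_le_one ρ0.le ρ1 (by omega)
    have a3 : exp (α * T) * ρ ^ (n + (k + 1) - i) ≤ |d 0| * (exp (κ / 2 * T) * Z) := by
      rw [abs_of_pos d0]
      calc _ ≤ exp (α * T) * ρ ^ (k + 1) := by gcongr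
        _ ≤ exp (-(α * T)) * 1 := key.trans (by gcongr)
        _ ≤ d 0 * (1 * Z) := by rw [mul_one, one_mul]; exact low
        _ ≤ _ := by gcongr
    have a4 := mul_le_mul_of_nonneg_left a3 (abs_nonneg (d (n + (k + 1))))
    nlinarith
  have hx' : x - x₀ ∈ ball (0 : E) R := by
    rw [mem_ball_zero_iff, ← dist_eq_norm]
    linarith [dist_triangle_right x x₀ y, mem_ball.1 hx, mem_ball.1 hx₀]
  have main := h1 T ψ B f _ hc hd jet _ hx'
  rw [he _ hx', add_sub_cancel] at main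
  refine main.trans ?_
  have a5 : exp (-(α * T)) ≤ |d 0| * (exp (κ / 2 * T) * Z) := by
    rw [abs_of_pos d0]
    exact low.trans (mul_le_mul_of_nonneg_left (le_mul_of_one_le_left Z0 one) d0.le)
  have a6 : exp (κ * T) = exp (κ / 2 * T) * exp (κ / 2 * T) := by rw [← exp_add]; congr 1; ring
  rw [a6]
  calc _ ≤ C1 * exp (κ / 2 * T) * (C2 * (1 + |d (n + (k + 1))| * |d 0|) * (exp (κ / 2 * T) * Z) +
        |d 0| * (exp (κ / 2 * T) * Z)) := by gcongr
    _ = _ := by ring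

end Crest.Agent.N221.G0
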