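import Crest.Agent.N221.G0.ApB
import Crest.Agent.N221.X.Int

/-!
Row 221, block G0 (helper18): reciprocals of families of germs, and the jets of the direction
`Θ / ψ Θ` at a node (a point near which `Θ` is almost parallel to a form `Θ'` with small jets).
-/

set_option autoImplicit false

open Set Metric Finset Filter
open scoped ContDiff Nat Topology

namespace Crest.Agent.N221.G0

section
variable {ι X Y : Type} [NormedAddCommGroup X] [NormedSpace ℝ X] [NormedAddCommGroup Y]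
  [NormedSpace ℝ Y] {n : ℕ}

lemma GB.inv0 (n : ℕ) {y m : ι → ℝ} (h1 : ∀ i, 1 ≤ m i) (hy : ∀ i, 1 ≤ m i * |y i|) :
    GB n (fun (_ : ι) (t : ℝ) => t⁻¹) y m m := by
  have y0 : ∀ i, 0 < |y i| := fun i => by
    refine (abs_nonneg _).lt_of_ne' fun e => ?_
    have := hy i
    rw [e, mul_zero] at this
    linarith
  refine ⟨fun i => contDiffAt_inv ℝ (abs_pos.1 (y0 i)), h1, n !, by positivity, fun i k hk => ?_⟩
  rw [norm_iteratedFDeriv_eq_norm_iteratedDeriv, iteratedDeriv_eq_iterate]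
  have e := iter_deriv_inv k (y i)
  rw [show (fun t : ℝ => t⁻¹) = Inv.inv from rfl, e, norm_mul, norm_mul, norm_pow, norm_neg, norm_one,
    one_pow, one_mul, Real.norm_natCast, norm_zpow, Real.norm_eq_abs,
    show (-1 - k : ℤ) = -((k + 1 : ℕ) : ℤ) by push_cast; ring, zpow_neg, zpow_natCast, ← inv_pow,
    mul_assoc, ← pow_succ']
  have a1 : (k ! : ℝ) ≤ n ! := by exact_mod_cast Nat.factorial_le hk
  have a2 : |y i|⁻¹ ≤ m i := by rw [inv_le_iff_one_le_mul₀ (y0 i)]; exact hy i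
  have := y0 i
  gcongr

/-- reciprocal -/
lemma GB.invm {u : ι → X → ℝ} {x : ι → X} {M D m : ι → ℝ} (h : GB n u x M D) (hM : ∀ i, 1 ≤ M i)
    (h1 : ∀ i, 1 ≤ m i) (hu : ∀ i, 1 ≤ m i * |u i (x i)|) :
    GB n (fun i z => (u i z)⁻¹) x m (fun i => m i * (M i * D i)) := by
  obtain ⟨c, c0, hc⟩ := h.bd
  refine (GB.inv0 n h1 hu).comp h.sm (fun _ => rfl)
    (fun i => one_le_mul_of_one_le_of_one_le (hM i) (h.one i)) ⟨c, fun i k k1 hk => ?_⟩
  refine (hc i k hk).trans ?_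
  have := hM i
  have := h.one i
  rw [mul_pow, mul_assoc]
  gcongr
  exact le_self_pow₀ (hM i) (by omega)

/-- from bounds `c k * E ^ (k + 1)` -/
lemma GB.of_pow (n : ℕ) (c : ℕ → ℝ) {f : ι → X → Y} {x : ι → X} {E : ι → ℝ} (h1 : ∀ i, 1 ≤ E i)
    (hs : ∀ i, ContDiffAt ℝ ∞ (f i) (x i))
    (hb : ∀ i k, ‖iteratedFDeriv ℝ k (f i) (x i)‖ ≤ c k * E i ^ (k + 1)) : GB n f x E E := by
  refine ⟨hs, h1, 1 + ∑ k ∈ range (n + 1), |c k|, by positivity, fun i k hk => (hb i k).trans ?_⟩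
  have a1 : c k ≤ 1 + ∑ k ∈ range (n + 1), |c k| := by
    have := single_le_sum (f := fun k => |c k|) (fun _ _ => abs_nonneg _)
      (mem_range.2 (Nat.lt_succ_of_le hk))
    linarith [le_abs_self (c k)]
  have := h1 i
  rw [pow_succ', ← mul_assoc]
  gcongr

end

lemma pw_le {E : ℝ} (h1 : 1 ≤ E) {a b c : ℕ} (h : a + c ≤ b) :
    E ^ a * (E ^ b)⁻¹ ≤ (E ^ c)⁻¹ := by
  rw [← div_eq_mul_inv, div_le_iff₀ (by positivity), inv_mul_eq_div, le_div_iff₀ (by positivity),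
    ← pow_add]
  exact pow_le_pow_right₀ h1 h

/-- the data at a node -/
structure Nod (X V : Type) [NormedAddCommGroup X] [NormedSpace ℝ X] [NormedAddCommGroup V]
    [NormedSpace ℝ V] (n : ℕ) (c : ℕ → ℝ) (A : ℝ) where
  E : ℝ
  E' : ℝ
  p : X
  Θ : X → V
  Θ' : X → V
  ψ : V →L[ℝ] ℝ
  two : 2 ≤ E
  one : 1 ≤ E'
  le : E' ≤ E
  hψ : ‖ψ‖ ≤ 1
  sm : ∀ y ∈ ball p (E ^ 2)⁻¹, ContDiffAt ℝ ∞ Θ y ∧ ContDiffAt ℝ ∞ Θ' y
  bd : ∀ y ∈ ball p (E ^ 2)⁻¹, ∀ k, ‖iteratedFDeriv ℝ k Θ y‖ ≤ c k * E ^ (k + 1) ∧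
    ‖iteratedFDeriv ℝ k Θ' y‖ ≤ c k * E' ^ (k + 1)
  fl : 1 ≤ E ^ 2 * |ψ (Θ p)|
  fl' : 1 ≤ E' * ‖Θ' p‖
  dir : ‖Θ p‖ ≤ A * |ψ (Θ p)|
  par : ∀ y ∈ ball p (E ^ 2)⁻¹, ‖ψ (Θ y) • Θ' y - ψ (Θ' y) • Θ y‖ ≤ (E ^ (6 * n + 4))⁻¹

/-- NODE JETS -/
theorem nj (X V : Type) [NormedAddCommGroup X] [NormedSpace ℝ X] [NormedAddCommGroup V]
    [NormedSpace ℝ V] [CompleteSpace V] (n : ℕ) (c : ℕ → ℝ) (A : ℝ) : ∃ C : ℝ, 0 < C ∧
    ∀ t : Nod X V n c A, ∀ i ≤ n,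
      ‖iteratedFDeriv ℝ i (fun z => (t.ψ (t.Θ z))⁻¹ • t.Θ z) t.p‖ ≤ C * t.E' ^ (3 * (i + 1)) := by
  set T := Nod X V n c A
  have E1 : ∀ t : T, 1 ≤ t.E := fun t => by linarith [t.two]
  have r0 : ∀ t : T, 0 < (t.E ^ 2)⁻¹ := fun t => by have := E1 t; positivity
  have pm : ∀ t : T, t.p ∈ ball t.p (t.E ^ 2)⁻¹ := fun t => mem_ball_self (r0 t)
  set A' := max 1 (2 * A) with hA'
  have A1 : 1 ≤ A' := le_max_left _ _
  have fl2 : ∀ t : T, 1 ≤ A' * t.E' * |t.ψ (t.Θ' t.p)| := fun t => by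
    have e1 := E1 t
    have e2 := t.one
    have a1 := t.par _ (pm t)
    have a2 := norm_add_le (t.ψ (t.Θ t.p) • t.Θ' t.p - t.ψ (t.Θ' t.p) • t.Θ t.p)
      (t.ψ (t.Θ' t.p) • t.Θ t.p)
    rw [sub_add_cancel, norm_smul, norm_smul, Real.norm_eq_abs, Real.norm_eq_abs] at a2
    have a3 := mul_le_mul_of_nonneg_left t.dir (abs_nonneg (t.ψ (t.Θ' t.p)))
    have g0 : 0 < |t.ψ (t.Θ t.p)| := by
      refine (abs_nonneg _).lt_of_ne' fun e => ?_
      have := t.fl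
      rw [e, mul_zero] at this
      linarith
    have a4 : t.E' * (t.E ^ (6 * n + 4))⁻¹ ≤ |t.ψ (t.Θ t.p)| / 2 := by
      rw [← div_eq_mul_inv, div_le_iff₀ (by positivity)]
      have b1 : t.E ^ 4 ≤ t.E ^ (6 * n + 4) := pow_le_pow_right₀ e1 (by omega)
      have b2 : t.E' * 2 ≤ t.E ^ 2 := by nlinarith [t.le, t.two]
      have b3 := mul_le_mul_of_nonneg_left t.fl (show 0 ≤ t.E ^ 2 by positivity)
      nlinarith
    have a5 := mul_le_mul_of_nonneg_left t.fl' g0.le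
    have a6 : |t.ψ (t.Θ t.p)| * 1 ≤ |t.ψ (t.Θ t.p)| * (2 * A * t.E' * |t.ψ (t.Θ' t.p)|) := by
      nlinarith [mul_le_mul_of_nonneg_left (a2.trans (add_le_add a1 a3)) (zero_le_one.trans e2)]
    refine (le_of_mul_le_mul_left a6 g0).trans ?_
    gcongr
    exact le_max_right _ _
  have G1 : GB n (fun t : T => t.Θ) (·.p) (·.E) (·.E) :=
    GB.of_pow n c E1 (fun t => (t.sm _ (pm t)).1) fun t k => (t.bd _ (pm t) k).1
  have G2 : GB n (fun t : T => t.Θ') (·.p) (·.E') (·.E') :=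
    GB.of_pow n c (·.one) (fun t => (t.sm _ (pm t)).2) fun t k => (t.bd _ (pm t) k).2
  have g1 := (G1.clm' (fun t => t.ψ) fun t => t.hψ).invm (m := fun t => t.E ^ 2)
    (fun t => by simpa using E1 t) (fun t => one_le_pow₀ (E1 t)) fun t => t.fl
  have g2 := ((G2.clm' (fun t => t.ψ) fun t => t.hψ).invm (m := fun t => A' * t.E')
    (fun t => by simpa using t.one) (fun t => one_le_mul_of_one_le_of_one_le A1 t.one) fl2).absorb
    (M' := (·.E')) (D' := fun t => t.E' ^ 3) A1 (fun _ => le_rfl) (fun t => le_of_eq (by ring))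
    fun t => one_le_pow₀ t.one
  have W2 := g2.fsmul (G2.mono (D' := fun t => t.E' ^ 3) le_rfl (fun _ => le_rfl)
    fun t => le_self_pow₀ t.one (by norm_num))
  -- the defect
  set N := 6 * n + 5 with hN
  let U := {s : T × X // s.2 ∈ ball s.1.p (s.1.E ^ 2)⁻¹}
  have H1 : GB N (fun s : U => s.1.1.Θ) (·.1.2) (·.1.1.E) (·.1.1.E) :=
    GB.of_pow N c (fun s => E1 _) (fun s => (s.1.1.sm _ s.2).1) fun s k => (s.1.1.bd _ s.2 k).1
  have H2 : GB N (fun s : U => s.1.1.Θ') (·.1.2) (·.1.1.E) (·.1.1.E) :=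
    (GB.of_pow N c (fun s : U => s.1.1.one) (fun s => (s.1.1.sm _ s.2).2)
      fun s k => (s.1.1.bd _ s.2 k).2).mono le_rfl (fun s => s.1.1.le) fun s => s.1.1.le
  have H3 := ((H1.clm' (fun s => s.1.1.ψ) fun s => s.1.1.hψ).fsmul H2).sub
    ((H2.clm' (fun s => s.1.1.ψ) fun s => s.1.1.hψ).fsmul H1)
  obtain ⟨c3, c30, hc3⟩ := H3.bd
  obtain ⟨C4, C40, h4⟩ := Crest.Agent.N221.X.int_all N
  have P : GB n (fun (t : T) y => t.ψ (t.Θ y) • t.Θ' y - t.ψ (t.Θ' y) • t.Θ y) (·.p)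
      (fun t => (t.E ^ (4 * n + 3))⁻¹) (fun t => t.E ^ 4) := by
    refine ⟨fun t => H3.sm ⟨(t, t.p), pm t⟩, fun t => one_le_pow₀ (E1 t), C4 * (1 + c3),
      by positivity, fun t k hk => ?_⟩
    have e1 := E1 t
    refine (h4 X V _ t.p _ _ (c3 * (1 * t.E * t.E) * t.E ^ N) (r0 t)
      (fun y hy => (cda (H3.sm ⟨(t, y), hy⟩) N).contDiffWithinAt) t.par
      (fun y hy => hc3 ⟨(t, y), hy⟩ N le_rfl) k (by omega) _
      (mem_ball_self (half_pos (r0 t)))).trans ?_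
    refine le_trans ?_ (le_mul_of_one_le_right (by positivity) (one_le_pow₀ (one_le_pow₀ e1)))
    rw [mul_assoc C4, add_mul, one_mul]
    refine mul_le_mul_of_nonneg_left (add_le_add ?_ ?_) C40.le
    · have := pw_le e1 (a := 2 * k) (b := 6 * n + 4) (c := 4 * n + 3) (by omega)
      rw [inv_pow, div_inv_eq_mul, ← pow_mul]
      linarith
    · have := pw_le e1 (a := 2 + N) (b := 2 * (N - k)) (c := 4 * n + 3) (by omega)
      rw [inv_pow, ← pow_mul]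
      refine le_trans (le_of_eq ?_) (mul_le_mul_of_nonneg_left this c30.le)
      rw [pow_add]; ring
  have W3 := (g1.mono (D' := fun t => t.E ^ 4) le_rfl (fun _ => le_rfl)
    fun t => le_of_eq (by ring)).fsmul ((g2.mono (M' := (·.E)) (D' := fun t => t.E ^ 4) le_rfl (·.le)
      fun t => (pow_le_pow_left₀ (zero_le_one.trans t.one) t.le 3).trans
        (pow_le_pow_right₀ (E1 t) (by norm_num))).fsmul P)
  obtain ⟨c2, c20, hc2⟩ := W2.bd
  obtain ⟨c5, c50, hc5⟩ := W3.bd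
  refine ⟨c2 + c5, by positivity, fun t i hi => ?_⟩
  have e1 := E1 t
  have e2 := t.one
  have n1 : ∀ᶠ y in 𝓝 t.p, t.ψ (t.Θ y) ≠ 0 :=
    (t.ψ.continuous.continuousAt.comp (G1.sm t).continuousAt).eventually_ne fun e => by
      have := t.fl
      rw [show t.ψ (t.Θ t.p) = 0 from e, abs_zero, mul_zero] at this
      linarith
  have n2 : ∀ᶠ y in 𝓝 t.p, t.ψ (t.Θ' y) ≠ 0 :=
    (t.ψ.continuous.continuousAt.comp (G2.sm t).continuousAt).eventually_ne fun e => by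
      have := fl2 t
      rw [show t.ψ (t.Θ' t.p) = 0 from e, abs_zero, mul_zero] at this
      linarith
  have e : (fun z => (t.ψ (t.Θ z))⁻¹ • t.Θ z) =ᶠ[𝓝 t.p] fun y => (t.ψ (t.Θ' y))⁻¹ • t.Θ' y -
      (t.ψ (t.Θ y))⁻¹ • (t.ψ (t.Θ' y))⁻¹ • (t.ψ (t.Θ y) • t.Θ' y - t.ψ (t.Θ' y) • t.Θ y) := by
    filter_upwards [n1, n2] with y a b
    match_scalars <;> field_simp
    ring
  rw [(e.iteratedFDeriv ℝ i).eq_of_nhds,
    fun_iteratedFDeriv_sub_apply (cda (W2.sm t) i) (cda (W3.sm t) i)]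
  refine (norm_sub_le _ _).trans ((add_le_add (hc2 t i hi) (hc5 t i hi)).trans ?_)
  rw [add_mul, mul_assoc c2, mul_assoc c5]
  refine add_le_add (mul_le_mul_of_nonneg_left ?_ c20.le) (mul_le_mul_of_nonneg_left ?_ c50.le)
  · rw [← pow_two, ← pow_mul, ← pow_add]
    exact pow_le_pow_right₀ e2 (by omega)
  · refine le_trans ?_ (one_le_pow₀ e2)
    rw [← mul_assoc, ← pow_succ, ← pow_mul, mul_right_comm, ← pow_add, ← div_eq_mul_inv,
      div_le_one (by positivity)]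
    exact pow_le_pow_right₀ e1 (by omega)

end Crest.Agent.N221.G0
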