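import Crest.Agent.N221.G0.ApS
import Crest.Agent.N221.G0.ApA
import Crest.Agent.N221.G0.Nj
import Crest.Agent.N221.Ex.UB

/-! Row 221, block G0 (helper55): jets of the normalised source at a node. -/

set_option autoImplicit false

open Set Metric Filter Finset
open scoped ContDiff Nat Topology

namespace Crest.Agent.N221.G0

open Real Ex

lemma exp_lev (a : ℝ) (k j : ℕ) : exp (a * (k + 1) * j) = exp (a * j) ^ (k + 1) := by
  rw [← exp_nat_mul]; congr 1; push_cast; ring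

lemma ev_big {a : ℝ} (ha : 0 < a) (κ : ℝ) : ∃ j₀ : ℕ, ∀ j : ℕ, j₀ ≤ j → κ ≤ exp (a * j) := by
  obtain ⟨j₀, h⟩ := exists_nat_ge (κ / a)
  refine ⟨j₀, fun j hj => ?_⟩
  have h1 : (j₀ : ℝ) ≤ j := by exact_mod_cast hj
  rw [div_le_iff₀ ha] at h
  nlinarith [add_one_le_exp (a * j)]

section
variable {E V V' X Y : Type} [NormedAddCommGroup E] [NormedSpace ℝ E] [NormedAddCommGroup V]
  [NormedSpace ℝ V] [NormedAddCommGroup V'] [NormedSpace ℝ V'] {B : LB E V V' X Y}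

lemma LB.Ok.ubg (h : B.Ok) : UB (fun _ : X => ball (0 : E) B.R) B.gs :=
  (UB.id (M := B.R) h.ubs.op fun _ _ hx => (mem_ball_zero_iff.1 hx).le).prod h.ubs

/-- slices of an ambient relation -/
lemma LB.Ok.slice [FiniteDimensional ℝ E] (h : B.Ok) (N : ℕ) : ∃ L : ℝ, 1 ≤ L ∧
    ∀ (Θ : E × E → V) (z p : E × E) (x : X) (ρ τ ε M b : ℝ), B.s x z.1 = z.2 → ‖z‖ < 2 * B.r →
      0 < ρ → ρ ≤ B.r → ‖z - p‖ + L * ρ ≤ τ → 1 ≤ b → L * M ≤ b →
      (∀ y ∈ ball p τ, ContDiffAt ℝ ∞ Θ y ∧ ‖B.io y (Θ y)‖ ≤ ε ∧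
        ∀ k ≤ N, ‖iteratedFDeriv ℝ k Θ y‖ ≤ M) →
      B.SR N x (fun y => Θ (B.gs x y)) z.1 ρ ε b := by
  have := FiniteDimensional.complete ℝ (E × E)
  obtain ⟨L1, l1, h1⟩ := h.ubg.taylor
  obtain ⟨L2, l2, h2⟩ := h.ubg.bdn N
  have f1 : (1 : ℝ) ≤ N ! := by exact_mod_cast Nat.factorial_pos N
  have p1 : 1 ≤ L2 ^ N := one_le_pow₀ l2
  refine ⟨max L1 (N ! * L2 ^ N), le_max_of_le_left l1, fun Θ z p x ρ τ ε M b hx hz hρ hr hτ hb hM hΘ
    => ?_⟩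
  have e : B.gs x z.1 = z := Prod.ext rfl hx
  have sub : ball z.1 ρ ⊆ ball 0 B.R := ball_subset_ball' (by
    rw [dist_zero_right]; linarith [norm_fst_le z, h.rR, h.rp])
  have mem : ∀ y ∈ ball z.1 ρ, B.gs x y ∈ ball p τ := fun y hy => by
    have a1 := ((h1 x).2 _ (convex_ball _ _) sub _ (mem_ball_self hρ) y hy).1
    have a2 : L1 * ‖y - z.1‖ < max L1 (N ! * L2 ^ N) * ρ :=
      (mul_lt_mul_of_pos_left (mem_ball_iff_norm.1 hy) (by linarith)).trans_le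
        (mul_le_mul_of_nonneg_right (le_max_left _ _) hρ.le)
    rw [e] at a1
    rw [mem_ball_iff_norm]
    linarith [norm_sub_le_norm_sub_add_norm_sub (B.gs x y) z p]
  have M0 : 0 ≤ M := (norm_nonneg _).trans ((hΘ _ (mem _ (mem_ball_self hρ))).2.2 0 (Nat.zero_le _))
  refine ⟨by rwa [e], hρ, by linarith [h.rR, h.R1, h.rp], hb, fun y hy => ?_,
    fun y hy => (hΘ _ (mem y hy)).2.1, fun y hy i hi => ?_⟩
  · exact (ContDiffAt.comp (g := Θ) y (hΘ _ (mem y hy)).1 (h.ubg.at (sub hy))).contDiffWithinAt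
  · refine (comp_at i (hΘ _ (mem y hy)).1 (h.ubg.at (sub hy)) (C := M) (D := L2)
      (fun k hk => (hΘ _ (mem y hy)).2.2 k (hk.trans hi)) fun k k1 hk =>
        (h2 k (hk.trans hi) x y (sub hy)).trans (le_self_pow₀ l2 (by omega))).trans (le_trans ?_ hM)
    have a1 : (i ! : ℝ) ≤ N ! := by exact_mod_cast Nat.factorial_le hi
    have a2 : L2 ^ i ≤ L2 ^ N := pow_le_pow_right₀ l2 hi
    calc _ ≤ N ! * M * L2 ^ N := by gcongr
      _ = N ! * L2 ^ N * M := by ring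
      _ ≤ _ := mul_le_mul_of_nonneg_right (le_max_right _ _) M0

end

set_option maxHeartbeats 1600000 in
theorem ndS : NdS := by
  intro E V V' X Y _ _ _ _ _ _ _ _ _ B hB r N a θ a₀ hθ ha ⟨CI, hI⟩ n m A0
  have := FiniteDimensional.complete ℝ V
  set P : ℕ := 1 + 2 * r + (N + 4) * a + 2 * (6 * n + 4) with hP
  have K0 : 0 ≤ a₀ * P / θ := by positivity
  refine ⟨a₀ * P / θ, K0, fun c c' => ?_⟩
  set d : ℕ → ℝ := fun k => max 1 (max (c k) (c' k)) with hd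
  have d1 : ∀ k, 1 ≤ d k := fun k => le_max_left _ _
  have dc : ∀ k, c k ≤ d k := fun k => (le_max_left _ _).trans (le_max_right _ _)
  have dc' : ∀ k, c' k ≤ d k := fun k => (le_max_right _ _).trans (le_max_right _ _)
  obtain ⟨C, C0, hC⟩ := nj (E × E) V n d A0
  obtain ⟨L, L1, hL⟩ := hB.slice N
  set dN := ∑ k ∈ range (N + 1), d k with hdN
  have dN1 : ∀ k ≤ N, d k ≤ dN := fun k hk =>
    single_le_sum (fun k _ => zero_le_one.trans (d1 k)) (mem_range.2 (by omega))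
  have r0 := hB.rp
  obtain ⟨j₀, hj₀⟩ := ev_big (by linarith : 0 < a₀)
    (2 + L + L * dN + B.r⁻¹ + 2 * d 0 + d 0 * |A0| + 2 * d 0 * d 1 + |CI|)
  refine ⟨C * d 0 ^ (3 * (n + 1)), j₀, fun j s hj hs hm ψ z Θ Θ' hψ hz h1 h2 f1 f2 ne hA i hi => ?_⟩
  have big := hj₀ j hj
  have a0 := d1 0
  have a1 := d1 1
  have a2 := (d1 0).trans (dN1 0 (Nat.zero_le _))
  have a3 : 0 ≤ L * dN := by positivity
  have a4 : 0 < B.r⁻¹ := by positivity
  have a5 : 0 ≤ d 0 * |A0| := by positivity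
  have a6 : 0 ≤ 2 * d 0 * d 1 := by positivity
  have a7 := abs_nonneg CI
  simp only [LB.Cr, exp_lev, exp_neg] at h1 h2 f1 f2
  have GF : exp (a₀ * s) ≤ exp (a₀ * j) :=
    exp_le_exp.2 (mul_le_mul_of_nonneg_left (by exact_mod_cast hs) (by linarith))
  have G1 : 1 ≤ exp (a₀ * s) := one_le_exp (by positivity)
  have eε : ((exp (a₀ * P / θ * j))⁻¹) ^ θ = (exp (a₀ * j) ^ P)⁻¹ := by
    rw [← exp_neg, ← exp_mul, ← exp_nat_mul, ← exp_neg]; congr 1; field_simp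
  have eε' : (exp (m * (a₀ * P / θ) * s))⁻¹ ≤ (exp (a₀ * P / θ * j))⁻¹ := by
    refine inv_anti₀ (exp_pos _) (exp_le_exp.2 ?_)
    have : (j : ℝ) ≤ m * s := by exact_mod_cast hm
    nlinarith
  have fin : exp (a₀ * s) ^ (3 * (i + 1)) ≤ exp (4 * a₀ * (i + 1) * s) := by
    rw [← exp_nat_mul]
    refine exp_le_exp.2 ?_
    push_cast
    nlinarith [show (0 : ℝ) ≤ a₀ * (i + 1) * s by positivity]
  generalize exp (a₀ * s) = G at *
  generalize exp (a₀ * j) = F at *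
  generalize (exp (a₀ * P / θ * j))⁻¹ = ε at *
  have F2 : 2 ≤ F := by linarith
  have F1 : 1 ≤ F := by linarith
  have F0 : 0 < F := by linarith
  have i1 : F⁻¹ ≤ G⁻¹ := inv_anti₀ (by linarith) GF
  have i2 : F⁻¹ ≤ B.r := by rw [inv_le_comm₀ F0 r0]; linarith
  have i3 : (F ^ 2)⁻¹ ≤ F⁻¹ := inv_anti₀ F0 (le_self_pow₀ F1 two_ne_zero)
  have i4 : ((F ^ 2) ^ 2)⁻¹ ≤ (F ^ 2)⁻¹ :=
    inv_anti₀ (by positivity) (le_self_pow₀ (one_le_pow₀ F1) two_ne_zero)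
  have i5 : (F ^ 2)⁻¹ + L * (F ^ 2)⁻¹ ≤ F⁻¹ := by
    rw [← one_add_mul, ← div_eq_mul_inv, div_le_iff₀ (by positivity), sq, inv_mul_cancel_left₀ F0.ne']
    linarith
  have s1 : ball z ((F ^ 2) ^ 2)⁻¹ ⊆ ball z F⁻¹ := ball_subset_ball (i4.trans i3)
  have s2 : ball z F⁻¹ ⊆ ball z G⁻¹ := ball_subset_ball i1
  have b1 : ∀ y ∈ ball z F⁻¹, ∀ k, ‖iteratedFDeriv ℝ k Θ y‖ ≤ d k * F ^ (k + 1) := fun y hy k =>
    ((h1 y hy).2.2 k).trans (by have := dc k; gcongr)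
  have b2 : ∀ y ∈ ball z F⁻¹, ∀ k, ‖iteratedFDeriv ℝ k Θ' y‖ ≤ d k * G ^ (k + 1) := fun y hy k =>
    ((h2 y (s2 hy)).2.2 k).trans (by have := dc' k; gcongr)
  have bN : ∀ k ≤ N, d k * F ^ (k + 1) ≤ dN * F ^ (N + 1) := fun k hk => by
    have := dN1 k hk
    have := pow_le_pow_right₀ F1 (Nat.succ_le_succ hk)
    gcongr
  have bL : L * (dN * F ^ (N + 1)) ≤ F ^ (N + 2) := by
    rw [← mul_assoc, pow_succ' F (N + 1)]
    gcongr
    linarith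
  have fl' : 1 ≤ d 0 * G * ‖Θ' z‖ := by
    rw [inv_le_iff_one_le_mul₀ (by linarith)] at f2
    have := dc' 0
    calc _ ≤ c' 0 * ‖Θ' z‖ * G := f2
      _ ≤ d 0 * ‖Θ' z‖ * G := by gcongr
      _ = _ := by ring
  have dir := norm_le_nrm ne hA
  have par : ∀ y ∈ ball z ((F ^ 2) ^ 2)⁻¹,
      ‖ψ (Θ y) • Θ' y - ψ (Θ' y) • Θ y‖ ≤ ((F ^ 2) ^ (6 * n + 4))⁻¹ := fun y hy => by
    have hy' := mem_ball_iff_norm.1 hy
    have y2 : ‖y‖ < 2 * B.r := by linarith [norm_le_norm_add_norm_sub' y z]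
    obtain ⟨x, hx⟩ := hB.cov y y2
    have t1 := hL Θ y z x (F ^ 2)⁻¹ F⁻¹ ε _ _ hx y2 (by positivity) (i3.trans i2) (by linarith)
      (one_le_pow₀ F1) bL fun w hw => ⟨(h1 w hw).1, (h1 w hw).2.1, fun k hk =>
        (b1 w hw k).trans (bN k hk)⟩
    have t2 := hL Θ' y z x (F ^ 2)⁻¹ F⁻¹ ε _ _ hx y2 (by positivity) (i3.trans i2) (by linarith)
      (one_le_pow₀ F1) bL fun w hw => ⟨(h2 w (s2 hw)).1, (h2 w (s2 hw)).2.1.trans eε', fun k hk =>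
        (b2 w hw k).trans (le_trans (by have := d1 k; gcongr) (bN k hk))⟩
    have t3 := hI x _ _ _ _ _ _ t2 t1 ψ hψ
    have e : B.gs x y.1 = y := Prod.ext rfl hx
    simp only [e] at t3
    rw [norm_sub_rev, eε, div_inv_eq_mul, ← pow_add, ← pow_mul] at t3
    have lip : ‖Θ' y - Θ' z‖ ≤ d 1 * F ^ 2 * ‖y - z‖ :=
      (convex_ball z F⁻¹).norm_image_sub_le_of_norm_fderiv_le (𝕜 := ℝ)
        (fun w hw => (h2 w (s2 hw)).1.differentiableAt (by simp)) (fun w hw => by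
          have := b2 w hw 1
          rw [← norm_iteratedFDeriv_fderiv, norm_iteratedFDeriv_zero] at this
          exact this.trans (by gcongr)) (mem_ball_self (by positivity)) (s1 hy)
    have low : 1 ≤ F ^ 2 * ‖Θ' y‖ := by
      have u1 : d 1 * F ^ 2 * ‖y - z‖ ≤ d 1 * (F ^ 2)⁻¹ := by
        calc _ ≤ d 1 * F ^ 2 * ((F ^ 2) ^ 2)⁻¹ := by gcongr
          _ = _ := by field_simp
      have u2 : ‖Θ' z‖ ≤ ‖Θ' y‖ + d 1 * (F ^ 2)⁻¹ := by
        linarith [norm_le_norm_add_norm_sub (Θ' y) (Θ' z)]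
      have u3 : 1 ≤ d 0 * F * (‖Θ' y‖ + d 1 * (F ^ 2)⁻¹) := fl'.trans (by gcongr)
      have u4 : d 0 * F * (d 1 * (F ^ 2)⁻¹) ≤ 1 / 2 := by
        rw [show d 0 * F * (d 1 * (F ^ 2)⁻¹) = d 0 * d 1 / F by field_simp, div_le_iff₀ F0]
        linarith
      have u5 : 2 * d 0 * F * ‖Θ' y‖ ≤ F * F * ‖Θ' y‖ := by gcongr; linarith
      rw [mul_add] at u3
      rw [sq]
      linarith
    have low' : 1 ≤ F ^ (2 * r) * ‖Θ' y‖ ^ r := by
      rw [pow_mul, ← mul_pow]; exact one_le_pow₀ low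
    have t4 : CI * F ^ ((N + 2 + 2) * a) * (F ^ P)⁻¹ ≤ F * F ^ ((N + 2 + 2) * a) * (F ^ P)⁻¹ := by
      gcongr; linarith [le_abs_self CI]
    calc _ ≤ F ^ (2 * r) * ‖Θ' y‖ ^ r * ‖ψ (Θ y) • Θ' y - ψ (Θ' y) • Θ y‖ :=
          le_mul_of_one_le_left (norm_nonneg _) low'
      _ ≤ F ^ (2 * r) * (F * F ^ ((N + 2 + 2) * a) * (F ^ P)⁻¹) := by
          rw [mul_assoc]; exact mul_le_mul_of_nonneg_left (t3.trans t4) (by positivity)
      _ = F ^ (2 * r + ((N + 2 + 2) * a + 1)) * (F ^ P)⁻¹ := by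
          rw [pow_add F (2 * r), pow_succ' F ((N + 2 + 2) * a)]; ring
      _ ≤ _ := by rw [← pow_mul]; exact pw_le F1 (by rw [hP]; ring_nf; omega)
  have main := hC ⟨F ^ 2, d 0 * G, z, Θ, Θ', ψ, by nlinarith, one_le_mul_of_one_le_of_one_le a0 G1,
    by rw [sq]; gcongr; linarith, hψ, fun y hy => ⟨(h1 y (s1 hy)).1, (h2 y (s2 (s1 hy))).1⟩,
    fun y hy k => ⟨(b1 y (s1 hy) k).trans (by
      have := d1 k
      gcongr
      exact le_self_pow₀ F1 two_ne_zero), (b2 y (s1 hy) k).trans (by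
      have := d1 k
      gcongr
      exact le_mul_of_one_le_left (by linarith) a0)⟩, by
      rw [inv_le_iff_one_le_mul₀ F0] at f1
      have := dc 0
      have u1 : c 0 * ‖Θ z‖ * F ≤ d 0 * (|ψ (Θ z)| * |A0|) * F := by
        gcongr
        exact dir.trans (by gcongr; exact le_abs_self _)
      have u2 : d 0 * |A0| * F ≤ (F ^ 2) ^ 2 :=
        calc _ ≤ F * F := by gcongr; linarith
          _ = F ^ 2 := by ring
          _ ≤ _ := le_self_pow₀ (one_le_pow₀ F1) two_ne_zero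
      calc _ ≤ d 0 * |A0| * F * |ψ (Θ z)| := by linarith
        _ ≤ _ := by gcongr, fl', by rw [mul_comm]; exact dir, par⟩ i hi
  refine main.trans ?_
  simp only [mul_pow]
  rw [← mul_assoc]
  have := pow_le_pow_right₀ a0 (by omega : 3 * (i + 1) ≤ 3 * (n + 1))
  gcongr

end Crest.Agent.N221.G0
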