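import Crest.Agent.N221.X.Int
import Crest.Agent.N221.A1.PAll

/-!
Row 221, block G0 (helper18): `net` (a function with crude bounds that is small on a fine net is
small everywhere) and `lm0` (local lower modulus: a point near `y` where all jets of `F` are
controlled by `1 / |μ y|`).
-/

set_option autoImplicit false

open Set Metric Finset Filter
open scoped ContDiff Topology

namespace Crest.Agent.N221.G0

/-- Lipschitz bound at scale `ρ` from the sup and one high derivative -/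
theorem lip_scale (N : ℕ) (hN : 1 ≤ N) : ∃ C : ℝ, 1 ≤ C ∧
    ∀ (E F : Type) [NormedAddCommGroup E] [NormedSpace ℝ E] [NormedAddCommGroup F]
      [NormedSpace ℝ F] [CompleteSpace F] (f : E → F) (y : E) (ρ M B : ℝ), 0 < ρ →
      ContDiffOn ℝ N f (ball y ρ) → (∀ x ∈ ball y ρ, ‖f x‖ ≤ M) →
      (∀ x ∈ ball y ρ, ‖iteratedFDeriv ℝ N f x‖ ≤ B) → ∀ z ∈ ball y (ρ / 2),
        ‖f z - f y‖ ≤ C * (M / ρ + B * ρ ^ (N - 1)) * ‖z - y‖ := by
  obtain ⟨C, C0, h⟩ := X.int_all N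
  refine ⟨max C 1, le_max_right _ _, fun E F _ _ _ _ _ f y ρ M B hρ hf hM hB z hz => ?_⟩
  have M0 : 0 ≤ M := (norm_nonneg _).trans (hM y (mem_ball_self hρ))
  have B0 : 0 ≤ B := (norm_nonneg _).trans (hB y (mem_ball_self hρ))
  have sub : ball y (ρ / 2) ⊆ ball y ρ := ball_subset_ball (by linarith)
  refine (convex_ball y (ρ / 2)).norm_image_sub_le_of_norm_fderiv_le (𝕜 := ℝ)
    (fun x hx => (hf.contDiffAt (isOpen_ball.mem_nhds (sub hx))).differentiableAt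
      (by exact_mod_cast (by omega : N ≠ 0))) (fun x hx => ?_) (mem_ball_self (by linarith)) hz
  have := h E F f y ρ M B hρ hf hM hB 1 hN x hx
  rw [← norm_iteratedFDeriv_fderiv, norm_iteratedFDeriv_zero, pow_one] at this
  exact this.trans (mul_le_mul_of_nonneg_right (le_max_left _ _) (by positivity))

/-- small on a `σ`-net, crude bounds `M`, `B` ⟹ small on a slightly smaller ball -/
theorem net (N : ℕ) (hN : 1 ≤ N) : ∃ C : ℝ, 1 ≤ C ∧
    ∀ (E F : Type) [NormedAddCommGroup E] [NormedSpace ℝ E] [NormedAddCommGroup F]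
      [NormedSpace ℝ F] [CompleteSpace F] (f : E → F) (x₀ : E) (r ρ σ η M B : ℝ) (L : ℕ), 0 < ρ →
      0 ≤ σ → 2 * C * σ ≤ ρ / 2 → ContDiffOn ℝ N f (ball x₀ r) → (∀ x ∈ ball x₀ r, ‖f x‖ ≤ M) →
      (∀ x ∈ ball x₀ r, ‖iteratedFDeriv ℝ N f x‖ ≤ B) →
      (∀ y ∈ ball x₀ (r - ρ), ∃ z, ‖z - y‖ ≤ σ ∧ ‖f z‖ ≤ η) → ∀ y ∈ ball x₀ (r - (L + 1) * ρ),
        ‖f y‖ ≤ 2 * (η + B * ρ ^ N) + (C * σ / ρ) ^ (L + 1) * M := by
  obtain ⟨C, C1, h⟩ := lip_scale N hN
  refine ⟨C, C1, fun E F _ _ _ _ _ f x₀ r ρ σ η M B L hρ hσ hs hf hM hB hz => ?_⟩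
  have hθ : C * σ / ρ ≤ 1 / 2 := by rw [div_le_iff₀ hρ]; linarith
  have θ0 : 0 ≤ C * σ / ρ := by positivity
  have step : ∀ r' M', r' ≤ r → (∀ x ∈ ball x₀ r', ‖f x‖ ≤ M') → ∀ y ∈ ball x₀ (r' - ρ),
      0 ≤ η + B * ρ ^ N ∧ ‖f y‖ ≤ η + B * ρ ^ N + C * σ / ρ * M' := fun r' M' hr hM' y hy => by
    have sub : ball y ρ ⊆ ball x₀ r' := ball_subset_ball' (by linarith [mem_ball.1 hy])
    have sub' : ball y ρ ⊆ ball x₀ r := sub.trans (ball_subset_ball hr)
    obtain ⟨z, z1, z2⟩ := hz y (ball_subset_ball (by linarith) hy)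
    have M0 : 0 ≤ M' := (norm_nonneg _).trans (hM' y (sub (mem_ball_self hρ)))
    have B0 : 0 ≤ B := (norm_nonneg _).trans (hB y (sub' (mem_ball_self hρ)))
    have η0 : 0 ≤ η := (norm_nonneg _).trans z2
    have h1 := h E F f y ρ M' B hρ (hf.mono sub') (fun x hx => hM' x (sub hx))
      (fun x hx => hB x (sub' hx)) z (by rw [mem_ball_iff_norm]; nlinarith)
    have h2 : C * (M' / ρ + B * ρ ^ (N - 1)) * ‖z - y‖ ≤ C * (M' / ρ + B * ρ ^ (N - 1)) * σ := by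
      gcongr
    have h3 : C * (M' / ρ + B * ρ ^ (N - 1)) * σ = C * σ / ρ * M' + C * σ / ρ * (B * ρ ^ N) := by
      obtain ⟨n, rfl⟩ : ∃ n, N = n + 1 := ⟨N - 1, by omega⟩
      rw [Nat.add_sub_cancel, pow_succ]; field_simp
    have h4 : C * σ / ρ * (B * ρ ^ N) ≤ B * ρ ^ N :=
      mul_le_of_le_one_left (by positivity) (by linarith)
    have h5 := norm_sub_le (f z) (f z - f y)
    rw [sub_sub_cancel] at h5
    exact ⟨by positivity, by linarith⟩
  induction L with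
  | zero =>
    intro y hy
    obtain ⟨a, b⟩ := step r M le_rfl hM y (by simpa using hy)
    rw [zero_add, pow_one]; linarith
  | succ L ih =>
    intro y hy
    have L0 : 0 ≤ ((L : ℝ) + 1) * ρ := by positivity
    obtain ⟨a, b⟩ := step _ _ (by linarith) ih y (by convert hy using 2; push_cast; ring)
    rw [pow_succ _ (L + 1)]
    nlinarith

/-- local lower modulus -/
theorem lm0 (k N : ℕ) : ∃ C : ℝ, 1 ≤ C ∧
    ∀ (E V : Type) [NormedAddCommGroup E] [NormedSpace ℝ E] [FiniteDimensional ℝ E]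
      [NormedAddCommGroup V] [NormedSpace ℝ V] [CompleteSpace V] (F : E → V) (μ : E → ℝ) (y : E)
      (ρ A B B' : ℝ), 0 < ρ → ContDiffOn ℝ ∞ μ (ball y ρ) → ContDiffOn ℝ N F (ball y ρ) →
      μ y ≠ 0 → (∀ x ∈ ball y ρ, ‖iteratedFDeriv ℝ (k + 1) μ x‖ ≤ B) → B * ρ ^ (k + 1) ≤ |μ y| →
      (∀ x ∈ ball y ρ, ‖F x‖ * |μ x| ≤ A) → (∀ x ∈ ball y ρ, ‖iteratedFDeriv ℝ N F x‖ ≤ B') →
      ∃ x₀ ∈ ball y ρ, ∀ i ≤ N,
        ‖iteratedFDeriv ℝ i F x₀‖ ≤ C * (A / |μ y| / ρ ^ i + B' * ρ ^ (N - i)) := by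
  obtain ⟨C1, c1, h1⟩ := lip_scale (k + 1) (by omega)
  obtain ⟨C2, c2, h2⟩ := X.int_all N
  set D : ℝ := 2 * 12 ^ k + 1 with hD
  have D1 : 1 ≤ D := le_add_of_nonneg_left (by positivity)
  set K : ℝ := 8 * C1 * (D + 1) with hK
  have K1 : 4 ≤ K := by nlinarith
  refine ⟨max 1 (C2 * (2 * K ^ N)), le_max_left _ _,
    fun E V _ _ _ _ _ _ F μ y ρ A B B' hρ hμ hF h0 hB hs hA hB' => ?_⟩
  have := FiniteDimensional.proper ℝ E
  have sub : closedBall y (ρ / 2) ⊆ ball y ρ := closedBall_subset_ball (by linarith)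
  obtain ⟨x₀, hx, hm⟩ := (isCompact_closedBall y (ρ / 2)).exists_isMaxOn
    ⟨y, mem_closedBall_self (by linarith)⟩ (hμ.continuousOn.mono sub).abs
  set S := |μ x₀| with hS
  have yS : |μ y| ≤ S := hm (mem_closedBall_self (by linarith))
  have y0 : 0 < |μ y| := abs_pos.2 h0
  have B0 : 0 ≤ B := (norm_nonneg _).trans (hB y (mem_ball_self hρ))
  have B0' : 0 ≤ B' := (norm_nonneg _).trans (hB' y (mem_ball_self hρ))
  have A0 : 0 ≤ A := le_trans (by positivity) (hA y (mem_ball_self hρ))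
  obtain ⟨t1, t2, -⟩ := PS.tay_ E ℝ k
  have mem : ∀ x ∈ ball (0 : E) ρ, y + x ∈ ball y ρ := fun x hx => by
    rwa [mem_ball_iff_norm, add_sub_cancel_left, ← mem_ball_zero_iff]
  have r1 : ∀ x ∈ ball (0 : E) ρ, ‖μ (y + x) - PS.tay k (fun x => μ (y + x)) x‖ ≤ S := fun x hx => by
    refine (t1 (fun x => μ (y + x)) ρ B (hμ.comp (by fun_prop) mem) (fun x hx => ?_) x hx).trans ?_
    · rw [iteratedFDeriv_comp_add_left]; exact hB _ (mem x hx)
    · refine le_trans ?_ (hs.trans yS)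
      have := (mem_ball_zero_iff.1 hx).le
      gcongr
  have r2 : ∀ x ∈ ball y ρ, ‖μ x‖ ≤ D * S := fun x hx => by
    have hx' : x - y ∈ ball (0 : E) ρ := by rwa [mem_ball_zero_iff, ← mem_ball_iff_norm]
    have a1 := t2 (fun x => μ (y + x)) (ρ / 2) ρ (2 * S) (by linarith) (by linarith)
      (fun z hz => by
        have b1 := r1 z (mem_ball_zero_iff.2 (by linarith))
        have b2 : |μ (y + z)| ≤ S := hm (by rwa [mem_closedBall_iff_norm, add_sub_cancel_left])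
        have b3 := norm_sub_le (μ (y + z)) (μ (y + z) - PS.tay k (fun x => μ (y + x)) z)
        rw [sub_sub_cancel, Real.norm_eq_abs (μ _)] at b3
        linarith) (x - y) (mem_ball_zero_iff.1 hx').le
    have a2 := r1 _ hx'
    have a3 := norm_add_le (μ (y + (x - y)) - PS.tay k (fun x => μ (y + x)) (x - y))
      (PS.tay k (fun x => μ (y + x)) (x - y))
    rw [sub_add_cancel] at a3
    rw [show 6 * ρ / (ρ / 2) = 12 by field_simp; norm_num] at a1
    rw [add_sub_cancel] at a2 a3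
    rw [hD]; linarith
  have sub2 : ball x₀ (ρ / 2) ⊆ ball y ρ := ball_subset_ball' (by linarith [mem_closedBall.1 hx])
  have ρK : 0 < ρ / K := by positivity
  have ρK' : ρ / K ≤ ρ / 4 := by gcongr
  have sub3 : ball x₀ (ρ / K) ⊆ ball y ρ := (ball_subset_ball (by linarith)).trans sub2
  have r3 : ∀ z ∈ ball x₀ (ρ / K), ‖F z‖ ≤ 2 * (A / |μ y|) := fun z hz => by
    have a1 := h1 E ℝ μ x₀ (ρ / 2) (D * S) B (by linarith)
      ((hμ.mono sub2).of_le (by exact_mod_cast le_top)) (fun x hx => r2 x (sub2 hx))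
      (fun x hx => hB x (sub2 hx)) z (ball_subset_ball (by linarith) hz)
    have S0 : 0 < S := y0.trans_le yS
    have a2 : B * (ρ / 2) ^ (k + 1 - 1) ≤ S / (ρ / 2) := by
      rw [le_div_iff₀ (by linarith), Nat.add_sub_cancel, mul_assoc, ← pow_succ]
      refine le_trans ?_ (hs.trans yS)
      gcongr
      linarith
    have a3 : C1 * (D * S / (ρ / 2) + B * (ρ / 2) ^ (k + 1 - 1)) * ‖z - x₀‖ ≤
        C1 * (D * S / (ρ / 2) + S / (ρ / 2)) * (ρ / K) := by
      have := (mem_ball_iff_norm.1 hz).le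
      gcongr
    have a4 : C1 * (D * S / (ρ / 2) + S / (ρ / 2)) * (ρ / K) = S / 4 := by
      rw [hK]; field_simp; norm_num
    have a5 := abs_sub_abs_le_abs_sub (μ x₀) (μ z)
    rw [abs_sub_comm, ← Real.norm_eq_abs (μ z - _)] at a5
    have a6 : |μ y| / 2 ≤ |μ z| := by linarith
    have a7 := (mul_le_mul_of_nonneg_left a6 (norm_nonneg (F z))).trans (hA z (sub3 hz))
    rw [← mul_div_assoc, le_div_iff₀ y0]
    linarith
  refine ⟨x₀, sub hx, fun i hi => (h2 E V F x₀ (ρ / K) _ B' ρK (hF.mono sub3) r3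
    (fun x hx => hB' x (sub3 hx)) i hi x₀ (mem_ball_self (by linarith))).trans ?_⟩
  refine le_trans ?_ (mul_le_mul_of_nonneg_right (le_max_right _ _) (by positivity))
  rw [mul_assoc C2]
  refine mul_le_mul_of_nonneg_left ?_ c2.le
  have K0 : 1 ≤ K := by linarith
  have e1 : 2 * (A / |μ y|) / (ρ / K) ^ i = 2 * K ^ i * (A / |μ y| / ρ ^ i) := by
    rw [div_pow]; field_simp
  have e2 : K ^ i ≤ K ^ N := pow_le_pow_right₀ K0 hi
  have e3 : (ρ / K) ^ (N - i) ≤ 2 * K ^ N * ρ ^ (N - i) := by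
    have b1 : (ρ / K) ^ (N - i) ≤ ρ ^ (N - i) := by gcongr; exact div_le_self hρ.le K0
    have b2 : 1 ≤ K ^ N := one_le_pow₀ K0
    nlinarith [pow_pos hρ (N - i)]
  rw [e1, mul_add, mul_left_comm _ B']
  gcongr

end Crest.Agent.N221.G0
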