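import Crest.Agent.N221.X.Camp

/-! Row 221, block G0/NR (helper54): compactness.  If no nonzero smooth `f` solves `I z x (f x) = 0`
and the family `I z` is compact, a function with bounded derivatives and small `I z x (f x)` is
small. -/

set_option autoImplicit false

open Set Metric Filter Topology
open scoped ContDiff

namespace Crest.Agent.N221.G0.Nr

variable {Z E V W : Type} [NormedAddCommGroup E] [NormedSpace ℝ E]
  [NormedAddCommGroup V] [NormedSpace ℝ V] [NormedAddCommGroup W] [NormedSpace ℝ W]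

/-- no nonzero smooth germ is killed by `I z` -/
def NoRel (R : ℝ) (I : Z → E → V →L[ℝ] W) : Prop :=
  ∀ z, ∀ x ∈ ball (0 : E) R, ∀ f : E → V,
    (∀ᶠ y in 𝓝 x, ContDiffAt ℝ ∞ f y ∧ I z y (f y) = 0) → f x = 0

/-- the family `I z` is sequentially compact for pointwise convergence -/
def Cpt {X : Type} [TopologicalSpace X] (R : ℝ) (I : Z → E → X) : Prop :=
  ∀ z : ℕ → Z, ∃ (z' : Z) (φ : ℕ → ℕ), StrictMono φ ∧
    ∀ x ∈ ball (0 : E) R, Tendsto (fun i => I (z (φ i)) x) atTop (𝓝 (I z' x))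

lemma lip_of [CompleteSpace V] {R δ : ℝ} (hδ : 0 < δ) (K : ℕ) (hK : 1 ≤ K) (A B : ℝ) :
    ∃ L : ℝ, 0 ≤ L ∧ ∀ f : E → V, ContDiffOn ℝ ∞ f (ball 0 R) → (∀ x ∈ ball (0 : E) R, ‖f x‖ ≤ A) →
      (∀ x ∈ ball (0 : E) R, ‖iteratedFDeriv ℝ K f x‖ ≤ B) →
      ∀ x ∈ ball (0 : E) (R - δ), ∀ y ∈ ball (0 : E) (R - δ), ‖f x - f y‖ ≤ L * ‖x - y‖ := by
  obtain ⟨C, hC, h⟩ := X.int_all K
  refine ⟨max 0 (C * (A / δ ^ 1 + B * δ ^ (K - 1))), le_max_left _ _, fun f hf hA hB x hx y hy => ?_⟩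
  have sub : ∀ w ∈ ball (0 : E) (R - δ), ball w δ ⊆ ball 0 R := fun w hw =>
    ball_subset_ball' (by rw [mem_ball] at hw; linarith)
  refine Convex.norm_image_sub_le_of_norm_fderiv_le (𝕜 := ℝ) (s := ball (0 : E) (R - δ))
    (fun w hw => ?_) (fun w hw => ?_) (convex_ball _ _) hy hx
  · exact (hf.contDiffAt (isOpen_ball.mem_nhds (sub w hw (mem_ball_self hδ)))).differentiableAt
      (by simp)
  · have := h E V f w δ A B hδ ((hf.mono (sub w hw)).of_le (by exact_mod_cast le_top))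
      (fun u hu => hA u (sub w hw hu)) (fun u hu => hB u (sub w hw hu)) 1 hK w
      (mem_ball_self (by positivity))
    rw [norm_iteratedFDeriv_one] at this
    exact this.trans (le_max_right _ _)

theorem cmp [FiniteDimensional ℝ E] [FiniteDimensional ℝ V] {R R' : ℝ} {I : Z → E → V →L[ℝ] W}
    (hN : NoRel R I) (hC : Cpt R I) (hR : R' < R) (k0 : ℕ) (c : ℕ → ℝ) :
    ∃ (N0 : ℕ) (w0 : ℝ), 0 < w0 ∧ ∀ (z : Z) (f : E → V), ContDiffOn ℝ ∞ f (ball 0 R) →
      (∀ x ∈ ball (0 : E) R, ‖f x‖ ≤ c 0) →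
      (∀ k, k0 ≤ k → k ≤ N0 → ∀ x ∈ ball (0 : E) R, ‖iteratedFDeriv ℝ k f x‖ ≤ c k) →
      (∀ x ∈ ball (0 : E) R, ‖I z x (f x)‖ ≤ w0) → ∀ x : E, ‖x‖ ≤ R' → ‖f x‖ ≤ 1 / 2 := by
  have : CompleteSpace V := FiniteDimensional.complete ℝ V
  have : ProperSpace V := FiniteDimensional.proper ℝ V
  have : ProperSpace E := FiniteDimensional.proper ℝ E
  by_contra hcon
  push Not at hcon
  have h1 := fun i : ℕ => hcon i (1 / ((i : ℝ) + 1)) (by positivity)
  choose z f hf h0 hk hI x hx hfx using h1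
  obtain ⟨z', φ, hφ, hz⟩ := hC z
  set δ := (R - R') / 4 with hδ
  have hδ0 : 0 < δ := by rw [hδ]; linarith
  set U : Ultrafilter ℕ := hyperfilter ℕ
  have hU : (U : Filter ℕ) ≤ atTop := Nat.hyperfilter_le_atTop
  have hφt : Tendsto φ U atTop := hφ.tendsto_atTop.mono_left hU
  obtain ⟨L, hL, hlip⟩ := lip_of (E := E) (V := V) (R := R) hδ0 (k0 + 1) (by omega) (c 0) (c (k0 + 1))
  have hev : ∀ n : ℕ, ∀ᶠ i in (U : Filter ℕ), n ≤ φ i := fun n => hφt.eventually (eventually_ge_atTop n)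
  have hLi : ∀ᶠ i in (U : Filter ℕ), ∀ x ∈ ball (0 : E) (R - δ), ∀ y ∈ ball (0 : E) (R - δ),
      ‖f (φ i) x - f (φ i) y‖ ≤ L * ‖x - y‖ := (hev (k0 + 1)).mono fun i hi =>
    hlip _ (hf _) (h0 _) (hk _ _ (by omega) hi)
  have hex : ∀ y : E, ∃ v : V, y ∈ ball (0 : E) R → Tendsto (fun i => f (φ i) y) U (𝓝 v) := by
    intro y
    by_cases hy : y ∈ ball (0 : E) R
    · obtain ⟨v, -, hv⟩ := (isCompact_closedBall (0 : V) (c 0)).ultrafilter_le_nhds'
        (U.map fun i => f (φ i) y) (by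
          rw [Ultrafilter.mem_map]
          exact univ_mem' fun i => by simpa using h0 (φ i) y hy)
      exact ⟨v, fun _ => hv⟩
    · exact ⟨0, fun h => absurd h hy⟩
  choose g hg using hex
  have s1 : ball (0 : E) (R - δ) ⊆ ball 0 R := ball_subset_ball (by linarith)
  have s2 : closedBall (0 : E) (R - 2 * δ) ⊆ ball 0 (R - δ) := closedBall_subset_ball (by linarith)
  have hgl : ∀ x ∈ ball (0 : E) (R - δ), ∀ y ∈ ball (0 : E) (R - δ), ‖g x - g y‖ ≤ L * ‖x - y‖ :=
    fun x hx y hy => le_of_tendsto (((hg x (s1 hx)).sub (hg y (s1 hy))).norm)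
      (hLi.mono fun i hi => hi x hx y hy)
  -- moving points
  have mov : ∀ (y : ℕ → E), (∀ i, y i ∈ closedBall (0 : E) (R - 2 * δ)) →
      ∃ w ∈ closedBall (0 : E) (R - 2 * δ), Tendsto y U (𝓝 w) ∧
        Tendsto (fun i => f (φ i) (y i)) U (𝓝 (g w)) := by
    intro y hy
    obtain ⟨w, hw, hw'⟩ := (isCompact_closedBall (0 : E) (R - 2 * δ)).ultrafilter_le_nhds'
      (U.map y) (by rw [Ultrafilter.mem_map]; exact univ_mem' hy)
    have hw2 : Tendsto y U (𝓝 w) := hw'
    refine ⟨w, hw, hw2, ?_⟩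
    have a1 : Tendsto (fun i => f (φ i) (y i) - f (φ i) w) U (𝓝 0) := by
      have : Tendsto (fun i => L * ‖y i - w‖) U (𝓝 0) := by
        simpa using (tendsto_iff_norm_sub_tendsto_zero.1 hw2).const_mul L
      exact squeeze_zero_norm' (hLi.mono fun i hi => hi _ (s2 (hy i)) _ (s2 hw)) this
    simpa using a1.add (hg w (s1 (s2 hw)))
  have uni : ∀ η > 0, ∀ᶠ i in (U : Filter ℕ), ∀ y ∈ closedBall (0 : E) (R - 2 * δ),
      ‖g y - f (φ i) y‖ ≤ η := by
    intro η hη
    by_contra hn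
    have hn' := Ultrafilter.eventually_not.2 hn
    have h0' : x 0 ∈ closedBall (0 : E) (R - 2 * δ) := by
      rw [mem_closedBall, dist_zero_right]; linarith [hx 0]
    have : ∀ i, ∃ y ∈ closedBall (0 : E) (R - 2 * δ),
        ¬(∀ y ∈ closedBall (0 : E) (R - 2 * δ), ‖g y - f (φ i) y‖ ≤ η) → η < ‖g y - f (φ i) y‖ := by
      intro i
      by_cases h : ∀ y ∈ closedBall (0 : E) (R - 2 * δ), ‖g y - f (φ i) y‖ ≤ η
      · exact ⟨_, h0', fun h' => absurd h h'⟩
      · push Not at h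
        obtain ⟨y, hy, h⟩ := h
        exact ⟨y, hy, fun _ => h⟩
    choose y hy hy' using this
    obtain ⟨w, hw, t1, t2⟩ := mov y hy
    have t3 : Tendsto (fun i => g (y i) - g w) U (𝓝 0) := by
      have : Tendsto (fun i => L * ‖y i - w‖) U (𝓝 0) := by
        simpa using (tendsto_iff_norm_sub_tendsto_zero.1 t1).const_mul L
      exact squeeze_zero_norm (fun i => hgl _ (s2 (hy i)) _ (s2 hw)) this
    have t4 : Tendsto (fun i => ‖g (y i) - f (φ i) (y i)‖) U (𝓝 0) := by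
      have := ((t3.add_const (g w)).sub t2).norm
      simpa using this
    have := ge_of_tendsto t4 (hn'.mono fun i hi => (hy' i hi).le)
    linarith
  have hsm : ∀ y ∈ ball (0 : E) (R - 3 * δ), ContDiffAt ℝ ∞ g y := by
    refine X.contDiffOn_of_apx fun p y hy => ⟨max p k0, max 1 (c (max p k0)), min 1 (δ / 2),
      by positivity, fun w hw ε hε hε' => ?_⟩
    have e1 : ε < 1 := hε'.trans_le (min_le_left _ _)
    have e2 : ε < δ / 2 := hε'.trans_le (min_le_right _ _)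
    have sb : ball w ε ⊆ closedBall (0 : E) (R - 2 * δ) := by
      intro u hu
      rw [mem_ball] at hu hw hy
      rw [mem_closedBall]
      have := hw.trans_le (min_le_right _ _)
      linarith [dist_triangle u w 0, dist_triangle w y 0]
    obtain ⟨i, i1, i2⟩ := ((uni (ε ^ p) (by positivity)).and (hev (max p k0))).exists
    have sb' : ball w ε ⊆ ball (0 : E) R := sb.trans (s2.trans s1)
    refine ⟨f (φ i), ((hf _).mono sb').of_le (by exact_mod_cast le_top), fun u hu => ⟨?_, ?_⟩⟩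
    · exact (i1 u (sb hu)).trans (le_mul_of_one_le_left (by positivity) (le_max_left _ _))
    · refine mul_le_mul ((hk _ _ (le_max_right _ _) i2 u (sb' hu)).trans (le_max_right _ _))
        (pow_le_pow_of_le_one hε.le e1.le (le_max_left _ _)) (by positivity) (by positivity)
  have hz0 : ∀ y ∈ ball (0 : E) R, I z' y (g y) = 0 := by
    intro y hy
    have t1 : Tendsto (fun i => I (z (φ i)) y (f (φ i) y)) U (𝓝 (I z' y (g y))) :=
      ((isBoundedBilinearMap_apply.continuous.tendsto (I z' y, g y)).comp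
        (((hz y hy).mono_left hU).prodMk_nhds (hg y hy)))
    have t2 : Tendsto (fun i => I (z (φ i)) y (f (φ i) y)) U (𝓝 0) :=
      squeeze_zero_norm (fun i => hI (φ i) y hy)
        ((tendsto_one_div_add_atTop_nhds_zero_nat (𝕜 := ℝ)).comp hφt)
    exact tendsto_nhds_unique t1 t2
  obtain ⟨w, hw, t1, t2⟩ := mov (fun i => x (φ i)) fun i => by
    rw [mem_closedBall, dist_zero_right]; linarith [hx (φ i)]
  have hw' : ‖w‖ ≤ R' := le_of_tendsto t1.norm (Eventually.of_forall fun i => hx (φ i))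
  have hw3 : w ∈ ball (0 : E) (R - 3 * δ) := by rw [mem_ball, dist_zero_right]; linarith
  have s3 : ball (0 : E) (R - 3 * δ) ⊆ ball 0 R := ball_subset_ball (by linarith)
  have := hN z' w (s3 hw3) g (by
    filter_upwards [isOpen_ball.mem_nhds hw3] with y hy using ⟨hsm y hy, hz0 y (s3 hy)⟩)
  have h5 := ge_of_tendsto t2.norm (Eventually.of_forall fun i => (hfx (φ i)).le)
  rw [this, norm_zero] at h5
  norm_num at h5

end Crest.Agent.N221.G0.Nr
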