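import Crest.Agent.N221.G0.Nr0
import Crest.Agent.N221.G0.ApB

/-! Row 221, block G0/NR (helper54): Lasota-Yorke step and the Pliss argument.  Under `Gap`, a
function with small `I z x (g x)` and moderate derivatives is small at every point with a long
backward chain. -/

set_option autoImplicit false

open Set Metric Filter Finset
open scoped ContDiff Nat Topology

namespace Crest.Agent.N221.G0.Nr

lemma cbound (c : ℕ → ℝ) (n : ℕ) : ∃ D : ℝ, 1 ≤ D ∧ ∀ i ≤ n, c i ≤ D :=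
  ⟨1 + ∑ i ∈ range (n + 1), |c i|, le_add_of_nonneg_right (by positivity), fun i hi =>
    (le_abs_self _).trans ((single_le_sum (f := fun i => |c i|) (fun _ _ => abs_nonneg _)
      (Finset.mem_range.2 (Nat.lt_succ_of_le hi))).trans (by linarith))⟩

/-- top order term of the derivative of a composition -/
theorem ly0 (c : ℕ → ℝ) {q : ℝ} (hq : 0 ≤ q) (k : ℕ) : ∃ C : ℝ, 0 ≤ C ∧
    ∀ (X Y V : Type) [NormedAddCommGroup X] [NormedSpace ℝ X] [NormedAddCommGroup Y]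
      [NormedSpace ℝ Y] [NormedAddCommGroup V] [NormedSpace ℝ V] (G : Y → V) (ψ : X → Y) (x : X)
      (D M : ℝ), ContDiffAt ℝ ∞ G (ψ x) → ContDiffAt ℝ ∞ ψ x → ‖fderiv ℝ ψ x‖ ≤ q →
      (∀ i, 1 ≤ i → ‖iteratedFDeriv ℝ i ψ x‖ ≤ c i) → ‖iteratedFDeriv ℝ k G (ψ x)‖ ≤ D → 0 ≤ M →
      (∀ i < k, ‖iteratedFDeriv ℝ i G (ψ x)‖ ≤ M) →
      ‖iteratedFDeriv ℝ k (fun y => G (ψ y)) x‖ ≤ q ^ k * D + C * M := by
  induction k with
  | zero =>
    refine ⟨0, le_rfl, fun X Y V _ _ _ _ _ _ G ψ x D M _ _ _ _ hD _ _ => ?_⟩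
    simpa using hD
  | succ k ih =>
    obtain ⟨C, hC, ih⟩ := ih
    obtain ⟨P, P1, P2⟩ := cbound c (k + 1)
    refine ⟨∑ i ∈ range k, (k.choose i : ℝ) * (i ! * P ^ i) * P + C * q, by positivity,
      fun X Y V _ _ _ _ _ _ G ψ x D M hG hψ h1 hc hD hM hi => ?_⟩
    have e : fderiv ℝ (fun y => G (ψ y)) =ᶠ[𝓝 x] fun y =>
        ContinuousLinearMap.compL ℝ X Y V (fderiv ℝ G (ψ y)) (fderiv ℝ ψ y) := by
      filter_upwards [ev_dif hψ, hψ.continuousAt.eventually (ev_dif hG)] with y a1 a2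
      exact fderiv_comp y a2 a1
    rw [← norm_iteratedFDeriv_fderiv, (e.iteratedFDeriv ℝ k).eq_of_nhds]
    have hG' := cda_fderiv hG
    refine (bilin_at _ k (hG'.comp x hψ) (cda_fderiv hψ)).trans ?_
    refine (mul_le_of_le_one_left (by positivity) (ContinuousLinearMap.norm_compL_le _ _ _ _)).trans
      ?_
    rw [sum_range_succ, add_mul, sum_mul]
    have t1 := ih X Y (Y →L[ℝ] V) (fderiv ℝ G) ψ x D M hG' hψ h1 hc
      (by rwa [norm_iteratedFDeriv_fderiv]) hM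
      (fun i hik => by rw [norm_iteratedFDeriv_fderiv]; exact hi _ (by omega))
    have t2 : (k.choose k : ℝ) * ‖iteratedFDeriv ℝ k (fderiv ℝ G ∘ ψ) x‖ *
        ‖iteratedFDeriv ℝ (k - k) (fderiv ℝ ψ) x‖ ≤ (q ^ k * D + C * M) * q := by
      rw [Nat.choose_self, Nat.sub_self, norm_iteratedFDeriv_zero, Nat.cast_one, one_mul]
      exact mul_le_mul t1 h1 (norm_nonneg _) ((norm_nonneg _).trans t1)
    have t3 : ∑ i ∈ range k, (k.choose i : ℝ) * ‖iteratedFDeriv ℝ i (fderiv ℝ G ∘ ψ) x‖ *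
        ‖iteratedFDeriv ℝ (k - i) (fderiv ℝ ψ) x‖ ≤
        ∑ i ∈ range k, (k.choose i : ℝ) * (i ! * P ^ i) * P * M := by
      refine sum_le_sum fun i hik => ?_
      have hik := Finset.mem_range.1 hik
      have a1 := comp_at (C := M) (D := P) i hG' hψ
        (fun l hl => by rw [norm_iteratedFDeriv_fderiv]; exact hi _ (by omega))
        (fun l l1 hl => (hc l l1).trans ((P2 l (by omega)).trans (le_self_pow₀ P1 (by omega))))
      have a2 : ‖iteratedFDeriv ℝ (k - i) (fderiv ℝ ψ) x‖ ≤ P := by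
        rw [norm_iteratedFDeriv_fderiv]
        exact (hc _ (by omega)).trans (P2 _ (by omega))
      calc _ ≤ (k.choose i : ℝ) * (i ! * M * P ^ i) * P := by gcongr; exact a1
        _ = _ := by ring
    rw [pow_succ]
    linarith

/-- pointwise Lasota-Yorke inequality -/
theorem ly (c : ℕ → ℝ) {q b : ℝ} (hq : 0 ≤ q) (hb : 0 ≤ b) (k : ℕ) : ∃ C : ℝ, 0 ≤ C ∧
    ∀ (X Y V V' : Type) [NormedAddCommGroup X] [NormedSpace ℝ X] [NormedAddCommGroup Y]
      [NormedSpace ℝ Y] [NormedAddCommGroup V] [NormedSpace ℝ V] [NormedAddCommGroup V']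
      [NormedSpace ℝ V'] (G : Y → V) (ψ : X → Y) (A : X → V →L[ℝ] V') (x : X)
      (D M : ℝ), ContDiffAt ℝ ∞ G (ψ x) → ContDiffAt ℝ ∞ ψ x → ContDiffAt ℝ ∞ A x →
      ‖fderiv ℝ ψ x‖ ≤ q → ‖A x‖ ≤ b → (∀ i, 1 ≤ i → ‖iteratedFDeriv ℝ i ψ x‖ ≤ c i) →
      (∀ i, 1 ≤ i → ‖iteratedFDeriv ℝ i A x‖ ≤ c i) → ‖iteratedFDeriv ℝ k G (ψ x)‖ ≤ D → 0 ≤ M →
      (∀ i < k, ‖iteratedFDeriv ℝ i G (ψ x)‖ ≤ M) →
      ‖iteratedFDeriv ℝ k (fun y => A y (G (ψ y))) x‖ ≤ b * q ^ k * D + C * M := by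
  obtain ⟨C, hC, h⟩ := ly0 c hq k
  obtain ⟨P, P1, P2⟩ := cbound c k
  refine ⟨∑ i ∈ range k, (k.choose (i + 1) : ℝ) * P * ((k - (i + 1))! * P ^ (k - (i + 1))) + b * C,
    by positivity, fun X Y V V' _ _ _ _ _ _ _ _ G ψ A x D M hG hψ hA h1 hA1 hc hcA hD hM hi => ?_⟩
  have hB : ‖(ContinuousLinearMap.id ℝ (V →L[ℝ] V'))‖ ≤ 1 := ContinuousLinearMap.norm_id_le
  refine (bilin_at (ContinuousLinearMap.id ℝ (V →L[ℝ] V')) k hA (hG.comp x hψ)).trans ?_
  refine (mul_le_of_le_one_left (by positivity) hB).trans ?_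
  rw [sum_range_succ', add_mul, sum_mul]
  have t1 := h X Y V G ψ x D M hG hψ h1 hc hD hM hi
  have t2 : (k.choose 0 : ℝ) * ‖iteratedFDeriv ℝ 0 A x‖ *
      ‖iteratedFDeriv ℝ (k - 0) (G ∘ ψ) x‖ ≤ b * (q ^ k * D + C * M) := by
    rw [Nat.choose_zero_right, Nat.sub_zero, norm_iteratedFDeriv_zero, Nat.cast_one, one_mul]
    exact mul_le_mul hA1 t1 (norm_nonneg _) hb
  have t3 : ∑ i ∈ range k, (k.choose (i + 1) : ℝ) * ‖iteratedFDeriv ℝ (i + 1) A x‖ *
      ‖iteratedFDeriv ℝ (k - (i + 1)) (G ∘ ψ) x‖ ≤ ∑ i ∈ range k,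
        (k.choose (i + 1) : ℝ) * P * ((k - (i + 1))! * P ^ (k - (i + 1))) * M := by
    refine sum_le_sum fun i hik => ?_
    have hik := Finset.mem_range.1 hik
    have a1 := comp_at (C := M) (D := P) (k - (i + 1)) hG hψ (fun l hl => hi _ (by omega))
      (fun l l1 hl => (hc l l1).trans ((P2 l (by omega)).trans (le_self_pow₀ P1 (by omega))))
    have a2 := (hcA (i + 1) (by omega)).trans (P2 _ (by omega))
    calc _ ≤ (k.choose (i + 1) : ℝ) * P * ((k - (i + 1))! * M * P ^ (k - (i + 1))) := by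
          gcongr; exact a1
      _ = _ := by ring
  linarith

variable {Z E V W : Type} [NormedAddCommGroup E] [NormedSpace ℝ E]
  [NormedAddCommGroup V] [NormedSpace ℝ V] [NormedAddCommGroup W] [NormedSpace ℝ W]

/-- interpolation with a small weight on the top derivative -/
lemma itp [CompleteSpace V] {R R' η : ℝ} (hR : R' < R) (hη : 0 < η) (n : ℕ) : ∃ C : ℝ, 0 ≤ C ∧
    ∀ (G : E → V) (m D : ℝ), ContDiffOn ℝ ∞ G (ball 0 R) → (∀ x ∈ ball (0 : E) R, ‖G x‖ ≤ m) →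
      (∀ x ∈ ball (0 : E) R, ‖iteratedFDeriv ℝ n G x‖ ≤ D) → ∀ y : E, ‖y‖ ≤ R' → ∀ l < n,
        ‖iteratedFDeriv ℝ l G y‖ ≤ C * m + η * D := by
  obtain ⟨C, hC, h⟩ := X.int_all n
  obtain ⟨ε, e0, e1, e2, e3⟩ : ∃ ε : ℝ, 0 < ε ∧ ε ≤ 1 ∧ ε ≤ R - R' ∧ C * ε ≤ η :=
    ⟨min 1 (min (R - R') (η / C)), by have := sub_pos.2 hR; positivity, min_le_left _ _,
      (min_le_right _ _).trans (min_le_left _ _),
      (le_div_iff₀' hC).1 ((min_le_right _ _).trans (min_le_right _ _))⟩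
  refine ⟨C / ε ^ n, by positivity, fun G m D hG hm hD y hy l hl => ?_⟩
  have sub : ball y ε ⊆ ball 0 R := ball_subset_ball' (by rw [dist_zero_right]; linarith)
  have hy' := sub (mem_ball_self e0)
  have m0 := (norm_nonneg _).trans (hm y hy')
  have D0 := (norm_nonneg _).trans (hD y hy')
  refine (h E V G y ε m D e0 ((hG.mono sub).of_le (by exact_mod_cast le_top))
    (fun u hu => hm u (sub hu)) (fun u hu => hD u (sub hu)) l hl.le y
    (mem_ball_self (by positivity))).trans ?_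
  have a1 : m / ε ^ l ≤ m / ε ^ n :=
    div_le_div_of_nonneg_left m0 (by positivity) (pow_le_pow_of_le_one e0.le e1 hl.le)
  have a2 : ε ^ (n - l) ≤ ε := pow_le_of_le_one e0.le e1 (by omega)
  calc C * (m / ε ^ l + D * ε ^ (n - l)) ≤ C * (m / ε ^ n + D * ε) := by gcongr
    _ = C / ε ^ n * m + C * ε * D := by ring
    _ ≤ _ := by gcongr

/-- functions with bounded jets and small `I z x (f x)` are small -/
def Gap (R R' : ℝ) (I : Z → E → V →L[ℝ] W) : Prop :=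
  ∀ c : ℕ → ℝ, ∃ (N0 : ℕ) (w0 : ℝ), 0 < w0 ∧ ∀ (z : Z) (f : E → V), ContDiffOn ℝ ∞ f (ball 0 R) →
    (∀ k ≤ N0, ∀ x ∈ ball (0 : E) R, ‖iteratedFDeriv ℝ k f x‖ ≤ c k) →
    (∀ x ∈ ball (0 : E) R, ‖I z x (f x)‖ ≤ w0) → ∀ x : E, ‖x‖ ≤ R' → ‖f x‖ ≤ 1 / 2

theorem gap_of_cpt [FiniteDimensional ℝ E] [FiniteDimensional ℝ V] {R R' : ℝ}
    {I : Z → E → V →L[ℝ] W} (hN : NoRel R I) (hC : Cpt R I) (hR : R' < R) : Gap R R' I := by
  intro c
  obtain ⟨N0, w0, hw, h⟩ := cmp hN hC hR 0 c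
  exact ⟨N0, w0, hw, fun z f hf hk => h z f hf
    (fun x hx => by simpa using hk 0 (Nat.zero_le _) x hx) fun k _ => hk k⟩

lemma Gap.hom {R R' : ℝ} {I : Z → E → V →L[ℝ] W} (h : Gap R R' I) (c : ℕ → ℝ) :
    ∃ (N0 : ℕ) (w0 : ℝ), 0 < w0 ∧ ∀ (z : Z) (f : E → V) (μ : ℝ), 0 < μ →
    ContDiffOn ℝ ∞ f (ball 0 R) →
    (∀ k ≤ N0, ∀ x ∈ ball (0 : E) R, ‖iteratedFDeriv ℝ k f x‖ ≤ c k * μ) →
    (∀ x ∈ ball (0 : E) R, ‖I z x (f x)‖ ≤ w0 * μ) → ∀ x : E, ‖x‖ ≤ R' → ‖f x‖ ≤ μ / 2 := by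
  obtain ⟨N0, w0, hw, h⟩ := h c
  refine ⟨N0, w0, hw, fun z f μ hμ hf hk hI x hx => ?_⟩
  have n : ‖μ⁻¹‖ = μ⁻¹ := Real.norm_of_nonneg (by positivity)
  have := h z (fun y => μ⁻¹ • f y) (hf.const_smul _) (fun k hkN y hy => by
    rw [iteratedFDeriv_const_smul_apply' (cda (hf.contDiffAt (isOpen_ball.mem_nhds hy)) k),
      norm_smul, n, inv_mul_le_iff₀ hμ, mul_comm]
    exact hk k hkN y hy) (fun y hy => by
    rw [map_smul, norm_smul, n, inv_mul_le_iff₀ hμ, mul_comm]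
    exact hI y hy) x hx
  rw [norm_smul, n, inv_mul_le_iff₀ hμ] at this
  linarith

/-- one step `ψ` from the plaque `z'` into the plaque `z`, with the cocycle `A` -/
structure Stp (R R' q b : ℝ) (c : ℕ → ℝ) (I : Z → E → V →L[ℝ] W) (z' z : Z) (ψ : E → E)
    (A : E → V →L[ℝ] V) : Prop where
  sψ : ContDiffOn ℝ ∞ ψ (ball 0 R)
  sA : ContDiffOn ℝ ∞ A (ball 0 R)
  mp : ∀ x ∈ ball (0 : E) R, ‖ψ x‖ ≤ R'
  d1 : ∀ x ∈ ball (0 : E) R, ‖fderiv ℝ ψ x‖ ≤ q
  dψ : ∀ x ∈ ball (0 : E) R, ∀ k, 1 ≤ k → ‖iteratedFDeriv ℝ k ψ x‖ ≤ c k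
  dA : ∀ x ∈ ball (0 : E) R, ∀ k, 1 ≤ k → ‖iteratedFDeriv ℝ k A x‖ ≤ c k
  nA : ∀ x ∈ ball (0 : E) R, ‖A x‖ ≤ b
  iA : ∀ x ∈ ball (0 : E) R, ∀ v, ‖v‖ ≤ b * ‖A x v‖
  cI : ∀ x ∈ ball (0 : E) R, ∀ v, ‖I z' x (A x v)‖ ≤ b * ‖I z (ψ x) v‖

/-- pull back along `i` steps -/
def pb (ψ : ℕ → E → E) (A : ℕ → E → V →L[ℝ] V) (g : E → V) : ℕ → E → V
  | 0 => g
  | i + 1 => fun x => A i x (pb ψ A g i (ψ i x))

variable {R R' q b : ℝ} {c : ℕ → ℝ} {I : Z → E → V →L[ℝ] W}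

lemma Stp.mem {z' z : Z} {ψ : E → E} {A : E → V →L[ℝ] V} (h : Stp R R' q b c I z' z ψ A)
    (hR : R' < R) {x : E} (hx : x ∈ ball (0 : E) R) : ψ x ∈ ball (0 : E) R :=
  mem_ball_zero_iff.2 ((h.mp x hx).trans_lt hR)

lemma pb_low {T : ℕ} {z : ℕ → Z} {ψ : ℕ → E → E} {A : ℕ → E → V →L[ℝ] V} (hb : 0 ≤ b)
    (h : ∀ i < T, Stp R R' q b c I (z (i + 1)) (z i) (ψ i) (A i)) (g : E → V) {x : ℕ → E}
    (hx : ∀ i < T, x (i + 1) ∈ ball (0 : E) R ∧ ψ i (x (i + 1)) = x i) :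
    ∀ i ≤ T, ‖g (x 0)‖ ≤ b ^ i * ‖pb ψ A g i (x i)‖ := by
  intro i
  induction i with
  | zero => intro _; simp [pb]
  | succ i ih =>
    intro hi
    have a := (h i hi).iA _ (hx i hi).1 (pb ψ A g i (ψ i (x (i + 1))))
    rw [pow_succ, mul_assoc]
    refine (ih (by omega)).trans (mul_le_mul_of_nonneg_left ?_ (by positivity))
    rw [← (hx i hi).2]
    exact a

/-- the Pliss argument -/
theorem core [FiniteDimensional ℝ E] [CompleteSpace V] (hG : Gap R R' I) (hR0 : 0 ≤ R')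
    (hR : R' < R) (q0 : 0 ≤ q) (q1 : q < 1) (hb : 1 ≤ b) {β : ℝ} (β0 : 0 < β) (β1 : β ≤ 1) :
    ∃ (N : ℕ) (C : ℝ), 0 < C ∧ ∀ (T : ℕ) (z : ℕ → Z) (ψ : ℕ → E → E) (A : ℕ → E → V →L[ℝ] V)
      (g : E → V) (x : ℕ → E) (s B : ℝ),
      (∀ i < T, Stp R R' q b c I (z (i + 1)) (z i) (ψ i) (A i)) →
      (∀ i < T, x (i + 1) ∈ ball (0 : E) R ∧ ψ i (x (i + 1)) = x i) → ‖x T‖ ≤ R' →
      ContDiffOn ℝ ∞ g (ball 0 R) → (∀ y ∈ ball (0 : E) R, ‖I (z 0) y (g y)‖ ≤ s) →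
      (∀ k ≤ N, ∀ y ∈ ball (0 : E) R, ‖iteratedFDeriv ℝ k g y‖ ≤ B) →
      ‖g (x 0)‖ ≤ C * (b ^ 2) ^ T * s + β ^ T * B := by
  have : ProperSpace E := FiniteDimensional.proper ℝ E
  have b0 : 0 < b := by linarith
  obtain ⟨L, hL⟩ : ∃ L, L = b / β := ⟨_, rfl⟩
  have L1 : 1 ≤ L := by rw [hL, one_le_div β0]; linarith
  have L0 : 0 < L := by linarith
  obtain ⟨k0, hk0⟩ := exists_pow_lt_of_lt_one (show 0 < 1 / (4 * L * b) by positivity) q1
  choose Cl Cl0 hl using ly c q0 b0.le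
  choose Ci Ci0 hi using fun k => itp (E := E) (V := V) hR
    (show 0 < 1 / (4 * L * (Cl k + 1)) by have := Cl0 k; positivity) k
  obtain ⟨c1, hc1⟩ : ∃ c1 : ℕ → ℝ, c1 = fun k => 1 + 2 * (Cl k * Ci k) * (b * L) * L := ⟨_, rfl⟩
  have c11 : ∀ k, 1 ≤ c1 k := fun k => by
    have := Cl0 k; have := Ci0 k
    rw [hc1]; exact le_add_of_nonneg_right (by positivity)
  obtain ⟨N0, w0, hw, hG⟩ := hG.hom fun k =>
    c1 k + (b + Cl k) * ((Ci k0 * (b * L) + c1 k0) * L)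
  refine ⟨max N0 k0, 1 / w0, by positivity, fun T z ψ A g x s B h hx hxT hg hs hB => ?_⟩
  have R0 : (0 : E) ∈ ball (0 : E) R := mem_ball_self (by linarith)
  have s0 := (norm_nonneg _).trans (hs 0 R0)
  have B0 := (norm_nonneg _).trans (hB 0 (Nat.zero_le _) 0 R0)
  set F := pb ψ A g with hF
  have sm : ∀ i ≤ T, ContDiffOn ℝ ∞ (F i) (ball 0 R) := fun i => by
    induction i with
    | zero => exact fun _ => hg
    | succ i ih =>
      exact fun hi => (h i hi).sA.clm_apply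
        ((ih (by omega)).comp (h i hi).sψ fun y hy => (h i hi).mem hR hy)
  have hI : ∀ i ≤ T, ∀ y ∈ ball (0 : E) R, ‖I (z i) y (F i y)‖ ≤ b ^ i * s := fun i => by
    induction i with
    | zero => exact fun _ y hy => by rw [pow_zero, one_mul]; exact hs y hy
    | succ i ih =>
      intro hi y hy
      refine ((h i hi).cI y hy _).trans ?_
      rw [pow_succ', mul_assoc]
      exact mul_le_mul_of_nonneg_left (ih (by omega) _ ((h i hi).mem hR hy)) b0.le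
  have hy : ∀ i, ∃ y : E, i ≤ T → ‖y‖ ≤ R' ∧ ∀ u : E, ‖u‖ ≤ R' → ‖F i u‖ ≤ ‖F i y‖ := fun i => by
    by_cases hi : i ≤ T
    · obtain ⟨y, y1, y2⟩ := (isCompact_closedBall (0 : E) R').exists_isMaxOn
        ⟨0, mem_closedBall_self hR0⟩
        ((sm i hi).continuousOn.mono (closedBall_subset_ball hR)).norm
      exact ⟨y, fun _ => ⟨mem_closedBall_zero_iff.1 y1, fun u hu =>
        y2 (mem_closedBall_zero_iff.2 hu)⟩⟩
    · exact ⟨0, fun h => absurd h hi⟩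
  choose y hy using hy
  obtain ⟨j, hj, hmax⟩ := exists_max_image (range (T + 1)) (fun i => ‖F i (y i)‖ * L ^ i)
    ⟨0, by simp⟩
  have hj : j ≤ T := Nat.lt_succ_iff.1 (Finset.mem_range.1 hj)
  obtain ⟨μ, hμ⟩ : ∃ μ, μ = ‖F j (y j)‖ := ⟨_, rfl⟩
  rw [← hμ] at hmax
  have μ0 : 0 ≤ μ := hμ ▸ norm_nonneg _
  have low : ‖g (x 0)‖ * L ^ T ≤ b ^ T * (μ * L ^ j) := by
    calc _ ≤ b ^ T * ‖F T (y T)‖ * L ^ T := by
          gcongr
          exact (pb_low b0.le h g hx T le_rfl).trans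
            (mul_le_mul_of_nonneg_left ((hy T le_rfl).2 _ hxT) (by positivity))
      _ = b ^ T * (‖F T (y T)‖ * L ^ T) := by ring
      _ ≤ _ := mul_le_mul_of_nonneg_left (hmax T (by simp)) (by positivity)
  have LT : 0 < L ^ T := by positivity
  by_cases hc : μ * L ^ j ≤ B
  · have : ‖g (x 0)‖ ≤ β ^ T * B := by
      refine le_of_mul_le_mul_right (low.trans ?_) LT
      calc _ ≤ b ^ T * B := by gcongr
        _ = _ := by rw [hL, div_pow]; field_simp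
    have : 0 ≤ 1 / w0 * (b ^ 2) ^ T * s := by positivity
    linarith
  push Not at hc
  have μ1 : 0 < μ := by
    by_contra h0
    rw [le_antisymm (not_lt.1 h0) μ0, zero_mul] at hc
    linarith
  have bL : 1 ≤ b * L := one_le_mul_of_one_le_of_one_le hb L1
  have hm : ∀ i ≤ j, ∀ u ∈ ball (0 : E) R, ‖F i u‖ ≤ b * L * (μ * L ^ (j - i)) := by
    intro i hi u hu
    cases i with
    | zero =>
      have := hB 0 (Nat.zero_le _) u hu
      rw [norm_iteratedFDeriv_zero] at this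
      exact (this.trans hc.le).trans (le_mul_of_one_le_left (by positivity) bL)
    | succ i =>
      have a1 := hmax i (Finset.mem_range.2 (by omega))
      have a2 : ‖F i (y i)‖ ≤ μ * L ^ (j - (i + 1)) * L := by
        refine le_of_mul_le_mul_right (a1.trans (le_of_eq ?_)) (show 0 < L ^ i by positivity)
        rw [mul_assoc, mul_assoc, ← pow_succ', ← pow_add]
        congr 2
        omega
      have st := h i (by omega)
      calc _ ≤ b * (μ * L ^ (j - (i + 1)) * L) := (A i u).le_of_opNorm_le_of_le (st.nA u hu)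
            (((hy i (by omega)).2 _ (st.mp u hu)).trans a2)
        _ = _ := by ring
  have key : ∀ k i, i < j → ∀ D M : ℝ, 0 ≤ M → ∀ u ∈ ball (0 : E) R,
      ‖iteratedFDeriv ℝ k (F i) (ψ i u)‖ ≤ D → (∀ l < k, ‖iteratedFDeriv ℝ l (F i) (ψ i u)‖ ≤ M) →
      ‖iteratedFDeriv ℝ k (F (i + 1)) u‖ ≤ b * q ^ k * D + Cl k * M := by
    intro k i hij D M hM u hu h1 h2
    have st := h i (by omega)
    have o := isOpen_ball.mem_nhds hu
    exact hl k E E V V (F i) (ψ i) (A i) u D M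
      ((sm i (by omega)).contDiffAt (isOpen_ball.mem_nhds (st.mem hR hu))) (st.sψ.contDiffAt o)
      (st.sA.contDiffAt o) (st.d1 u hu) (st.nA u hu) (st.dψ u hu) (st.dA u hu) h1 hM h2
  have hD : ∀ k, k0 ≤ k → k ≤ max N0 k0 → ∀ i ≤ j, ∀ u ∈ ball (0 : E) R,
      ‖iteratedFDeriv ℝ k (F i) u‖ ≤ c1 k * (μ * L ^ (j - i)) := by
    intro k k1 k2 i
    induction i with
    | zero =>
      exact fun _ u hu => ((hB k k2 u hu).trans hc.le).trans
        (le_mul_of_one_le_left (by positivity) (c11 k))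
    | succ i ih =>
      intro hij u hu
      have st := h i (by omega)
      have ih := ih (by omega)
      have := Cl0 k
      have := Ci0 k
      have := c11 k
      obtain ⟨X, hX⟩ : ∃ X, X = μ * L ^ (j - (i + 1)) := ⟨_, rfl⟩
      have X0 : 0 ≤ X := by rw [hX]; positivity
      have e : μ * L ^ (j - i) = X * L := by
        rw [hX, mul_assoc, ← pow_succ]
        congr 2
        omega
      refine (key k i hij _ _ (by positivity) u hu (ih _ (st.mem hR hu))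
        (hi k (F i) _ _ (sm i (by omega)) (hm i (by omega)) ih _ (st.mp u hu))).trans ?_
      rw [e, ← hX]
      have a1 : b * q ^ k * L ≤ 1 / 4 := by
        have : q ^ k ≤ 1 / (4 * L * b) := (pow_le_pow_of_le_one q0 q1.le k1).trans hk0.le
        calc _ ≤ b * (1 / (4 * L * b)) * L := by gcongr
          _ = _ := by field_simp
      have a2 : Cl k * (1 / (4 * L * (Cl k + 1))) * L ≤ 1 / 4 := by
        calc _ ≤ (Cl k + 1) * (1 / (4 * L * (Cl k + 1))) * L := by gcongr; linarith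
          _ = _ := by field_simp
      have a3 : Cl k * Ci k * (b * L) * L ≤ c1 k / 2 := by rw [hc1]; linarith
      calc _ = (b * q ^ k * L) * (c1 k * X) + (Cl k * Ci k * (b * L) * L) * X +
            (Cl k * (1 / (4 * L * (Cl k + 1))) * L) * (c1 k * X) := by ring
        _ ≤ 1 / 4 * (c1 k * X) + c1 k / 2 * X + 1 / 4 * (c1 k * X) := by gcongr
        _ = _ := by ring
  have fin : w0 * μ ≤ b ^ j * s := by
    by_contra hcon
    push Not at hcon
    have := hG (z j) (F j) μ μ1 (sm j hj) (fun k hk u hu => ?_)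
      (fun u hu => (hI j hj u hu).trans hcon.le) (y j) (hy j hj).1
    · rw [← hμ] at this
      linarith
    have := Cl0 k
    have := Ci0 k0
    have := c11 k
    have := c11 k0
    rcases le_or_gt k0 k with k1 | k1
    · have a := hD k k1 (hk.trans (le_max_left _ _)) j le_rfl u hu
      rw [Nat.sub_self, pow_zero, mul_one] at a
      exact a.trans (mul_le_mul_of_nonneg_right (le_add_of_nonneg_right (by positivity)) μ0)
    cases j with
    | zero =>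
      rw [pow_zero, mul_one] at hc
      exact ((hB k (hk.trans (le_max_left _ _)) u hu).trans hc.le).trans
        (le_mul_of_one_le_left μ0 ((c11 k).trans (le_add_of_nonneg_right (by positivity))))
    | succ i =>
      have st := h i (by omega)
      have a := hi k0 (F i) _ _ (sm i (by omega)) (hm i (by omega))
        (hD k0 le_rfl (le_max_right _ _) i (by omega)) _ (st.mp u hu)
      rw [show i + 1 - i = 1 by omega, pow_one] at a
      have := Cl0 k0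
      have a1 : 1 / (4 * L * (Cl k0 + 1)) ≤ 1 := by
        rw [div_le_one (by positivity)]
        nlinarith
      have a' : ∀ l < k0, ‖iteratedFDeriv ℝ l (F i) (ψ i u)‖ ≤
          (Ci k0 * (b * L) + c1 k0) * L * μ := fun l hl => by
        calc _ ≤ Ci k0 * (b * L * (μ * L)) + 1 * (c1 k0 * (μ * L)) := by
              refine (a l hl).trans ?_
              gcongr
          _ = _ := by ring
      refine (key k i (by omega) _ _ (by positivity) u hu (a' k k1)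
        (fun l hl => a' l (by omega))).trans ?_
      have a2 : q ^ k ≤ 1 := pow_le_one₀ q0 q1.le
      calc _ ≤ b * 1 * ((Ci k0 * (b * L) + c1 k0) * L * μ) +
            Cl k * ((Ci k0 * (b * L) + c1 k0) * L * μ) := by gcongr
        _ = ((b + Cl k) * ((Ci k0 * (b * L) + c1 k0) * L)) * μ := by ring
        _ ≤ _ := mul_le_mul_of_nonneg_right (le_add_of_nonneg_left (by linarith)) μ0
  have : ‖g (x 0)‖ ≤ 1 / w0 * (b ^ 2) ^ T * s := by
    refine le_of_mul_le_mul_right (low.trans ?_) LT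
    have a1 : μ ≤ b ^ T * s / w0 := by
      rw [le_div_iff₀' hw]
      exact fin.trans (mul_le_mul_of_nonneg_right (pow_le_pow_right₀ hb hj) s0)
    calc _ ≤ b ^ T * (b ^ T * s / w0 * L ^ T) := by gcongr
      _ = _ := by rw [← pow_mul, two_mul, pow_add]; ring
  have : 0 ≤ β ^ T * B := by positivity
  linarith

end Crest.Agent.N221.G0.Nr
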