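import Crest.Agent.N221.G0.Nr1

/-! Row 221, block G0/NR (helper54): entry from a small ball and choice of the length of the
chain. -/

set_option autoImplicit false

open Set Metric Filter Finset
open scoped ContDiff Nat Topology

namespace Crest.Agent.N221.G0.Nr

variable {Z Z0 E V W : Type} [NormedAddCommGroup E] [NormedSpace ℝ E]
  [NormedAddCommGroup V] [NormedSpace ℝ V] [NormedAddCommGroup W] [NormedSpace ℝ W]
  {R R' q b : ℝ} {c : ℕ → ℝ} {I : Z → E → V →L[ℝ] W}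

lemma Stp.lip {z' z : Z} {ψ : E → E} {A : E → V →L[ℝ] V} (h : Stp R R' q b c I z' z ψ A)
    {x y : E} (hx : x ∈ ball (0 : E) R) (hy : y ∈ ball (0 : E) R) : ‖ψ y - ψ x‖ ≤ q * ‖y - x‖ :=
  (convex_ball _ _).norm_image_sub_le_of_norm_fderiv_le
    (fun u hu => (h.sψ.contDiffAt (isOpen_ball.mem_nhds hu)).differentiableAt (by simp)) h.d1 hx hy

/-- crude bounds along a chain, with a rate that does not depend on the order -/
theorem crude (c : ℕ → ℝ) (hR : R' < R) (q0 : 0 ≤ q) (q1 : q ≤ 1) (hb : 1 ≤ b) (N : ℕ) :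
    ∃ K : ℝ, 1 ≤ K ∧ ∀ (T : ℕ) (z : ℕ → Z) (ψ : ℕ → E → E) (A : ℕ → E → V →L[ℝ] V)
      (g : E → V) (x : ℕ → E) (ρ s B : ℝ),
      (∀ i < T, Stp R R' q b c I (z (i + 1)) (z i) (ψ i) (A i)) →
      (∀ i < T, x (i + 1) ∈ ball (0 : E) R ∧ ψ i (x (i + 1)) = x i) →
      (∀ y ∈ ball (0 : E) R, ‖y - x 0‖ < ρ → ContDiffAt ℝ ∞ g y ∧ ‖I (z 0) y (g y)‖ ≤ s ∧
        ∀ k ≤ N, ‖iteratedFDeriv ℝ k g y‖ ≤ B) →
      ∀ i ≤ T, ∀ y ∈ ball (0 : E) R, q ^ i * ‖y - x i‖ < ρ → ContDiffAt ℝ ∞ (pb ψ A g i) y ∧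
        ‖I (z i) y (pb ψ A g i y)‖ ≤ b ^ i * s ∧
        ∀ k ≤ N, ‖iteratedFDeriv ℝ k (pb ψ A g i) y‖ ≤ K * (2 * b) ^ i * B := by
  have b0 : 0 ≤ b := by linarith
  choose Cl Cl0 hl using ly c q0 b0
  obtain ⟨P, P1, P2⟩ := cbound Cl N
  refine ⟨P ^ N, one_le_pow₀ P1, fun T z ψ A g x ρ s B h hx hg => ?_⟩
  suffices H : ∀ i ≤ T, ∀ y ∈ ball (0 : E) R, q ^ i * ‖y - x i‖ < ρ →
      ContDiffAt ℝ ∞ (pb ψ A g i) y ∧ ‖I (z i) y (pb ψ A g i y)‖ ≤ b ^ i * s ∧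
        ∀ k ≤ N, ‖iteratedFDeriv ℝ k (pb ψ A g i) y‖ ≤ P ^ k * ((2 * b) ^ i * B) by
    intro i hi y hy h1
    obtain ⟨a1, a2, a3⟩ := H i hi y hy h1
    refine ⟨a1, a2, fun k hk => (a3 k hk).trans ?_⟩
    have := (norm_nonneg _).trans (a3 0 (Nat.zero_le _))
    rw [pow_zero, one_mul] at this
    rw [mul_assoc]
    gcongr
  intro i
  induction i with
  | zero =>
    intro _ y hy h1
    rw [pow_zero, one_mul] at h1
    obtain ⟨a1, a2, a3⟩ := hg y hy h1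
    refine ⟨a1, by rw [pow_zero, one_mul]; exact a2, fun k hk => (a3 k hk).trans ?_⟩
    rw [pow_zero, one_mul]
    exact le_mul_of_one_le_left ((norm_nonneg _).trans (a3 k hk)) (one_le_pow₀ P1)
  | succ i ih =>
    intro hi y hy h1
    have st := h i hi
    have o := isOpen_ball.mem_nhds hy
    obtain ⟨a1, a2, a3⟩ := ih (by omega) _ (st.mem hR hy) (lt_of_le_of_lt (by
      rw [← (hx i hi).2, pow_succ, mul_assoc]
      exact mul_le_mul_of_nonneg_left (st.lip (hx i hi).1 hy) (by positivity)) h1)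
    refine ⟨(st.sA.contDiffAt o).clm_apply (a1.comp y (st.sψ.contDiffAt o)),
      (st.cI y hy _).trans ?_, fun k hk => ?_⟩
    · rw [pow_succ', mul_assoc]
      exact mul_le_mul_of_nonneg_left a2 b0
    obtain ⟨X, hX⟩ : ∃ X, X = (2 * b) ^ i * B := ⟨_, rfl⟩
    rw [← hX] at a3
    have X0 : 0 ≤ X := by simpa using (norm_nonneg _).trans (a3 0 (Nat.zero_le _))
    have P0 : 0 < P := by linarith
    refine (hl k E E V V (pb ψ A g i) (ψ i) (A i) y _ (P ^ k / P * X) a1 (st.sψ.contDiffAt o)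
      (st.sA.contDiffAt o) (st.d1 y hy) (st.nA y hy) (st.dψ y hy) (st.dA y hy) (a3 k hk)
      (by positivity) fun l hlk => (a3 l (by omega)).trans ?_).trans ?_
    · refine mul_le_mul_of_nonneg_right ?_ X0
      rw [le_div_iff₀ P0, ← pow_succ]
      exact pow_le_pow_right₀ P1 hlk
    have a4 : q ^ k ≤ 1 := pow_le_one₀ q0 q1
    have a5 := P2 k hk
    calc _ ≤ b * 1 * (P ^ k * X) + P * (P ^ k / P * X) := by gcongr
      _ = b * (P ^ k * X) + 1 * (P ^ k * X) := by field_simp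
      _ ≤ b * (P ^ k * X) + b * (P ^ k * X) := by gcongr
      _ = _ := by rw [hX]; ring

/-- NR for a system in which every good point has a step coming from a plaque `ι z'` -/
theorem nr [FiniteDimensional ℝ E] [CompleteSpace V] (ι : Z0 → Z) (P : Z → E → Prop)
    (hG : Gap R R' fun z => I (ι z)) (hR0 : 0 ≤ R') (hR : R' < R) (q0 : 0 ≤ q) (q1 : q < 1)
    (hb : 1 ≤ b) (hB : ∀ z x, P z x → ∃ z' ψ A x', Stp R R' q b c I (ι z') z ψ A ∧ ‖x'‖ ≤ R' ∧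
      ψ x' = x ∧ P (ι z') x') :
    ∃ a : ℕ, ∀ L : ℕ, ∃ (N : ℕ) (C : ℝ), 0 < C ∧ ∀ z x, P z x → ∀ (g : E → V) (ρ s B t : ℝ),
      0 < ρ → ρ ≤ 1 → 0 < t → t ≤ 1 →
      (∀ y ∈ ball (0 : E) R, ‖y - x‖ < ρ → ContDiffAt ℝ ∞ g y ∧ ‖I z y (g y)‖ ≤ s ∧
        ∀ k ≤ N, ‖iteratedFDeriv ℝ k g y‖ ≤ B) →
      ‖g x‖ ≤ C / ρ ^ a * (s / t + t ^ L * B) := by
  obtain ⟨p, hp⟩ : ∃ p, p = 2 * b ^ 2 := ⟨_, rfl⟩
  have b0 : 0 < b := by linarith
  have b2 : 1 ≤ b ^ 2 := one_le_pow₀ hb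
  have p1 : 1 < p := by linarith
  have p0 : 0 < p := by linarith
  obtain ⟨a, ha⟩ := exists_pow_lt_of_lt_one (show 0 < 1 / p by positivity) q1
  refine ⟨a, fun L => ?_⟩
  obtain ⟨N, C, hC, h1⟩ := core (c := c) hG hR0 hR q0 q1 hb (β := (p⁻¹) ^ L) (by positivity)
    (pow_le_one₀ (by positivity) (inv_le_one_of_one_le₀ p1.le))
  obtain ⟨K, K1, h2⟩ := crude (I := I) c hR q0 q1.le hb N
  refine ⟨N, p * (1 + 2 * R) ^ a * (C + K * p ^ L), by have := hR0.trans hR.le; positivity,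
    fun z x hP g ρ s B t ρ0 ρ1 t0 t1 hg => ?_⟩
  choose nz nψ nA nx hs hn he hP' using hB
  let o : ℕ → {u : Z × E // P u.1 u.2} := fun i => Nat.rec ⟨(z, x), hP⟩
    (fun _ u => ⟨(ι (nz _ _ u.2), nx _ _ u.2), hP' _ _ u.2⟩) i
  have st : ∀ i, Stp R R' q b c I (o (i + 1)).1.1 (o i).1.1 (nψ _ _ (o i).2) (nA _ _ (o i).2) :=
    fun i => hs _ _ (o i).2
  have xn : ∀ i, ‖(o (i + 1)).1.2‖ ≤ R' := fun i => hn _ _ (o i).2
  have xe : ∀ i, (o (i + 1)).1.2 ∈ ball (0 : E) R ∧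
      nψ _ _ (o i).2 (o (i + 1)).1.2 = (o i).1.2 :=
    fun i => ⟨mem_ball_zero_iff.2 ((xn i).trans_lt hR), he _ _ (o i).2⟩
  have R0 : 0 < R := hR0.trans_lt hR
  have ex : ∃ n : ℕ, q ^ (n + 1) * (1 + 2 * R) < ρ := by
    obtain ⟨n, hn⟩ := exists_pow_lt_of_lt_one (show 0 < ρ / (1 + 2 * R) by positivity) q1
    exact ⟨n, (lt_div_iff₀ (by positivity)).1
      ((pow_le_pow_of_le_one q0 q1.le (Nat.le_succ n)).trans_lt hn)⟩
  classical
  obtain ⟨n, n1, n2⟩ : ∃ n : ℕ, q ^ (n + 1) * (1 + 2 * R) < ρ ∧ ρ ≤ q ^ n * (1 + 2 * R) := by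
    refine ⟨Nat.find ex, Nat.find_spec ex, ?_⟩
    cases hn : Nat.find ex with
    | zero => rw [pow_zero]; linarith
    | succ m => exact not_lt.1 (Nat.find_min ex (m := m) (by omega))
  obtain ⟨T, T1, T2⟩ := exists_nat_pow_near (x := 1 / t) ((one_le_div t0).2 t1) p1
  have cr := fun y (hy : y ∈ ball (0 : E) R) => h2 (n + 1) (fun i => (o i).1.1)
    (fun i => nψ _ _ (o i).2) (fun i => nA _ _ (o i).2) g (fun i => (o i).1.2) ρ s B
    (fun i _ => st i) (fun i _ => xe i) hg (n + 1) le_rfl y hy (lt_of_le_of_lt (by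
      refine mul_le_mul_of_nonneg_left ((norm_sub_le _ _).trans ?_) (by positivity)
      linarith [mem_ball_zero_iff.1 hy, xn n]) n1)
  have co := h1 T (fun i => nz _ _ (o (n + i)).2) (fun i => nψ _ _ (o (n + i + 1)).2)
    (fun i => nA _ _ (o (n + i + 1)).2) _ (fun i => (o (n + i + 1)).1.2) _ _
    (fun i _ => let h := st (n + i + 1)
      ⟨h.sψ, h.sA, h.mp, h.d1, h.dψ, h.dA, h.nA, h.iA, h.cI⟩)
    (fun i _ => xe (n + i + 1)) (xn _) (fun y hy => (cr y hy).1.contDiffWithinAt)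
    (fun y hy => (cr y hy).2.1) fun k hk y hy => (cr y hy).2.2 k hk
  have lo := pb_low b0.le (T := n + 1) (z := fun i => (o i).1.1) (fun i _ => st i) g
    (x := fun i => (o i).1.2) (fun i _ => xe i) (n + 1) le_rfl
  have z0 := cr 0 (mem_ball_self R0)
  have s0 : 0 ≤ s := nonneg_of_mul_nonneg_right ((norm_nonneg _).trans z0.2.1) (by positivity)
  have B0 : 0 ≤ B := nonneg_of_mul_nonneg_right
    ((norm_nonneg _).trans (z0.2.2 0 (Nat.zero_le _))) (by positivity)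
  have a1 : (b ^ 2) ^ T ≤ 1 / t := (pow_le_pow_left₀ (by positivity) (by linarith) T).trans T1
  have a2 : (p⁻¹ ^ L) ^ T ≤ p ^ L * t ^ L := by
    rw [← pow_mul, mul_comm, pow_mul, ← mul_pow]
    refine pow_le_pow_left₀ (by positivity) ?_ L
    rw [div_lt_iff₀ t0, pow_succ] at T2
    rw [inv_pow, inv_le_iff_one_le_mul₀ (by positivity)]
    linarith
  have a3 : p ^ (n + 1) ≤ p * (1 + 2 * R) ^ a / ρ ^ a := by
    rw [le_div_iff₀ (by positivity)]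
    have : (p * q ^ a) ^ n ≤ 1 := pow_le_one₀ (by positivity) ((le_div_iff₀' p0).1 ha.le)
    calc _ ≤ p ^ (n + 1) * (q ^ n * (1 + 2 * R)) ^ a := by gcongr
      _ = p * (1 + 2 * R) ^ a * (p * q ^ a) ^ n := by rw [mul_pow, mul_pow]; ring
      _ ≤ _ := mul_le_of_le_one_right (by positivity) this
  have a4 : b ^ (n + 1) * b ^ (n + 1) ≤ p ^ (n + 1) := by
    rw [← mul_pow]
    exact pow_le_pow_left₀ (by positivity) (by linarith) _
  have a5 : b ^ (n + 1) * (2 * b) ^ (n + 1) = p ^ (n + 1) := by rw [← mul_pow, hp]; ring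
  calc ‖g x‖ ≤ b ^ (n + 1) * (C * (1 / t) * (b ^ (n + 1) * s) +
        p ^ L * t ^ L * (K * (2 * b) ^ (n + 1) * B)) := by
        refine lo.trans (mul_le_mul_of_nonneg_left (co.trans ?_) (by positivity))
        gcongr
    _ = b ^ (n + 1) * b ^ (n + 1) * (C * (s / t)) +
        b ^ (n + 1) * (2 * b) ^ (n + 1) * (K * p ^ L * (t ^ L * B)) := by ring
    _ ≤ p ^ (n + 1) * ((C + K * p ^ L) * (s / t)) +
        p ^ (n + 1) * ((C + K * p ^ L) * (t ^ L * B)) := by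
        rw [a5]
        gcongr
        · exact le_add_of_nonneg_right (by positivity)
        · exact le_add_of_nonneg_left hC.le
    _ = p ^ (n + 1) * ((C + K * p ^ L) * (s / t + t ^ L * B)) := by ring
    _ ≤ p * (1 + 2 * R) ^ a / ρ ^ a * ((C + K * p ^ L) * (s / t + t ^ L * B)) := by gcongr
    _ = _ := by ring

end Crest.Agent.N221.G0.Nr
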