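import Mathlib

/-!
Row 221, block G0 (helper81, note h81-4): the SIEGEL SOURCE.  One chart `E × E`, leaves are graphs
over the first factor, `S`, `U` are the slopes at the centre `0`, `io z : W →L W'` is the
contraction with `M z` (`W` = `r`-forms).  `SgS`: at every small scale `ρ` there is an approximate
relation `Q` of order `ρ ^ K` on a ball of radius `ρ`, of norm one at the centre of this ball, with
derivatives `C i / ρ ^ i`.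
-/

set_option autoImplicit false

open Set Metric
open scoped ContDiff

namespace Crest.Agent.N221.G0

variable {E W W' : Type} [NormedAddCommGroup E] [NormedSpace ℝ E] [NormedAddCommGroup W]
  [NormedSpace ℝ W] [NormedAddCommGroup W'] [NormedSpace ℝ W']

/-- a graph over `ball 0 r` with bounded jets and slope Hölder close to `S` at the centre -/
structure Gr (S : E →L[ℝ] E) (r θ : ℝ) (c : ℕ → ℝ) (s : E → E) : Prop where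
  sm : ContDiffOn ℝ ∞ s (ball 0 r)
  bd : ∀ i, ∀ q ∈ ball (0 : E) r, ‖iteratedFDeriv ℝ i s q‖ ≤ c i
  hol : ∀ q : E, ‖(q, s q)‖ < r → ‖fderiv ℝ s q - S‖ ≤ c 0 * ‖(q, s q)‖ ^ θ

/-- input of the Siegel lemma: unstable graphs through all points, good stable graphs `ε` close
to all points with floor and size `ε ^ (± a)`, relations up to an arbitrary error `o` -/
structure SG (S U J : E →L[ℝ] E) (io : E × E → W →L[ℝ] W') (r θ a : ℝ) (c : ℕ → ℝ) : Prop where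
  hr : 0 < r
  hθ : 0 < θ
  hθ1 : θ ≤ 1
  ha : 0 ≤ a
  inv : ∀ v, J (U v - S v) = v
  un : ∀ z : E × E, ‖z‖ < r → ∃ u : E → E, u z.1 = z.2 ∧ Gr U r θ c u ∧
    ContDiffOn ℝ ∞ (fun q => io (q, u q)) (ball 0 r) ∧
    ∀ i, ∀ q ∈ ball (0 : E) r, ‖iteratedFDeriv ℝ i (fun q => io (q, u q)) q‖ ≤ c i
  st : ∀ z : E × E, ‖z‖ < r → ∀ ε : ℝ, 0 < ε → ε ≤ 1 → ∀ (N : ℕ) (o : ℝ), 0 < o →
    ∃ (s : E → E) (Θ : E → W), ‖s z.1 - z.2‖ ≤ ε ∧ Gr S r θ c s ∧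
      ContDiffOn ℝ ∞ Θ (ball 0 r) ∧ ∀ q ∈ ball (0 : E) r,
        ‖io (q, s q) (Θ q)‖ ≤ o ∧ ε ^ a ≤ c 0 * ‖Θ q‖ ∧
          ∀ i ≤ N, ‖iteratedFDeriv ℝ i Θ q‖ ≤ c i / ε ^ a

/-- a source at scale `ρ` -/
structure Src (io : E × E → W →L[ℝ] W') (K : ℕ) (C : ℕ → ℝ) (ρ : ℝ) (z₁ : E × E)
    (Q : E × E → W) : Prop where
  near : ‖z₁‖ ≤ C 0 * ρ
  sm : ContDiff ℝ ∞ Q
  one : ‖Q z₁‖ = 1
  bd : ∀ i, ∀ z ∈ ball z₁ ρ, ‖iteratedFDeriv ℝ i Q z‖ ≤ C i / ρ ^ i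
  rel : ∀ z ∈ ball z₁ ρ, ‖io z (Q z)‖ ≤ C 0 * ρ ^ K

/-- SIEGEL -/
def SgS : Prop := ∀ (E W W' : Type) [NormedAddCommGroup E] [NormedSpace ℝ E]
  [FiniteDimensional ℝ E] [NormedAddCommGroup W] [NormedSpace ℝ W] [FiniteDimensional ℝ W]
  [NormedAddCommGroup W'] [NormedSpace ℝ W'] [CompleteSpace W'] (S U J : E →L[ℝ] E)
  (io : E × E → W →L[ℝ] W') (r θ a : ℝ) (c : ℕ → ℝ), SG S U J io r θ a c →
  ∀ K : ℕ, ∃ (C : ℕ → ℝ) (ρ₀ : ℝ), 0 < ρ₀ ∧ (∀ i, 1 ≤ C i) ∧ ∀ ρ : ℝ, 0 < ρ → ρ < ρ₀ →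
    ∃ (z₁ : E × E) (Q : E × E → W), Src io K C ρ z₁ Q

end Crest.Agent.N221.G0
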