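import Crest.Agent.N221.A1.PAll
import Crest.Agent.N221.Ex.UB
import Crest.Agent.N221.G0.ApB

/-!
Row 221, block G0/SG (helper8): polynomial tools for the Siegel lemma.
`Ty n j κ C f x` : `‖D^k f x‖ ≤ C κ^(k-j)` for `k ≤ n`; `Pd E d` polynomials of degree `≤ d`;
`Lag E d` unisolvent nodes with their Lagrange basis; `count` the dimension count; `Lag.Ok.int`
interpolation at perturbed nodes.
-/

set_option autoImplicit false

open Set Metric Filter Topology
open scoped ContDiff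

noncomputable section

namespace Crest.Agent.N221.G0.Sg

open Crest.Agent.N221.Ex Crest.Agent.N221.PS

/-- type `j` at the point `x` up to order `n` -/
def Ty {X Y : Type} [NormedAddCommGroup X] [NormedSpace ℝ X] [NormedAddCommGroup Y]
    [NormedSpace ℝ Y] (n j : ℕ) (κ C : ℝ) (f : X → Y) (x : X) : Prop :=
  ContDiffAt ℝ ∞ f x ∧ ∀ i ≤ n, ‖iteratedFDeriv ℝ i f x‖ ≤ C * κ ^ (i - j)

section ty

variable {X Y W W' : Type} [NormedAddCommGroup X] [NormedSpace ℝ X] [NormedAddCommGroup Y]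
  [NormedSpace ℝ Y] [NormedAddCommGroup W] [NormedSpace ℝ W] [NormedAddCommGroup W']
  [NormedSpace ℝ W'] {n j j' : ℕ} {κ C C' : ℝ} {f f' : X → Y} {x : X}

theorem Ty.norm_le (h : Ty n j κ C f x) : ‖f x‖ ≤ C := by simpa using h.2 0 n.zero_le

theorem Ty.nn (h : Ty n j κ C f x) : 0 ≤ C := (norm_nonneg _).trans h.norm_le

theorem Ty.mono (h : Ty n j κ C f x) (k0 : 0 ≤ κ) (k1 : κ ≤ 1) (hj : j ≤ j') (hC : C ≤ C') :
    Ty n j' κ C' f x :=
  ⟨h.1, fun i hi => (h.2 i hi).trans (mul_le_mul hC (pow_le_pow_of_le_one k0 k1 (by omega))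
    (pow_nonneg k0 _) (h.nn.trans hC))⟩

theorem Ty.congr (h : Ty n j κ C f x) (e : f' =ᶠ[𝓝 x] f) : Ty n j κ C f' x :=
  ⟨h.1.congr_of_eventuallyEq e, fun i hi => by
    rw [(e.iteratedFDeriv ℝ i).eq_of_nhds]; exact h.2 i hi⟩

theorem Ty.const (k0 : 0 ≤ κ) {c : Y} (hc : ‖c‖ ≤ C) : Ty n j κ C (fun _ : X => c) x :=
  ⟨contDiffAt_const, fun i _ => by
    rcases eq_or_ne i 0 with rfl | hk
    · rw [norm_iteratedFDeriv_zero]; simpa using hc
    · rw [iteratedFDeriv_const_of_ne hk]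
      simpa using mul_nonneg ((norm_nonneg _).trans hc) (pow_nonneg k0 _)⟩

theorem Ty.clm (h : Ty n j κ C f x) (B : Y →L[ℝ] W) : Ty n j κ (‖B‖ * C) (fun y => B (f y)) x :=
  ⟨B.contDiff.contDiffAt.comp x h.1, fun i hi =>
    (B.norm_iteratedFDeriv_comp_left h.1 (le_infty i)).trans (by
      rw [mul_assoc]; exact mul_le_mul_of_nonneg_left (h.2 i hi) (norm_nonneg _))⟩

theorem Ty.add (h : Ty n j κ C f x) (h' : Ty n j κ C' f' x) :
    Ty n j κ (C + C') (fun y => f y + f' y) x :=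
  ⟨h.1.add h'.1, fun i hi => by
    rw [fun_iteratedFDeriv_add_apply (cda h.1 i) (cda h'.1 i), add_mul]
    exact (norm_add_le _ _).trans (add_le_add (h.2 i hi) (h'.2 i hi))⟩

theorem Ty.sub (h : Ty n j κ C f x) (h' : Ty n j κ C' f' x) :
    Ty n j κ (C + C') (fun y => f y - f' y) x :=
  ⟨h.1.sub h'.1, fun i hi => by
    rw [fun_iteratedFDeriv_sub_apply (cda h.1 i) (cda h'.1 i), add_mul]
    exact (norm_sub_le _ _).trans (add_le_add (h.2 i hi) (h'.2 i hi))⟩

theorem Ty.bilin {g : X → W} (B : Y →L[ℝ] W →L[ℝ] W') (k0 : 0 ≤ κ) (k1 : κ ≤ 1)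
    (h : Ty n j κ C f x) (h' : Ty n j' κ C' g x) :
    Ty n (j + j') κ (‖B‖ * 2 ^ n * C * C') (fun y => B (f y) (g y)) x :=
  ⟨(B.contDiff.contDiffAt.comp x h.1).clm_apply h'.1, fun k hk => by
    have := h.nn; have := h'.nn
    refine (bilin_at B k h.1 h'.1).trans ?_
    have e : ∑ l ∈ Finset.range (k + 1), (k.choose l : ℝ) ≤ 2 ^ n := by
      have : ∑ l ∈ Finset.range (k + 1), (k.choose l : ℝ) = 2 ^ k := by
        exact_mod_cast Nat.sum_range_choose k
      rw [this]; exact pow_le_pow_right₀ one_le_two hk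
    calc _ ≤ ‖B‖ * ∑ l ∈ Finset.range (k + 1), (k.choose l : ℝ) * (C * C' * κ ^ (k - (j + j'))) := by
          refine mul_le_mul_of_nonneg_left (Finset.sum_le_sum fun l hl => ?_) (by positivity)
          have hl' := Finset.mem_range.1 hl
          refine (mul_le_mul (mul_le_mul_of_nonneg_left (h.2 l (by omega)) (by positivity))
            (h'.2 _ (by omega)) (norm_nonneg _) (by positivity)).trans ?_
          have e : κ ^ (l - j) * κ ^ (k - l - j') ≤ κ ^ (k - (j + j')) := by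
            rw [← pow_add]; exact pow_le_pow_of_le_one k0 k1 (by omega)
          calc _ = (k.choose l : ℝ) * (C * C' * (κ ^ (l - j) * κ ^ (k - l - j'))) := by ring
            _ ≤ _ := by gcongr
      _ = ‖B‖ * ((∑ l ∈ Finset.range (k + 1), (k.choose l : ℝ)) * (C * C' * κ ^ (k - (j + j')))) := by
          rw [Finset.sum_mul]
      _ ≤ ‖B‖ * (2 ^ n * (C * C' * κ ^ (k - (j + j')))) := by gcongr
      _ = _ := by ring⟩

theorem Ty.smul {g : X → ℝ} (k0 : 0 ≤ κ) (k1 : κ ≤ 1) (h : Ty n j κ C g x)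
    (h' : Ty n j' κ C' f x) : Ty n (j + j') κ (2 ^ n * C * C') (fun y => g y • f y) x := by
  have := h.nn; have := h'.nn
  refine (Ty.bilin (ContinuousLinearMap.lsmul ℝ ℝ) k0 k1 h h').mono k0 k1 le_rfl ?_
  have : ‖(ContinuousLinearMap.lsmul ℝ ℝ : ℝ →L[ℝ] Y →L[ℝ] Y)‖ ≤ 1 :=
    ContinuousLinearMap.opNorm_lsmul_le
  gcongr
  exact mul_le_of_le_one_left (by positivity) this

theorem Ty.clm_apply {B : X → Y →L[ℝ] W} (k0 : 0 ≤ κ) (k1 : κ ≤ 1) (h' : Ty n j' κ C' B x)
    (h : Ty n j κ C f x) : Ty n (j' + j) κ (2 ^ n * C' * C) (fun y => B y (f y)) x := by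
  have := h.nn; have := h'.nn
  refine (Ty.bilin (ContinuousLinearMap.id ℝ (Y →L[ℝ] W)) k0 k1 h' h).mono k0 k1 le_rfl ?_
  gcongr
  exact mul_le_of_le_one_left (by positivity) ContinuousLinearMap.norm_id_le

theorem Ty.sum {α : Type} (s : Finset α) {g : α → X → Y} {c : α → ℝ} (k0 : 0 ≤ κ)
    (h : ∀ a ∈ s, Ty n j κ (c a) (g a) x) :
    Ty n j κ (∑ a ∈ s, c a) (fun y => ∑ a ∈ s, g a y) x := by
  classical
  induction s using Finset.induction with
  | empty => simpa using Ty.const (c := (0 : Y)) k0 (by simp)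
  | insert a s ha ih =>
    simpa [Finset.sum_insert ha] using (h a (by simp)).add (ih fun b hb => h b (by simp [hb]))

theorem Ty.prod {α : Type} (s : Finset α) {g : α → X → ℝ} {e : α → ℕ} {c : α → ℝ} (k0 : 0 ≤ κ)
    (k1 : κ ≤ 1) (h : ∀ a ∈ s, Ty n (e a) κ (c a) (g a) x) :
    Ty n (∑ a ∈ s, e a) κ (∏ a ∈ s, (2 ^ n * c a)) (fun y => ∏ a ∈ s, g a y) x := by
  classical
  induction s using Finset.induction with
  | empty => simpa using Ty.const (c := (1 : ℝ)) k0 (by simp)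
  | insert a s ha ih =>
    simpa [Finset.sum_insert ha, Finset.prod_insert ha] using
      (h a (by simp)).smul k0 k1 (ih fun b hb => h b (by simp [hb]))

/-- derivatives of a rescaled map -/
theorem scale_le (q : X) {ρ : ℝ} (r0 : 0 ≤ ρ) (hf : ContDiffAt ℝ ∞ f (q + ρ • x)) (k : ℕ) :
    ‖iteratedFDeriv ℝ k (fun y => f (q + ρ • y)) x‖ ≤
      ‖iteratedFDeriv ℝ k f (q + ρ • x)‖ * ρ ^ k := by
  set L : X →L[ℝ] X := ρ • ContinuousLinearMap.id ℝ X
  have hL : ‖L‖ ≤ ρ := (norm_smul_le ρ (ContinuousLinearMap.id ℝ X)).trans (by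
    rw [Real.norm_of_nonneg r0]
    exact mul_le_of_le_one_right r0 ContinuousLinearMap.norm_id_le)
  obtain ⟨V, h1, hV, h3⟩ := _root_.eventually_nhds_iff.1 ((cda hf k).eventually (by simp))
  have hs : IsOpen ((fun z => q + z) ⁻¹' V) := hV.preimage (by fun_prop)
  have hg : ContDiffOn ℝ k (fun z => f (q + z)) ((fun z => q + z) ⁻¹' V) :=
    ContDiffOn.comp (fun y hy => (h1 y hy).contDiffWithinAt) (by fun_prop) fun _ h => h
  have hp : IsOpen (L ⁻¹' ((fun z => q + z) ⁻¹' V)) := hs.preimage L.continuous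
  have hx' : L x ∈ (fun z => q + z) ⁻¹' V := h3
  have e := L.iteratedFDerivWithin_comp_right hg hs.uniqueDiffOn hp.uniqueDiffOn hx' le_rfl
  rw [iteratedFDerivWithin_of_isOpen _ hp hx', iteratedFDerivWithin_of_isOpen _ hs hx',
    iteratedFDeriv_comp_add_left] at e
  have e' : (fun x => f (q + ρ • x)) = (fun z => f (q + z)) ∘ L := rfl
  rw [e', e]
  refine (ContinuousMultilinearMap.norm_compContinuousLinearMap_le _ _).trans ?_
  rw [Finset.prod_const, Finset.card_univ, Fintype.card_fin]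
  exact mul_le_mul_of_nonneg_left (pow_le_pow_left₀ (norm_nonneg _) hL k) (norm_nonneg _)

/-- a rescaled map with bounded jets has type `0` -/
theorem Ty.scale (q : X) {ρ : ℝ} (r0 : 0 ≤ ρ) (r1 : ρ ≤ κ) (hf : ContDiffAt ℝ ∞ f (q + ρ • x))
    (hb : ∀ i ≤ n, ‖iteratedFDeriv ℝ i f (q + ρ • x)‖ ≤ C) :
    Ty n 0 κ C (fun y => f (q + ρ • y)) x :=
  ⟨ContDiffAt.comp (f := fun y => q + ρ • y) x hf (by fun_prop), fun i hi =>
    (scale_le q r0 hf i).trans (mul_le_mul (hb i hi) (pow_le_pow_left₀ r0 r1 i) (by positivity)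
      ((norm_nonneg _).trans (hb i hi)))⟩

/-- a rescaled map with small value and small slope, divided by the scale, has type `0` -/
theorem Ty.scale_div (q : X) {ρ : ℝ} (r0 : 0 < ρ) (k0 : 0 ≤ κ) (k1 : κ ≤ 1) (r1 : ρ ≤ κ ^ 2)
    (hf : ContDiffAt ℝ ∞ f (q + ρ • x)) (h0 : ‖f (q + ρ • x)‖ ≤ C * ρ)
    (h1 : ‖fderiv ℝ f (q + ρ • x)‖ ≤ C * κ)
    (hb : ∀ i, 2 ≤ i → i ≤ n → ‖iteratedFDeriv ℝ i f (q + ρ • x)‖ ≤ C) :
    Ty n 0 κ C (fun y => ρ⁻¹ • f (q + ρ • y)) x := by
  have hc : ContDiffAt ℝ ∞ (fun y => f (q + ρ • y)) x :=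
    ContDiffAt.comp (f := fun y => q + ρ • y) x hf (by fun_prop)
  have C0 : 0 ≤ C := nonneg_of_mul_nonneg_left ((norm_nonneg _).trans h0) r0
  refine ⟨hc.const_smul _, fun i hi => ?_⟩
  rw [iteratedFDeriv_const_smul_apply' (cda hc i), norm_smul, Real.norm_of_nonneg (by positivity),
    inv_mul_le_iff₀ r0]
  refine (scale_le q r0.le hf i).trans ?_
  rcases i with _ | _ | i
  · rw [norm_iteratedFDeriv_zero]; simpa [mul_comm] using h0
  · rw [zero_add, norm_iteratedFDeriv_one, Nat.sub_zero, pow_one, pow_one, mul_comm]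
    exact mul_le_mul_of_nonneg_left h1 r0.le
  · have e : ρ ^ (i + 1) ≤ κ ^ (i + 1 + 1) := (pow_le_pow_left₀ r0.le r1 _).trans (by
      rw [← pow_mul]; exact pow_le_pow_of_le_one k0 k1 (by omega))
    calc _ ≤ C * (ρ ^ (i + 1) * ρ) := by
          rw [← pow_succ]; exact mul_le_mul_of_nonneg_right (hb _ (by omega) hi) (by positivity)
      _ ≤ C * (κ ^ (i + 1 + 1) * ρ) := by gcongr
      _ = _ := by rw [Nat.sub_zero]; ring

theorem Ty.id (k0 : 0 ≤ κ) (hx : ‖x‖ ≤ C) (h1 : 1 ≤ C) : Ty n 1 κ C (fun y : X => y) x :=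
  ⟨contDiffAt_id, fun k _ => by
    rcases k with _ | k
    · rw [norm_iteratedFDeriv_zero]; simpa using hx
    rw [← norm_iteratedFDeriv_fderiv, show fderiv ℝ (fun x : X => x) =
      fun _ => ContinuousLinearMap.id ℝ X from funext fun _ => fderiv_fun_id]
    rcases eq_or_ne k 0 with rfl | hk
    · rw [norm_iteratedFDeriv_zero]
      simpa using ContinuousLinearMap.norm_id_le.trans h1
    · rw [iteratedFDeriv_const_of_ne hk]
      simp only [Pi.zero_apply, norm_zero]; positivity⟩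

end ty

section pol

variable (E : Type) [NormedAddCommGroup E] [NormedSpace ℝ E] [FiniteDimensional ℝ E]

/-- coordinates -/
def cf (l : Fin (Module.finrank ℝ E)) : E →L[ℝ] ℝ :=
  LinearMap.toContinuousLinearMap ((Module.finBasis ℝ E).coord l)

/-- monomials -/
def mon (a : Fin (Module.finrank ℝ E) → ℕ) (x : E) : ℝ := ∏ l, cf E l x ^ a l

/-- polynomials of degree `≤ d` -/
def Pd (d : ℕ) : Submodule ℝ (E → ℝ) := Submodule.span ℝ (mon E '' {a | ∑ l, a l ≤ d})

lemma Pd_le (d : ℕ) : Pd E d ≤ Submodule.span ℝ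
    (range fun a : Fin (Module.finrank ℝ E) → Fin (d + 1) => mon E fun l => a l) :=
  Submodule.span_mono (by
    rintro _ ⟨a, ha, rfl⟩
    exact ⟨fun l => ⟨a l, Nat.lt_succ_of_le
      ((Finset.single_le_sum (fun _ _ => Nat.zero_le _) (Finset.mem_univ l)).trans ha)⟩, rfl⟩)

instance (d : ℕ) : FiniteDimensional ℝ (Pd E d) :=
  have := FiniteDimensional.span_of_finite ℝ (finite_range
    fun a : Fin (Module.finrank ℝ E) → Fin (d + 1) => mon E fun l => a l)
  Submodule.finiteDimensional_of_le (Pd_le E d)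

lemma finrank_Pd (d : ℕ) : Module.finrank ℝ (Pd E d) ≤ (d + 1) ^ Module.finrank ℝ E := by
  have := FiniteDimensional.span_of_finite ℝ (finite_range
    fun a : Fin (Module.finrank ℝ E) → Fin (d + 1) => mon E fun l => a l)
  refine (Submodule.finrank_mono (Pd_le E d)).trans ((finrank_range_le_card _).trans_eq ?_)
  simp

variable {E}

/-- a polynomial of degree `d` of a map of type `j` has type `d j` -/
theorem Ty.pol {d : ℕ} {p : E → ℝ} (hp : p ∈ Pd E d) (n : ℕ) (C : ℝ) : ∃ C' : ℝ, 0 ≤ C' ∧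
    ∀ (X : Type) [NormedAddCommGroup X] [NormedSpace ℝ X] (j : ℕ) (κ : ℝ) (f : X → E) (x : X),
      0 ≤ κ → κ ≤ 1 → Ty n j κ C f x → Ty n (d * j) κ C' (fun y => p (f y)) x := by
  induction hp using Submodule.span_induction with
  | mem p hp =>
    obtain ⟨a, ha, rfl⟩ := hp
    refine ⟨|∏ l, (2 ^ n * ∏ _b ∈ Finset.range (a l), (2 ^ n * (‖cf E l‖ * C)))|, abs_nonneg _,
      fun X _ _ j κ f x k0 k1 h => ?_⟩
    have h1 : ∀ l, Ty n (a l * j) κ (∏ _b ∈ Finset.range (a l), (2 ^ n * (‖cf E l‖ * C)))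
        (fun y => cf E l (f y) ^ a l) x := fun l => by
      have := Ty.prod (Finset.range (a l)) (e := fun _ => j) k0 k1 fun _ _ => h.clm (cf E l)
      simpa only [Finset.sum_const, Finset.card_range, smul_eq_mul, Finset.prod_const] using this
    refine (Ty.prod Finset.univ k0 k1 fun l _ => h1 l).mono k0 k1 ?_ (le_abs_self _)
    rw [← Finset.sum_mul]
    exact Nat.mul_le_mul_right _ ha
  | zero => exact ⟨0, le_rfl, fun X _ _ j κ f x k0 _ _ => Ty.const (c := (0 : ℝ)) k0 (by simp)⟩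
  | add p q _ _ hp hq =>
    obtain ⟨c, c0, hp⟩ := hp
    obtain ⟨c', c0', hq⟩ := hq
    exact ⟨c + c', by positivity, fun X _ _ j κ f x k0 k1 h =>
      (hp X j κ f x k0 k1 h).add (hq X j κ f x k0 k1 h)⟩
  | smul c p _ hp =>
    obtain ⟨c', c0', hp⟩ := hp
    exact ⟨_, mul_nonneg (norm_nonneg _) c0', fun X _ _ j κ f x k0 k1 h =>
      (hp X j κ f x k0 k1 h).clm (c • ContinuousLinearMap.id ℝ ℝ)⟩

lemma Pd.ty {d : ℕ} {p : E → ℝ} (hp : p ∈ Pd E d) (n : ℕ) (x : E) : ∃ C, Ty n d 0 C p x := by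
  obtain ⟨C, -, h⟩ := Ty.pol hp n (‖x‖ + 1)
  have := h E 1 0 _ x le_rfl zero_le_one (Ty.id le_rfl (by simp) (by simp))
  exact ⟨C, by simpa using this⟩

lemma Pd.smooth {d : ℕ} {p : E → ℝ} (hp : p ∈ Pd E d) : ContDiff ℝ ∞ p :=
  contDiff_iff_contDiffAt.2 fun x => (Pd.ty hp 0 x).choose_spec.1

lemma Pd.der {d k : ℕ} {p : E → ℝ} (hp : p ∈ Pd E d) (hk : d < k) (x : E) :
    iteratedFDeriv ℝ k p x = 0 := by
  have := (Pd.ty hp k x).choose_spec.2 k le_rfl
  rw [zero_pow (by omega)] at this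
  simpa using this

lemma Pd.eq_zero {d : ℕ} {p : E → ℝ} (hp : p ∈ Pd E d) (h : ∀ x ∈ ball (0 : E) 1, p x = 0) :
    p = 0 := by
  funext x
  obtain ⟨t1, t2, -⟩ := tay_ E ℝ d
  have e : ∀ y : E, p y = tay d p y := fun y => by
    have := t1 p (‖y‖ + 1) 0 (Pd.smooth hp).contDiffOn
      (fun z _ => by rw [Pd.der hp d.lt_succ_self]; simp) y (by simp)
    simpa [sub_eq_zero] using this
  have := t2 p (1 / 2) (‖x‖ + 1) 0 (by norm_num) (by linarith [norm_nonneg x])
    (fun y hy => by rw [← e, h y (by rw [mem_ball_zero_iff]; linarith)]; simp) x (by linarith)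
  rw [← e] at this
  simpa using this

lemma prod_mem {d i : ℕ} (hi : i ≤ d) (σ : Fin i → Fin (Module.finrank ℝ E)) :
    (fun x => ∏ k, cf E (σ k) x) ∈ Pd E d := by
  classical
  refine Submodule.subset_span ⟨fun l => (Finset.univ.filter fun k => σ k = l).card, ?_, ?_⟩
  · have := Finset.card_eq_sum_card_fiberwise (f := σ) (s := Finset.univ) (t := Finset.univ)
      fun _ _ => Finset.mem_univ _
    change ∑ l, (Finset.univ.filter fun k => σ k = l).card ≤ d
    rw [← this]; simpa using hi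
  · funext x
    rw [mon, ← Finset.prod_fiberwise Finset.univ σ fun k => cf E (σ k) x]
    refine Finset.prod_congr rfl fun l _ => ?_
    rw [Finset.prod_congr rfl fun k hk => by rw [(Finset.mem_filter.1 hk).2], Finset.prod_const]

lemma tay_eq {V : Type} [NormedAddCommGroup V] [NormedSpace ℝ V] (d : ℕ) (f : E → V) (x : E) :
    tay d f x = ∑ i ∈ Finset.range (d + 1), ∑ σ : Fin i → Fin (Module.finrank ℝ E),
      (∏ k, cf E (σ k) x) • ((i.factorial : ℝ)⁻¹ •
        iteratedFDeriv ℝ i f 0 fun k => Module.finBasis ℝ E (σ k)) := by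
  classical
  refine Finset.sum_congr rfl fun i _ => ?_
  have e : (fun _ : Fin i => x) = fun _ => ∑ l, cf E l x • Module.finBasis ℝ E l :=
    funext fun _ => ((Module.finBasis ℝ E).sum_repr x).symm
  rw [e, ContinuousMultilinearMap.map_sum, Finset.smul_sum]
  refine Finset.sum_congr rfl fun σ _ => ?_
  rw [ContinuousMultilinearMap.map_smul_univ, smul_comm]

/-- nodes and Lagrange basis -/
structure Lag (E : Type) where
  n : ℕ
  ν : Fin n → E
  e : Fin n → E → ℝ

/-- `ν` is unisolvent for degree `d`, `e` the Lagrange basis -/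
structure Lag.Ok (L : Lag E) (d : ℕ) : Prop where
  card : L.n = Module.finrank ℝ (Pd E d)
  lt : ∀ a, ‖L.ν a‖ < 1
  mem : ∀ a, L.e a ∈ Pd E d
  dual : ∀ a b, L.e a (L.ν b) = if a = b then 1 else 0
  rep : ∀ p ∈ Pd E d, ∀ x, p x = ∑ a, L.e a x * p (L.ν a)

theorem exists_lag (d : ℕ) : ∃ L : Lag E, L.Ok d := by
  classical
  let ev : E → Module.Dual ℝ (Pd E d) := fun x => (LinearMap.proj x).comp (Pd E d).subtype
  have hs : Submodule.span ℝ (ev '' ball 0 1) = ⊤ := Submodule.span_eq_top_of_ne_zero fun p hp => by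
    by_contra hn
    push Not at hn
    exact hp (Subtype.ext (Pd.eq_zero p.2 fun x hx => hn _ ⟨x, hx, rfl⟩))
  obtain ⟨t, ht, h1, h2⟩ := exists_linearIndependent ℝ (ev '' ball 0 1)
  have : Fintype t := h2.setFinite.fintype
  let B0 : Module.Basis t ℝ (Module.Dual ℝ (Pd E d)) := Module.Basis.mk h2 (by simp [h1, hs])
  let B := B0.reindex (Fintype.equivFin t)
  have hB : ∀ a, B a ∈ ev '' ball 0 1 := fun a => by
    simp only [B, B0, Module.Basis.reindex_apply, Module.Basis.mk_apply]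
    exact ht (Subtype.prop _)
  choose ν hν hν' using hB
  let e := B.dualBasis.map (Module.evalEquiv ℝ (Pd E d)).symm
  have he : ∀ a b, (e a : E → ℝ) (ν b) = if a = b then 1 else 0 := fun a b => by
    have : (e a : E → ℝ) (ν b) = B b (e a) := by rw [← hν']; rfl
    rw [this]
    simp only [e, Module.Basis.map_apply, Module.apply_evalEquiv_symm_apply,
      Module.Basis.dualBasis_apply_self]
    simp [eq_comm]
  refine ⟨⟨_, ν, fun a => e a⟩, ?_, fun a => mem_ball_zero_iff.1 (hν a), fun a => (e a).2, he,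
    fun p hp x => ?_⟩
  · simpa using (Module.finrank_eq_card_basis e).symm
  · have h := e.sum_repr ⟨p, hp⟩
    have hv : ∀ y, p y = ∑ a, e.repr ⟨p, hp⟩ a * (e a : E → ℝ) y := fun y => by
      have := congrArg (fun u : Pd E d => (u : E → ℝ) y) h
      simp only [Submodule.coe_sum, Submodule.coe_smul, Finset.sum_apply, Pi.smul_apply,
        smul_eq_mul] at this
      exact this.symm
    rw [hv x]
    refine Finset.sum_congr rfl fun a _ => ?_
    rw [hv (ν a)]
    simp [he, mul_comm]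

theorem Lag.Ok.pos {L : Lag E} {d : ℕ} (h : L.Ok d) : 1 ≤ L.n := by
  by_contra hn
  have h0 : L.n = 0 := by omega
  have := h.rep _ (prod_mem (E := E) (Nat.zero_le d) Fin.elim0) 0
  have : IsEmpty (Fin L.n) := by rw [h0]; infer_instance
  simp_all

theorem Lag.Ok.le {L : Lag E} {d : ℕ} (h : L.Ok d) : L.n ≤ (d + 1) ^ Module.finrank ℝ E :=
  h.card ▸ finrank_Pd E d

theorem Lag.Ok.tay {L : Lag E} {d : ℕ} (h : L.Ok d) {V : Type} [NormedAddCommGroup V]
    [NormedSpace ℝ V] (f : E → V) (x : E) : tay d f x = ∑ a, L.e a x • tay d f (L.ν a) := by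
  simp only [tay_eq, Finset.smul_sum]
  rw [Finset.sum_comm]
  refine Finset.sum_congr rfl fun i hi => ?_
  rw [Finset.sum_comm]
  refine Finset.sum_congr rfl fun σ _ => ?_
  have := h.rep _ (prod_mem (Nat.lt_succ_iff.1 (Finset.mem_range.1 hi)) σ) x
  rw [this, Finset.sum_smul]
  exact Finset.sum_congr rfl fun a _ => mul_smul _ _ _

/-- one constant for the whole Lagrange basis -/
theorem Lag.Ok.ty {L : Lag E} {d : ℕ} (h : L.Ok d) (n : ℕ) (C : ℝ) : ∃ C' : ℝ, 0 ≤ C' ∧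
    ∀ (X : Type) [NormedAddCommGroup X] [NormedSpace ℝ X] (j : ℕ) (κ : ℝ) (f : X → E) (x : X),
      0 ≤ κ → κ ≤ 1 → Ty n j κ C f x → ∀ a, Ty n (d * j) κ C' (fun y => L.e a (f y)) x := by
  choose c c0 hc using fun a => Ty.pol (h.mem a) n C
  exact ⟨∑ a, c a, Finset.sum_nonneg fun a _ => c0 a, fun X _ _ j κ f x k0 k1 hf a =>
    (hc a X j κ f x k0 k1 hf).mono k0 k1 le_rfl
      (Finset.single_le_sum (fun a _ => c0 a) (Finset.mem_univ a))⟩

/-- the dimension count -/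
theorem count {n : ℕ → ℕ} {m : ℕ} (h1 : ∀ d, 1 ≤ n d) (h2 : ∀ d, n d ≤ (d + 1) ^ m) (k D : ℕ) :
    ∃ d, D * n (d + k) ^ 2 < D * n d ^ 2 + n (d + k) ^ 2 := by
  by_contra hn'
  push Not at hn'
  obtain ⟨D, rfl⟩ : ∃ D', D = D' + 1 := ⟨D - 1, by
    rcases D with _ | D
    · have := hn' 0
      have := h1 (0 + k)
      simp at *
      omega
    · omega⟩
  have hn : ∀ d, (D + 1) * n d ^ 2 ≤ D * n (d + k) ^ 2 := fun d => by have := hn' d; nlinarith
  clear hn'
  rcases Nat.eq_zero_or_pos D with rfl | hD0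
  · have := hn 0
    have := h1 0
    simp at *
    omega
  have hD' : (0 : ℝ) < D := by exact_mod_cast hD0
  set q : ℝ := (D + 1) / D
  have hq : 1 < q := by rw [one_lt_div hD']; linarith
  have ind : ∀ l : ℕ, q ^ l ≤ (n (l * k) : ℝ) ^ 2 := fun l => by
    induction l with
    | zero => simpa using h1 0
    | succ l ih =>
      have : ((D : ℝ) + 1) * (n (l * k) : ℝ) ^ 2 ≤ D * (n (l * k + k) : ℝ) ^ 2 := by
        exact_mod_cast hn (l * k)
      rw [pow_succ, Nat.succ_mul]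
      refine (mul_le_mul_of_nonneg_right ih (by positivity)).trans ?_
      rw [mul_div_assoc', div_le_iff₀ hD']
      linarith
  have t := (tendsto_pow_const_div_const_pow_of_one_lt (m * 2) hq).const_mul (((k : ℝ) + 1) ^ (m * 2))
  rw [mul_zero] at t
  obtain ⟨l, hl, hl1⟩ := ((t.eventually (gt_mem_nhds one_pos)).and (eventually_ge_atTop 1)).exists
  rw [mul_div_assoc', div_lt_one (by positivity), ← mul_pow] at hl
  have h3 : (n (l * k) : ℝ) ≤ ((l : ℝ) * k + 1) ^ m := by exact_mod_cast h2 (l * k)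
  have h4 : (l : ℝ) * k + 1 ≤ (k + 1) * l := by
    have : (1 : ℝ) ≤ l := by exact_mod_cast hl1
    nlinarith
  have := (ind l).trans (pow_le_pow_left₀ (by positivity) (h3.trans
    (pow_le_pow_left₀ (by positivity) h4 m)) 2)
  rw [← pow_mul] at this
  linarith

/-- interpolation at perturbed nodes -/
theorem Lag.Ok.int {L : Lag E} {d : ℕ} (h : L.Ok d) {R : ℝ} (hR : 2 ≤ R) :
    ∃ C η : ℝ, 0 < C ∧ 0 < η ∧ η ≤ 1 ∧ ∀ (V : Type) [NormedAddCommGroup V] [NormedSpace ℝ V]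
      [CompleteSpace V] (f : E → V) (ν' : Fin L.n → E) (δ ε : ℝ), ContDiffOn ℝ ∞ f (ball 0 R) →
      (∀ x ∈ ball (0 : E) R, ‖iteratedFDeriv ℝ (d + 1) f x‖ ≤ ε) → (∀ a, ‖ν' a - L.ν a‖ ≤ η) →
      (∀ a, ‖f (ν' a)‖ ≤ δ) → ∀ x ∈ ball (0 : E) R, ‖f x‖ ≤ C * (δ + ε) := by
  have : ProperSpace E := FiniteDimensional.proper ℝ E
  have hs : ContDiff ℝ ∞ fun x a => L.e a x := contDiff_pi.2 fun a => Pd.smooth (h.mem a)
  obtain ⟨K, hK⟩ := hs.contDiffOn.exists_lipschitzOnWith (by simp) (convex_closedBall (0 : E) R)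
    (isCompact_closedBall 0 R)
  obtain ⟨B, hB⟩ := (isCompact_closedBall (0 : E) R).exists_bound_of_continuousOn
    hs.continuous.continuousOn
  have hB0 : 0 ≤ B := (norm_nonneg _).trans (hB 0 (by simp; linarith))
  have hn : (0 : ℝ) ≤ L.n := by positivity
  have hK0 : (0 : ℝ) ≤ K := K.2
  refine ⟨(2 * B * L.n + 1) * R ^ (d + 1), 1 / (2 * L.n * K + 1), by positivity, by positivity,
    by rw [div_le_one (by positivity)]; nlinarith [mul_nonneg hn hK0], ?_⟩
  intro V _ _ _ f ν' δ ε hf hε hν hδ x hx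
  have η1 : 1 / (2 * L.n * K + 1) ≤ (1 : ℝ) := by
    rw [div_le_one (by positivity)]; nlinarith [mul_nonneg hn hK0]
  have ε0 : 0 ≤ ε := (norm_nonneg _).trans (hε x hx)
  have δ0 : 0 ≤ δ := (norm_nonneg _).trans (hδ ⟨0, h.pos⟩)
  have R1 : 1 ≤ R ^ (d + 1) := one_le_pow₀ (by linarith)
  have rem : ∀ y ∈ ball (0 : E) R, ‖f y - PS.tay d f y‖ ≤ ε * R ^ (d + 1) := fun y hy =>
    ((tay_ E V d).1 f R ε hf hε y hy).trans (by gcongr; exact (mem_ball_zero_iff.1 hy).le)
  have m' : ∀ a, ν' a ∈ ball (0 : E) R := fun a => by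
    rw [mem_ball_zero_iff]
    have := norm_add_le (ν' a - L.ν a) (L.ν a)
    rw [sub_add_cancel] at this
    linarith [hν a, h.lt a]
  have m : ∀ a, L.ν a ∈ closedBall (0 : E) R := fun a => by
    rw [mem_closedBall_zero_iff]; linarith [h.lt a]
  set N := ∑ a, ‖PS.tay d f (L.ν a)‖
  have N0 : 0 ≤ N := Finset.sum_nonneg fun _ _ => norm_nonneg _
  have d1 : ∀ a, ‖PS.tay d f (L.ν a)‖ ≤ δ + ε * R ^ (d + 1) + K * (1 / (2 * L.n * K + 1)) * N := by
    intro a
    have e : PS.tay d f (L.ν a) = f (ν' a) - (f (ν' a) - PS.tay d f (ν' a)) +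
        ∑ b, (L.e b (L.ν a) - L.e b (ν' a)) • PS.tay d f (L.ν b) := by
      simp only [sub_smul, Finset.sum_sub_distrib, ← h.tay]; abel
    rw [e]
    refine (norm_add_le _ _).trans (add_le_add ((norm_sub_le _ _).trans
      (add_le_add (hδ a) (rem _ (m' a)))) ((norm_sum_le _ _).trans ?_))
    rw [Finset.mul_sum]
    refine Finset.sum_le_sum fun b _ => (norm_smul_le _ _).trans
      (mul_le_mul_of_nonneg_right ?_ (norm_nonneg _))
    have := hK.norm_sub_le (m a) (ball_subset_closedBall (m' a))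
    refine ((norm_le_pi_norm ((fun a' => L.e a' (L.ν a)) - fun a' => L.e a' (ν' a)) b).trans
      this).trans (mul_le_mul_of_nonneg_left ?_ hK0)
    rw [norm_sub_rev]; exact hν a
  have d2 : N ≤ 2 * L.n * (δ + ε * R ^ (d + 1)) := by
    have := Finset.sum_le_sum fun a (_ : a ∈ Finset.univ) => d1 a
    rw [Finset.sum_const, Finset.card_univ, Fintype.card_fin, nsmul_eq_mul] at this
    have h2 : L.n * (K * (1 / (2 * L.n * K + 1))) ≤ (1 / 2 : ℝ) := by
      rw [mul_one_div, ← mul_div_assoc, div_le_iff₀ (by positivity)]; linarith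
    nlinarith [mul_le_mul_of_nonneg_right h2 N0]
  have d3 : ‖PS.tay d f x‖ ≤ B * N := by
    rw [h.tay, Finset.mul_sum]
    exact (norm_sum_le _ _).trans (Finset.sum_le_sum fun a _ => (norm_smul_le _ _).trans
      (mul_le_mul_of_nonneg_right ((norm_le_pi_norm (fun a' => L.e a' x) a).trans
        (hB x (ball_subset_closedBall hx))) (norm_nonneg _)))
  have := norm_add_le (f x - PS.tay d f x) (PS.tay d f x)
  rw [sub_add_cancel] at this
  have d4 : δ ≤ δ * R ^ (d + 1) := le_mul_of_one_le_right δ0 R1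
  have d5 := mul_le_mul_of_nonneg_left d2 hB0
  have d6 : B * L.n * δ ≤ B * L.n * (δ * R ^ (d + 1)) := mul_le_mul_of_nonneg_left d4 (by positivity)
  nlinarith [rem x hx, mul_nonneg δ0 (zero_le_one.trans R1)]

end pol

end Crest.Agent.N221.G0.Sg
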