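import Mathlib

/-!
Row 221, block G0/SG (helper8): two graphs with slopes close to `U`, `S` (`U - S` invertible) cross.
-/

set_option autoImplicit false

open Set Metric

namespace Crest.Agent.N221.G0.Sg

variable {E : Type} [NormedAddCommGroup E] [NormedSpace ℝ E] [FiniteDimensional ℝ E]

lemma inj_of_left {A J : E →L[ℝ] E} (hJ : ∀ v, J (A v) = v) : Function.Injective J :=
  (LinearMap.injective_iff_surjective (f := (J : E →ₗ[ℝ] E))).2 fun v => ⟨A v, hJ v⟩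

/-- a zero of a map whose derivative is close to an invertible operator -/
theorem zero_near {A J : E →L[ℝ] E} (hJ : ∀ v, J (A v) = v) {h : E → E} {q₁ : E} {ρ δ : ℝ}
    (hd : ∀ q ∈ closedBall q₁ ρ, DifferentiableAt ℝ h q ∧ ‖fderiv ℝ h q - A‖ ≤ δ)
    (hδ : 2 * ‖J‖ * δ ≤ 1) (hρ : 2 * ‖J‖ * ‖h q₁‖ ≤ ρ) :
    ∃ q, h q = 0 ∧ ‖q - q₁‖ ≤ 2 * ‖J‖ * ‖h q₁‖ := by
  have : CompleteSpace E := FiniteDimensional.complete ℝ E
  set r := 2 * ‖J‖ * ‖h q₁‖ with hr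
  have r0 : 0 ≤ r := by positivity
  set T : E → E := fun q => q - J (h q)
  have lip : ∀ x ∈ closedBall q₁ r, ∀ y ∈ closedBall q₁ r, ‖T y - T x‖ ≤ 1 / 2 * ‖y - x‖ := by
    intro x hx y hy
    refine (convex_closedBall q₁ r).norm_image_sub_le_of_norm_hasFDerivWithin_le (𝕜 := ℝ)
      (f' := fun q => J ∘L (A - fderiv ℝ h q)) (fun q hq => ?_) (fun q hq => ?_) hx hy
    · have := (hasFDerivAt_id q).sub
        (J.hasFDerivAt.comp q (hd q (closedBall_subset_closedBall hρ hq)).1.hasFDerivAt)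
      refine (this.congr_fderiv ?_).hasFDerivWithinAt
      ext v
      simp [hJ]
    · refine (ContinuousLinearMap.opNorm_comp_le _ _).trans ?_
      rw [norm_sub_rev]
      nlinarith [mul_le_mul_of_nonneg_left (hd q (closedBall_subset_closedBall hρ hq)).2
        (norm_nonneg J)]
  have mp : MapsTo T (closedBall q₁ r) (closedBall q₁ r) := fun x hx => by
    have h1 := lip q₁ (mem_closedBall_self r0) x hx
    have h2 : ‖T q₁ - q₁‖ ≤ ‖J‖ * ‖h q₁‖ := by simpa [T] using J.le_opNorm (h q₁)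
    rw [mem_closedBall, dist_eq_norm] at hx ⊢
    have := norm_add_le (T x - T q₁) (T q₁ - q₁)
    rw [sub_add_sub_cancel] at this
    linarith
  have hc : ContractingWith (1 / 2) (mp.restrict T _ _) := ⟨by norm_num,
    LipschitzWith.of_dist_le_mul fun x y => by
      simpa [Subtype.dist_eq, dist_eq_norm] using lip y y.2 x x.2⟩
  obtain ⟨q, hq, hf, -⟩ := hc.exists_fixedPoint' isClosed_closedBall.isComplete mp
    (mem_closedBall_self r0) (edist_ne_top _ _)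
  refine ⟨q, inj_of_left hJ ?_, by rwa [mem_closedBall, dist_eq_norm] at hq⟩
  rw [map_zero]
  exact sub_eq_self.1 hf

/-- crossing of two graphs -/
theorem cross {S U J : E →L[ℝ] E} (hJ : ∀ v, J (U v - S v) = v) {u s : E → E} {q₁ : E} {ρ δ : ℝ}
    (hu : ∀ q ∈ closedBall q₁ ρ, DifferentiableAt ℝ u q ∧ ‖fderiv ℝ u q - U‖ ≤ δ)
    (hs : ∀ q ∈ closedBall q₁ ρ, DifferentiableAt ℝ s q ∧ ‖fderiv ℝ s q - S‖ ≤ δ)
    (hδ : 4 * ‖J‖ * δ ≤ 1) (hρ : 2 * ‖J‖ * ‖u q₁ - s q₁‖ ≤ ρ) :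
    ∃ q, u q = s q ∧ ‖q - q₁‖ ≤ 2 * ‖J‖ * ‖u q₁ - s q₁‖ := by
  obtain ⟨q, h1, h2⟩ := zero_near (A := U - S) (h := fun q => u q - s q) (δ := 2 * δ)
    (fun v => hJ v) (fun q hq => ⟨(hu q hq).1.sub (hs q hq).1, by
      rw [fderiv_fun_sub (hu q hq).1 (hs q hq).1, show fderiv ℝ u q - fderiv ℝ s q - (U - S) =
        (fderiv ℝ u q - U) - (fderiv ℝ s q - S) by abel]
      linarith [norm_sub_le (fderiv ℝ u q - U) (fderiv ℝ s q - S), (hu q hq).2, (hs q hq).2]⟩)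
    (by linarith) hρ
  exact ⟨q, sub_eq_zero.1 h1, h2⟩

end Crest.Agent.N221.G0.Sg
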