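import Crest.Agent.N221.G0.So2

/-! Row 221, block G0/SOURCES (helper63): a chain that ends in a source at the scale `ρ`. -/

set_option autoImplicit false
set_option linter.unusedSectionVars false

open Set Metric Filter Topology
open scoped ContDiff

namespace Crest.Agent.N221.G0

theorem rinv_jets (k : ℕ) (B : ℝ) : ∃ C : ℝ, 0 ≤ C ∧ ∀ t : ℝ, 1 / 2 ≤ t → t ≤ B →
    ∀ i ≤ k, ‖iteratedFDeriv ℝ i (fun t : ℝ => t⁻¹) t‖ ≤ C := by
  have bd : ∀ i : ℕ, ∃ C, ∀ t ∈ Icc (1 / 2 : ℝ) B,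
      ‖iteratedFDeriv ℝ i (fun t : ℝ => t⁻¹) t‖ ≤ C := fun i =>
    isCompact_Icc.exists_bound_of_continuousOn fun t ht =>
      ((contDiffAt_inv ℝ (n := ∞) (by linarith [ht.1] : t ≠ 0)).iteratedFDeriv_right (m := 0)
        (i := i) (by exact_mod_cast le_top)).continuousAt.continuousWithinAt
  choose C hC using bd
  exact ⟨cb C k, cb_nonneg C k, fun t h1 h2 i hi => (hC i t ⟨h1, h2⟩).trans (le_cb C hi)⟩

theorem exists_margin {T : ℕ} {u : ℕ → ℝ} {R : ℝ} (h : ∀ j ≤ T, u j < R) :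
    ∃ R1 > 0, ∀ j ≤ T, u j + R1 ≤ R := by
  obtain ⟨j, hj, hm⟩ := (Finset.range (T + 1)).exists_max_image u ⟨0, by simp⟩
  have := h j (Nat.lt_succ_iff.1 (Finset.mem_range.1 hj))
  exact ⟨R - u j, by linarith, fun i hi => by
    linarith [hm i (Finset.mem_range.2 (Nat.lt_succ_of_le hi))]⟩

theorem orb_zero {X : Type} [Zero X] {φ : ℕ → X → X} (h : ∀ j, φ j 0 = 0) : ∀ j, orb φ 0 j = 0
  | 0 => rfl
  | j + 1 => by rw [orb, orb_zero h j, h]

/-- jets of the last dual section -/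
theorem last_jets (k : ℕ) (c d : ℝ) (c0 : 0 ≤ c) (d0 : 0 ≤ d) : ∃ C : ℝ, 0 ≤ C ∧
    ∀ (E X V : Type) [NormedAddCommGroup E] [NormedSpace ℝ E] [NormedAddCommGroup X]
    [NormedSpace ℝ X] [NormedAddCommGroup V] [NormedSpace ℝ V] (ι : E → X) (G : X → V)
    (l : V →L[ℝ] ℝ) (y : E), ‖l‖ ≤ 1 → ContDiffAt ℝ ∞ ι y → ContDiffAt ℝ ∞ G (ι y) →
    (∀ i, 1 ≤ i → i ≤ k → ‖iteratedFDeriv ℝ i ι y‖ ≤ c) →
    (∀ i ≤ k, ‖iteratedFDeriv ℝ i G (ι y)‖ ≤ d) → 1 / 2 ≤ l (G (ι y)) →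
    ∀ i ≤ k, ‖iteratedFDeriv ℝ i (fun x => (l (G (ι x)))⁻¹ • l) y‖ ≤ C := by
  set K : ℝ := k.factorial * (1 + c) ^ k * d with hK
  have K0 : 0 ≤ K := by positivity
  obtain ⟨I, I0, hI⟩ := rinv_jets k K
  refine ⟨k.factorial * (1 + K) ^ k * I, by positivity,
    fun E X V _ _ _ _ _ _ ι G l y hl sι sG dι dG h i hi => ?_⟩
  have s1 : ContDiffAt ℝ ∞ (fun x => G (ι x)) y := ContDiffAt.comp (g := G) _ sG sι
  have s2 : ContDiffAt ℝ ∞ (fun x => l (G (ι x))) y := lin_sm l s1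
  have d1 := comp_le c0 sG sι dG fun i i1 hi => (dι i i1 hi).trans (by linarith)
  have d2 : ∀ i ≤ k, ‖iteratedFDeriv ℝ i (fun x => l (G (ι x))) y‖ ≤ K := fun i hi => by
    have := lin_le l i zero_le_one (fun a => (l.le_opNorm a).trans
      (mul_le_mul_of_nonneg_right hl (norm_nonneg _))) (cda s1 i)
    rw [one_mul] at this
    exact this.trans (d1 i hi)
  have h0 : l (G (ι y)) ≤ K := by
    have := d2 0 k.zero_le
    rw [norm_iteratedFDeriv_zero] at this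
    exact (le_abs_self _).trans this
  have sI : ContDiffAt ℝ ∞ (fun t : ℝ => t⁻¹) (l (G (ι y))) := contDiffAt_inv ℝ (by linarith)
  have d3 := comp_le (g := fun t : ℝ => t⁻¹) (f := fun x => l (G (ι x))) K0 sI s2 (hI _ h h0)
    fun i _ hi => (d2 i hi).trans (by linarith)
  have := lin_le (ContinuousLinearMap.toSpanSingleton ℝ l) i (β := 1) zero_le_one
    (fun a => by
      rw [ContinuousLinearMap.toSpanSingleton_apply, norm_smul, mul_comm]
      exact mul_le_mul_of_nonneg_right hl (norm_nonneg _))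
    (cda (ContDiffAt.comp (g := fun t : ℝ => t⁻¹) y sI s2) i)
  rw [one_mul] at this
  exact this.trans (d3 i hi)

/-- the pull back of a source -/
theorem src_amb (V : Type) [NormedAddCommGroup V] [NormedSpace ℝ V] [FiniteDimensional ℝ V]
    (b L θ : ℝ) (c C : ℕ → ℝ) (hb : 1 ≤ b) (hL : 1 ≤ L) (hθ : 1 ≤ θ) (hC : ∀ i, 1 ≤ C i) :
    ∃ D : ℕ → ℝ, (∀ k, 1 ≤ D k) ∧
    ∀ (E X : Type) [NormedAddCommGroup E] [NormedSpace ℝ E] [NormedAddCommGroup X]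
    [NormedSpace ℝ X] (R r q ρ : ℝ) (T : ℕ)
    (ι : ℕ → E → X) (ψ : ℕ → E → E) (φ : ℕ → X → X) (A : ℕ → X → V →L[ℝ] V) (Θ : ℕ → X → V)
    (z₁ : X), Amb R r q L b c T ι ψ φ A Θ → 0 < r → θ * q ≤ 1 → 0 < ρ → ρ ≤ 1 → θ⁻¹ ^ T ≤ ρ →
    ContDiff ℝ ∞ (Θ T) → ‖Θ T z₁‖ = 1 →
    (∀ i, ∀ z ∈ ball z₁ ρ, ‖iteratedFDeriv ℝ i (Θ T) z‖ ≤ C i / ρ ^ i) →
    (∀ y ∈ ball (0 : E) R, 4 * C 1 * ‖ι T (orb ψ y T) - z₁‖ ≤ ρ) →
    ∃ l : E → V →L[ℝ] ℝ, ∀ y ∈ ball (0 : E) R,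
      ContDiffAt ℝ ∞ l y ∧ l y (Θ 0 (ι 0 y)) = 1 ∧
      (∀ k, ‖iteratedFDeriv ℝ k l y‖ ≤ D k * (2 * b) ^ T) ∧
      (∀ s, 0 < s → s * (θ * L) ^ T ≤ 1 → ∀ k,
        ‖iteratedFDeriv ℝ k (fun p : E × X => Θ 0 (ι 0 p.1 + s • p.2)) (y, 0)‖ ≤
          D k * (2 * b) ^ T) ∧
      ∀ z, L ^ T * ‖z - ι 0 y‖ < r → L ^ T * ‖z - ι 0 y‖ < ρ / 2 →
        (∀ j < T, Tb R r (ι j) (orb φ z j)) ∧ orb φ z T ∈ ball z₁ ρ ∧ ContDiffAt ℝ ∞ (Θ 0) z ∧
        ∀ k, ‖iteratedFDeriv ℝ k (Θ 0) z‖ ≤ D k * (2 * b * L ^ k) ^ T / ρ ^ k := by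
  choose C1 h1 H1 using fun k => crude k L b c hb hL
  choose C2 h2 H2 using fun k => blow k b (fun k => θ * c k) hb
  choose C3 h3 H3 using fun k => dual V k b (fun k => θ * c k) hb
  choose C4 h4 H4 using fun k =>
    last_jets k (cb (fun k => θ * c k) k) (cb C k) (cb_nonneg _ k) (cb_nonneg _ k)
  obtain ⟨_, _, hI⟩ := inv_jets (V := V) 0 b
  have C0 := cb_nonneg C
  refine ⟨fun k => 1 + C1 k * cb C k + C2 k * cb C k + C3 k * C4 k, fun k => by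
    have := h1 k; have := h2 k; have := h3 k; have := h4 k; have := C0 k
    have : 0 ≤ C1 k * cb C k + C2 k * cb C k + C3 k * C4 k := by positivity
    linarith, fun E X _ _ _ _ R r q ρ T ι ψ φ A Θ z₁ h r0 hq ρ0 ρ1 hρ sQ nQ dQ near => ?_⟩
  have p1 : ∀ k, 0 ≤ C1 k * cb C k := fun k => mul_nonneg (by linarith [h1 k]) (C0 k)
  have p2 : ∀ k, 0 ≤ C2 k * cb C k := fun k => mul_nonneg (by linarith [h2 k]) (C0 k)
  have p3 : ∀ k, 0 ≤ C3 k * C4 k := fun k => mul_nonneg (by linarith [h3 k]) (h4 k)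
  obtain ⟨l0, n0, e0⟩ := exists_dual_vector ℝ (Θ T z₁) (by rw [nQ]; exact one_ne_zero)
  have nr : ∀ y ∈ ball (0 : E) R, ‖ι T (orb ψ y T) - z₁‖ ≤ ρ / 4 := fun y hy => by
    have := near y hy
    nlinarith [hC 1, norm_nonneg (ι T (orb ψ y T) - z₁)]
  have nb : ∀ y ∈ ball (0 : E) R, ι T (orb ψ y T) ∈ ball z₁ ρ := fun y hy =>
    mem_ball_iff_norm.2 (by linarith [nr y hy])
  have fl : ∀ y ∈ ball (0 : E) R, 1 / 2 ≤ l0 (Θ T (ι T (orb ψ y T))) := fun y hy => by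
    have a := lip_ball (L := C 1 / ρ) (fun z _ => sQ.contDiffAt) (fun z hz => by
      simpa [norm_iteratedFDeriv_one] using dQ 1 z hz) (nb y hy) (mem_ball_self ρ0)
    have a2 : C 1 / ρ * ‖ι T (orb ψ y T) - z₁‖ ≤ 1 / 4 := by
      rw [div_mul_eq_mul_div, div_le_iff₀ ρ0]; linarith [near y hy]
    have a3 := l0.le_opNorm (Θ T (ι T (orb ψ y T)) - Θ T z₁)
    rw [n0, one_mul, map_sub, e0, nQ, Real.norm_eq_abs] at a3
    have a4 := (abs_le.1 (a3.trans (a.trans a2))).1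
    simp only [RCLike.ofReal_real_eq_id, id_eq] at a4
    linarith
  obtain ⟨l, lT, hl⟩ := exists_pb T ψ (fun j x => rc V (Ring.inverse (A j (ι j x))))
    fun x => (l0 (Θ T (ι T x)))⁻¹ • l0
  refine ⟨l 0, fun y hy => ?_⟩
  have m := h.orb_mem hy
  have tb : ∀ j ≤ T, Tb R r (ι j) (ι j (orb ψ y j)) := fun j hj => ⟨_, m j hj, by simpa using r0⟩
  have key : ∀ j ≤ T, ContDiffAt ℝ ∞ (l j) (orb ψ y j) ∧
      l j (orb ψ y j) (Θ j (ι j (orb ψ y j))) = 1 := by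
    intro j hj
    induction hj using Nat.decreasingInduction with
    | self =>
      have := fl y hy
      rw [lT]
      refine ⟨((lin_sm l0 (ContDiffAt.comp (g := Θ T) _ sQ.contDiffAt
        ((h.pl T le_rfl).sm _ (m T le_rfl)))).inv (by
          show l0 (Θ T (ι T (orb ψ y T))) ≠ 0
          linarith)).smul contDiffAt_const, ?_⟩
      show (l0 (Θ T (ι T (orb ψ y T))))⁻¹ * l0 (Θ T (ι T (orb ψ y T))) = 1
      exact inv_mul_cancel₀ (by linarith)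
    | of_succ j hj ih =>
      have a := h.st j hj
      obtain ⟨u, -, sI, -⟩ := hI _ (a.nA _ (tb j hj.le)) (a.iA _ (tb j hj.le))
      rw [show l j = fun x => rc V (Ring.inverse (A j (ι j x))) (l (j + 1) (ψ j x)) from
        funext (hl j hj)]
      refine ⟨bil_sm (rc V) (ContDiffAt.comp (g := Ring.inverse) _ sI
        (ContDiffAt.comp (g := A j) _ (a.sA _ (tb j hj.le)) ((h.pl j hj.le).sm _ (m j hj.le))))
        (ContDiffAt.comp (g := l (j + 1)) _ ih.1 (a.pψ.sm _ (m j hj.le))), ?_⟩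
      show l (j + 1) (orb ψ y (j + 1)) (Ring.inverse (A j (ι j (orb ψ y j)))
        (Θ j (ι j (orb ψ y j)))) = 1
      rw [h.rel j hj, ← mul_apply_eq_comp, Ring.inverse_mul_cancel _ u, a.gr _ (m j hj.le)]
      exact ih.2
  obtain ⟨R1, R0, hR⟩ := exists_margin fun j hj => mem_ball_zero_iff.1 (m j hj)
  set μ : ℕ → ℝ := fun j => max ρ (θ⁻¹ ^ j) with hμ
  have θ0 : 0 < θ := by linarith
  have μ0 : ∀ j, 0 < μ j := fun j => lt_max_of_lt_left ρ0
  have μ1 : ∀ j, μ j ≤ 1 := fun j =>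
    max_le ρ1 (pow_le_one₀ (inv_nonneg.2 θ0.le) (inv_le_one_of_one_le₀ hθ))
  have μθ : ∀ j, μ j ≤ θ * μ (j + 1) := fun j => max_le
    ((le_max_left _ _).trans (le_mul_of_one_le_left (μ0 (j + 1)).le hθ)) (by
      have : θ⁻¹ ^ j = θ * θ⁻¹ ^ (j + 1) := by rw [pow_succ', mul_inv_cancel_left₀ θ0.ne']
      rw [this]
      exact mul_le_mul_of_nonneg_left (le_max_right _ _) θ0.le)
  have μz : μ 0 = 1 := by simp [hμ, ρ1]
  have μT : μ T = ρ := max_eq_left hρ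
  have h' := h.sc R0 hR μ0 μ1 μθ hθ hq
  have oz := orb_zero (φ := fun j => sc (μ j) (μ (j + 1)) (orb ψ y j) (ψ j))
    (fun j => sc_zero _ _ _ _) T
  have sG : ∀ w, ContDiffAt ℝ ∞ (fun w => Θ T (ι T (orb ψ y T) + μ T • w)) w := fun w =>
    aff_sm sQ.contDiffAt
  have dG : ∀ k, ∀ i ≤ k, ‖iteratedFDeriv ℝ i (fun w => Θ T (ι T (orb ψ y T) + μ T • w)) 0‖ ≤
      cb C k := fun k i hi => by
    refine (aff_le (μ0 T).le i sQ.contDiffAt).trans ?_
    rw [smul_zero, add_zero, μT]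
    refine (mul_le_mul_of_nonneg_left (dQ i _ (nb y hy)) (by positivity)).trans ?_
    rw [mul_div_cancel₀ _ (by positivity)]
    exact le_cb C hi
  have t0 : 0 ≤ (2 * b) ^ T := by positivity
  refine ⟨(key 0 T.zero_le).1, (key 0 T.zero_le).2, fun k => ?_, fun s s0 s1 k => ?_,
    fun z z1 z2 => ?_⟩
  · have e : (fun s => l T (orb ψ y T + μ T • s)) = fun s => (l0 (Θ T (ι T (orb ψ y T) + μ T •
        sc (μ T) (μ T) (orb ψ y T) (ι T) s)))⁻¹ • l0 := by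
      funext s; rw [lT, add_sc (μ0 T).ne']
    have := H3 k E X R1 r _ _ T _ _ _ _ _ (fun j s => l j (orb ψ y j + μ j • s)) 0 (C4 k) h' r0 hq
      (mem_ball_self R0) (fun j hj s => by
        rw [hl j hj, add_sc (μ0 j).ne', orb, add_sc (μ0 _).ne'])
      (by rw [oz]; exact aff_sm (by simpa using (key T le_rfl).1))
      (by
        rw [oz, e]
        exact H4 k E X V _ (fun w => Θ T (ι T (orb ψ y T) + μ T • w)) l0 0 n0.le
          ((h'.pl T le_rfl).sm _ (mem_ball_self R0)) (sG _)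
          (fun i i1 hi => ((h'.pl T le_rfl).bd i i1 _ (mem_ball_self R0)).trans
            (le_cb (fun k => θ * c k) hi))
          (by rw [sc_zero]; exact dG k) (by simpa [sc_zero] using fl y hy)) k le_rfl
    simp only [μz, one_smul, orb] at this
    rw [iteratedFDeriv_comp_add_left, add_zero] at this
    refine this.trans ?_
    nlinarith [p1 k, p2 k]
  · have := H2 k E X V R1 r _ _ T _ _ _ _ _ 0 (cb C k) s h' r0 hq
      (one_le_mul_of_one_le_of_one_le hθ hL) (mem_ball_self R0) s0 s1 (sG _)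
      (by rw [oz, sc_zero]; exact dG k) k le_rfl
    have e : (fun p : E × X => Θ 0 (ι 0 (orb ψ y 0) + μ 0 •
        (sc (μ 0) (μ 0) (orb ψ y 0) (ι 0) p.1 + s • p.2))) = fun p =>
        (fun p : E × X => Θ 0 (ι 0 p.1 + s • p.2)) ((y, 0) + p) := by
      funext p
      simp [μz, sc, orb, ← add_assoc]
    rw [e, iteratedFDeriv_comp_add_left (f := fun p : E × X => Θ 0 (ι 0 p.1 + s • p.2))] at this
    simp only [Prod.mk_add_mk, add_zero] at this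
    refine this.trans ?_
    nlinarith [p1 k, p3 k]
  · have tz := fun j (hj : j < T) => h.tb hL hy z1 hj.le
    have mz : orb φ z T ∈ ball z₁ ρ := by
      have a := h.tube hL hy z1 T le_rfl
      have a2 := norm_sub_le_norm_sub_add_norm_sub (orb φ z T) (ι T (orb ψ y T)) z₁
      exact mem_ball_iff_norm.2 (by linarith [nr y hy])
    refine ⟨tz, mz, h.sm tz sQ.contDiffAt 0 T.zero_le, fun k => ?_⟩
    have := H1 k E X V R r q T ι ψ φ A Θ z (cb C k / ρ ^ k) h tz sQ.contDiffAt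
      (fun i hi => (dQ i _ mz).trans (div_le_div₀ (C0 k) (le_cb C hi) (by positivity)
        (pow_le_pow_of_le_one ρ0.le ρ1 hi))) k le_rfl
    refine this.trans ?_
    rw [← mul_div_assoc]
    refine div_le_div_of_nonneg_right ?_ (by positivity)
    have t1 : 0 ≤ (2 * b * L ^ k) ^ T := by positivity
    nlinarith [p2 k, p3 k]

end Crest.Agent.N221.G0
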