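import Crest.Agent.N221.G0.One
import Crest.Agent.N221.G0.Gl

/-! Row 221, block G0 (helper91): `SoX` (sources along the plaques of both foliations) gives
`SoS` (`SRC` and `NODE`). -/

set_option autoImplicit false

open Set Metric Filter Topology Real
open scoped ContDiff

noncomputable section

namespace Crest.Agent.N221.G0

namespace Sy

variable {E W : Type} [NormedAddCommGroup E] [NormedSpace ℝ E] [NormedAddCommGroup W]
  [NormedSpace ℝ W] (S : Sy E W)

/-- a source of level `j` on a tube round the `i`-plaque of `x`, at the point over `q` -/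
structure Sx (n : ℕ) (f : S.F) (i : Bool) (c : ℕ → ℝ) (a K : ℝ) (j : ℕ) (x : E × E)
    (Θ : E × E → Vf W (n + 1)) (l : E → Vf W (n + 1) →L[ℝ] ℝ) (q : E) : Prop where
  cr : (S.lb n f).Cr c a K j Θ (S.pt i f x q)
  sl : ContDiffAt ℝ ∞ l q
  one : l q (Θ (S.pt i f x q)) = 1
  dl : ∀ k, ‖iteratedFDeriv ℝ k l q‖ ≤ c k * exp (a * j)
  bl : ∀ k, ‖iteratedFDeriv ℝ k
    (fun v : E × (E × E) => Θ (S.pt i f x v.1 + exp (-(a * j)) • v.2)) (q, 0)‖ ≤ c k * exp (a * j)

/-- sources of every level and order near every point, for both foliations -/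
def Sxs (n : ℕ) (f : S.F) (χ a : ℝ) : Prop := ∀ (i : Bool) (K : ℝ), ∃ (c : ℕ → ℝ) (j₁ : ℕ),
  ∀ j, j₁ ≤ j → ∀ z : E × E, ‖z‖ < 2 * S.r2 → ∃ x Θ l, S.Pq i f x S.r1 ∧
    S.Ds i f x z (exp (-(χ * j))) ∧ ∀ q ∈ ball (0 : E) S.R, S.Sx n f i c a K j x Θ l q

end Sy

/-- sources for both foliations -/
def SoX : Prop := All fun _ _ _ _ _ _ _ _ S => ∀ n f, S.Srcs n f →
  ∃ χ a : ℝ, 0 < χ ∧ 1 ≤ a ∧ S.Sxs n f χ a

theorem soS_of (h : SoX) : SoS := by
  intro E W _ _ _ _ _ _ S hS n f hs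
  obtain ⟨χ, a, hχ, ha, h⟩ := h E W S hS n f hs
  have r2 := hS.r2p; have r2R := hS.r2R; have b0 := hS.b01; have r1 := hS.r1p
  refine ⟨χ, a, hχ, ha, fun K => ?_, fun K => ?_⟩
  · obtain ⟨c, j₁, h⟩ := h false K
    refine ⟨fun k => max (c k) 1, j₁, fun j hj p hp => ?_⟩
    replace hp : ‖p‖ < S.r2 := hp
    obtain ⟨x, Θ, l, hx, hd, hq⟩ := h j hj p (by linarith)
    have mono : ∀ (k : ℕ) (t : ℝ), c k * exp t ≤ max (c k) 1 * exp t := fun k t =>
      mul_le_mul_of_nonneg_right (le_max_left _ _) (exp_pos _).le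
    refine ⟨⟨x, hx⟩, Θ, l, ?_, fun q hq' => ?_⟩
    · have := hd p.1 (mem_ball_zero_iff.2 (by linarith [norm_fst_le p]))
      rw [hS.g_self _ _ _ (hS.r2R0 (by linarith))] at this
      exact this.trans (le_mul_of_one_le_left (exp_pos _).le (le_max_right _ _))
    · have hq1 : ‖q‖ < S.r2 := (norm_fst_le (S.pt false f x q)).trans_lt hq'
      have := hq q (mem_ball_zero_iff.2 (by linarith))
      exact ⟨fun y hy => ⟨(this.cr y hy).1, (this.cr y hy).2.1, fun k =>
        ((this.cr y hy).2.2 k).trans (mono _ _)⟩, this.sl, this.one,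
        fun k => (this.dl k).trans (mono _ _), fun k => (this.bl k).trans (mono _ _)⟩
  · obtain ⟨c, j₁, h⟩ := h true K
    obtain ⟨j₂, hj₂⟩ : ∃ j₂ : ℕ, ∀ j, j₂ ≤ j → exp (-(χ * j)) ≤ S.r1 := by
      obtain ⟨j₂, hj⟩ := exists_nat_ge (-log S.r1 / χ)
      refine ⟨j₂, fun j hj' => ?_⟩
      rw [← le_log_iff_exp_le r1]
      rw [div_le_iff₀ hχ] at hj
      have : (j₂ : ℝ) ≤ j := by exact_mod_cast hj'
      nlinarith
    refine ⟨fun k => max (c k) S.b0, max j₁ j₂, fun j hj x q₀ hq₀ => ?_⟩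
    replace hq₀ : ‖S.pt false f x q₀‖ < S.r2 := hq₀
    obtain ⟨x', Θ, l, hx', hd, hq⟩ := h j ((le_max_left _ _).trans hj) _
      (show ‖S.pt false f x q₀‖ < 2 * S.r2 by linarith)
    have hq1 : ‖q₀‖ < S.r2 := (norm_fst_le (S.pt false f x q₀)).trans_lt hq₀
    have h1 := hd q₀ (mem_ball_zero_iff.2 (by linarith))
    have e : S.g true f (S.pt false f x q₀) q₀ = S.g false f x q₀ :=
      hS.g_self true f _ (hS.r2R0 (by linarith))
    rw [e] at h1
    have h2 := hj₂ j ((le_max_right _ _).trans hj)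
    obtain ⟨q, e1, e2⟩ := hS.int f x x' q₀ x.2.1 hx'.1 (by linarith) (h1.trans h2)
    have h3 : ‖q - q₀‖ ≤ S.b0 * exp (-(χ * j)) :=
      e2.trans (mul_le_mul_of_nonneg_left h1 (by linarith))
    have h4 : ‖q‖ < S.R := by
      have := norm_le_insert' q q₀
      have := mul_le_mul_of_nonneg_left h2 (show 0 ≤ S.b0 by linarith)
      have := hS.r1R
      linarith
    have hx := hq q (mem_ball_zero_iff.2 h4)
    have e3 : S.pt true f x' q = (S.lb n f).gs x q := Prod.ext rfl e1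
    refine ⟨q, Θ, h3.trans (mul_le_mul_of_nonneg_right (le_max_right _ _) (exp_pos _).le),
      fun y hy => ?_, ?_⟩
    · have := hx.cr y (e3 ▸ hy)
      exact ⟨this.1, this.2.1, fun k => (this.2.2 k).trans
        (mul_le_mul_of_nonneg_right (le_max_left _ _) (exp_pos _).le)⟩
    · have h5 := hx.dl 0
      rw [norm_iteratedFDeriv_zero] at h5
      have h6 := (l q).le_opNorm (Θ (S.pt true f x' q))
      rw [hx.one, norm_one, e3] at h6
      have h7 : ‖l q‖ ≤ max (c 0) S.b0 * exp (a * j) :=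
        h5.trans (mul_le_mul_of_nonneg_right (le_max_left _ _) (exp_pos _).le)
      have h8 := h6.trans (mul_le_mul_of_nonneg_right h7 (norm_nonneg _))
      rw [exp_neg, inv_le_iff_one_le_mul₀ (exp_pos _)]
      linarith

end Crest.Agent.N221.G0
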