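import Crest.Agent.N221.G0.So3
import Crest.Agent.N221.G0.SoA

/-! Row 221, block G0/SOURCES (helper63): `soX : SoX`, `soS : SoS`. -/

set_option autoImplicit false
set_option linter.unusedSectionVars false

open Set Metric Filter Topology Real
open scoped ContDiff

namespace Crest.Agent.N221.G0

theorem ev_pow_le {x ε : ℝ} (M : ℝ) (x0 : 0 ≤ x) (x1 : x < 1) (hε : 0 < ε) :
    ∀ᶠ j : ℕ in atTop, M * x ^ j ≤ ε := by
  have := (tendsto_pow_atTop_nhds_zero_of_lt_one x0 x1).const_mul M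
  rw [mul_zero] at this
  exact this.eventually (eventually_le_nhds hε)

namespace Sy

variable {E W : Type} [NormedAddCommGroup E] [NormedSpace ℝ E] [NormedAddCommGroup W]
  [NormedSpace ℝ W] {S : Sy E W}

theorem Ok.plq (hS : S.Ok) (i : Bool) (f : S.F) {z : E × E} (hz : ‖z‖ < S.R0) {c : ℕ → ℝ}
    (hc : ∀ k, 1 + S.c k ≤ c k) : Plq S.R c (S.pt i f z) :=
  ⟨fun y hy => contDiffAt_id.prodMk (hS.g_jet i f z hz y (hS.sub hy)).1, fun k hk y hy => by
    have a := hS.g_jet i f z hz y (hS.sub hy)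
    have h1 := prod_le (f := fun y : E => y) k contDiffAt_id a.1
    have h2 := (lin_jet (ContinuousLinearMap.id ℝ E) hk y).trans ContinuousLinearMap.norm_id_le
    exact h1.trans ((add_le_add h2 (a.2 k)).trans (hc k))⟩

theorem St.tb {i : Bool} {f f' : S.F} {z z' : E × E} {φ : E × E → E × E}
    {A : E × E → W →L[ℝ] W} (h : S.St i f z f' z' φ A) {w : E × E}
    (hw : Tb S.R S.r0 (S.pt i f z) w) : S.Am f f' φ A w := by
  obtain ⟨y, hy, hw⟩ := hw
  exact h.am y hy w (mem_ball_iff_norm.2 hw)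

theorem Ok.amb [FiniteDimensional ℝ W] (hS : S.Ok) (n : ℕ) : ∃ c' : ℕ → ℝ,
    ∀ (i : Bool) (T : ℕ) (c : S.Cd) (Θ : ℕ → E × E → Vf W n), c.Ok i T → ‖c.z T‖ < S.R0 →
      (∀ j < T, ∀ z, Θ j z = pbk n (c.A j z) (Θ (j + 1) (c.φ j z))) →
      Amb S.R S.r0 S.q (S.c 1) (S.b ^ n) c' T (c.pt i) (c.ψ i) c.φ
        (fun j z => pbk n (c.A j z)) Θ := by
  obtain ⟨d, hd⟩ := pbk_jet (W := W) n S.c
  have b0 : 0 ≤ S.b := by linarith [hS.b1]
  have e1 : ∀ k, 1 + S.c k ≤ 1 + S.c k + |d k| := fun k => by linarith [abs_nonneg (d k)]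
  have e2 : ∀ k, S.c k ≤ 1 + S.c k + |d k| := fun k => by linarith [abs_nonneg (d k)]
  have e3 : ∀ k, d k ≤ 1 + S.c k + |d k| := fun k => by linarith [le_abs_self (d k), hS.c1 k]
  refine ⟨fun k => 1 + S.c k + |d k|, fun i T c Θ h hT hΘ => ⟨fun j hj => ?_, fun j hj => ?_, hΘ⟩⟩
  · rcases hj.lt_or_eq with hj | rfl
    · exact hS.plq i _ (h j hj).lab e1
    · exact hS.plq i _ hT e1
  · have a := h j hj
    exact ⟨⟨fun y hy => (a.jl y hy).1, fun k _ y hy => ((a.jl y hy).2 k).trans (e2 k)⟩, a.con,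
      fun y hy => a.mem hy, a.gr, fun z hz => (a.tb hz).jφ.1,
      fun k _ z hz => ((a.tb hz).jφ.2 k).trans (e2 k), fun z hz => (a.tb hz).jφ.d1,
      fun z hz => (hd _ _ _ (a.tb hz).jA).1,
      fun k z hz => ((hd _ _ _ (a.tb hz).jA).2 k).trans (e3 k),
      fun z hz => (norm_pbk_le _).trans (pow_le_pow_left₀ (norm_nonneg _) (a.tb hz).nA n),
      fun z hz v => pbk_floor b0 (a.tb hz).iA v⟩

theorem orb_eq (c : S.Cd) (i : Bool) (y : E) : ∀ j, orb (c.ψ i) y j = c.orb i y j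
  | 0 => rfl
  | j + 1 => by rw [orb, orb_eq c i y j, Cd.orb]

end Sy

theorem soX : SoX := by
  intro E W _ _ _ _ _ _ S hS n f hs
  have q0 := hS.qp
  have q1 := hS.q1
  have L1 := hS.c1 1
  have b1 : 1 ≤ S.b ^ (n + 1) := one_le_pow₀ hS.b1
  have θ1 : 1 ≤ S.q⁻¹ := (one_le_inv₀ q0).2 q1.le
  set b := S.b ^ (n + 1) with hb
  set L := S.c 1 with hL
  set θ := S.q⁻¹ with hθ
  have Lθ : 1 ≤ θ * L := one_le_mul_of_one_le_of_one_le θ1 L1
  set B := 2 * b * (θ * L) with hB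
  have B1 : 2 * b ≤ B := le_mul_of_one_le_right (by linarith) Lθ
  have B2 : θ * L ≤ B := le_mul_of_one_le_left (by linarith) (by linarith)
  have B3 : 1 ≤ B := Lθ.trans B2
  have B0 : 0 < B := by linarith
  have ea : ∀ j : ℕ, exp ((2 * log B + 1) * j) = B ^ (2 * j) * exp 1 ^ j := fun j => by
    rw [add_mul, exp_add, ← exp_nat_mul, ← rpow_natCast, rpow_def_of_pos B0]
    congr 2
    · push_cast; ring
    · ring
  have e1 : (1 : ℝ) < exp 1 := by simp
  have x0 : 0 ≤ (exp 1)⁻¹ := by positivity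
  have x1 : (exp 1)⁻¹ < 1 := inv_lt_one_of_one_lt₀ e1
  refine ⟨-log S.q, 2 * log B + 1, by linarith [log_neg q0 q1], by linarith [log_nonneg B3],
    fun i K => ?_⟩
  obtain ⟨K2, hK2⟩ := (ev_pow_le (b ^ 2) q0.le q1 (exp_pos (-K - 1))).exists
  obtain ⟨C, ρ₀, ρ0, C1, hC⟩ := hs K2
  obtain ⟨c', hc'⟩ := hS.amb (n + 1)
  obtain ⟨D, D1, hD⟩ := src_amb (Vf W (n + 1)) b L θ c' C b1 L1 θ1 C1
  have Rp := hS.Rp
  obtain ⟨j₁, hj₁⟩ := eventually_atTop.1 ((ev_pow_le (4 * C 1) q0.le q1 (half_pos ρ0)).and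
    ((ev_pow_le (4 * C 1) q0.le q1 one_pos).and
    ((ev_pow_le (C 0 * (4 * C 1)) q0.le q1 (half_pos Rp)).and
    ((ev_pow_le (B ^ 2) x0 x1 one_pos).and ((ev_pow_le (B ^ 2) x0 x1 hS.r0p).and
    (ev_pow_le (b ^ 2 * (C 0 * (4 * C 1) ^ K2)) x0 x1 one_pos))))))
  refine ⟨fun k => D k * B ^ (2 * (k + 1)), j₁, fun j hj z hz => ?_⟩
  obtain ⟨g1, g2, g3, g4, g5, g6⟩ := hj₁ j hj
  have c1 := C1 1
  have qj : 0 < S.q ^ j := by positivity
  have qj1 : S.q ^ j ≤ 1 := pow_le_one₀ q0.le q1.le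
  set ρ := 4 * C 1 * S.q ^ j with hρ
  have ρp : 0 < ρ := by positivity
  have qρ : S.q ^ j ≤ ρ := le_mul_of_one_le_left qj.le (by linarith)
  obtain ⟨z₁, Q, hQ⟩ := hC ρ ρp (by linarith)
  have nz : ‖z₁‖ ≤ S.R / 2 := hQ.near.trans (by rw [hρ, ← mul_assoc]; exact g3)
  have zR : ‖z₁‖ < S.R0 := by linarith [hS.R8]
  have b01 := hS.b01
  have r1p := hS.r1p
  have hz' : 2 * S.b0 * ‖z‖ ≤ S.r1 / 2 := by
    have : 2 * S.b0 * (2 * S.r2) = S.r1 / 2 := by unfold Sy.r2; field_simp; norm_num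
    rw [← this]
    exact mul_le_mul_of_nonneg_left hz.le (by linarith)
  have hz0 : ‖z‖ < S.R0 := by nlinarith [hS.r12, hS.R8, norm_nonneg z]
  obtain ⟨c, hc, f0, pq, ds, eT, zT, en⟩ := hS.app i f ((norm_fst_le z₁).trans (by linarith))
    ((norm_snd_le z₁).trans (by linarith [hS.bR])) j j f z ((hS.pq_of i f hz0).mono hz')
  set T := j + 1 + (j + 1) with hT
  have T2 : T = 2 + 2 * j := by omega
  obtain ⟨Θ, ΘT, hΘ⟩ := exists_pb T c.φ (fun j z => pbk (n + 1) (c.A j z)) Q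
  have h := hc' i T c Θ hc (by rw [zT]; exact zR) hΘ
  obtain ⟨l, hl⟩ := hD E (E × E) _ _ _ ρ T _ _ _ _ _ z₁ h hS.r0p
    (by rw [hθ, inv_mul_cancel₀ q0.ne']) ρp g2
    (by rw [hθ, inv_inv]; exact (pow_le_pow_of_le_one q0.le q1.le (by omega)).trans qρ)
    (by rw [ΘT]; exact hQ.sm) (by rw [ΘT]; exact hQ.one) (by rw [ΘT]; exact hQ.bd) fun y hy => by
      refine mul_le_mul_of_nonneg_left ?_ (by linarith)
      have m := hS.sub (hc.orb_mem hy T le_rfl)
      have a := hS.pt_lip i f zR m (mem_ball_zero_iff.2 ((norm_fst_le z₁).trans_lt zR))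
      rw [hS.pt_self i f zR] at a
      rw [Sy.orb_eq, Sy.Cd.pt, eT, zT]
      refine a.trans ((mul_le_mul_of_nonneg_left (en y hy) (by linarith)).trans ?_)
      have a2 : S.q ^ (j + 1) ≤ S.q ^ j := pow_le_pow_of_le_one q0.le q1.le (by omega)
      have a3 : S.b0 * S.R ≤ 1 := by linarith [hS.RR0, hS.R01, hS.bR]
      have a4 : 0 ≤ S.q ^ (j + 1) := by positivity
      nlinarith
  have p0 : c.pt i 0 = S.pt i f (c.z 0) := by funext y; rw [Sy.Cd.pt, f0]
  rw [p0] at hl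
  have ej : 1 ≤ exp 1 ^ j := one_le_pow₀ e1.le
  have BT : B ^ T = B ^ 2 * B ^ (2 * j) := by rw [T2, pow_add]
  have Bj : 0 < B ^ (2 * j) := by positivity
  have es : exp (-((2 * log B + 1) * j)) * B ^ T = B ^ 2 * (exp 1)⁻¹ ^ j := by
    rw [exp_neg, ea, BT, inv_pow]; field_simp
  have bT : ∀ k, D k * (2 * b) ^ T ≤ D k * B ^ (2 * (k + 1)) * exp ((2 * log B + 1) * j) :=
    fun k => by
      rw [mul_assoc, ea]
      refine mul_le_mul_of_nonneg_left ((pow_le_pow_left₀ (by linarith) B1 T).trans ?_)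
        (by linarith [D1 k])
      rw [BT]
      exact mul_le_mul (pow_le_pow_right₀ B3 (by omega)) (le_mul_of_one_le_right Bj.le ej) Bj.le
        (by positivity)
  refine ⟨c.z 0, Θ 0, l, pq, ?_, fun y hy => ⟨fun w hw => ?_, (hl y hy).1, (hl y hy).2.1,
    fun k => ((hl y hy).2.2.1 k).trans (bT k), fun k =>
      ((hl y hy).2.2.2.1 _ (exp_pos _) ?_ k).trans (bT k)⟩⟩
  · rw [neg_mul, neg_neg, mul_comm, exp_nat_mul, exp_log q0]
    exact ds
  · have a1 : L ^ T * ‖w - S.pt i f (c.z 0) y‖ < S.q ^ T * (B ^ 2 * (exp 1)⁻¹ ^ j) := by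
      rw [← es, mul_left_comm, ← mul_pow, mul_comm (exp _)]
      refine mul_lt_mul' (pow_le_pow_left₀ (by linarith) ?_ T) (mem_ball_iff_norm.1 hw)
        (norm_nonneg _) (by positivity)
      have := mul_le_mul_of_nonneg_left B2 q0.le
      rwa [hθ, mul_inv_cancel_left₀ q0.ne'] at this
    have a2 : S.q ^ T ≤ S.q ^ j := pow_le_pow_of_le_one q0.le q1.le (by omega)
    have a3 : 0 ≤ B ^ 2 * (exp 1)⁻¹ ^ j := by positivity
    obtain ⟨tz, mz, sm, bd⟩ := (hl y hy).2.2.2.2 w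
      (a1.trans_le ((mul_le_of_le_one_left a3 (a2.trans qj1)).trans g5))
      (a1.trans_le ((mul_le_mul a2 g4 a3 qj.le).trans (by rw [hρ]; nlinarith)))
    refine ⟨sm, ?_, fun k => (bd k).trans ?_⟩
    · have := h.err (b' := b) (by linarith) (z := w) (fun j z v => ‖S.io n (c.f j) z v‖)
        fun j hj v => ((hc j hj).tb (tz j hj)).io_le hS n v
      rw [f0, eT, ΘT] at this
      refine this.trans ((mul_le_mul_of_nonneg_left (hQ.rel _ mz) (by positivity)).trans ?_)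
      have a4 : (b ^ 2 * S.q ^ K2) ^ j ≤ exp (-(K * j)) * (exp 1)⁻¹ ^ j := by
        refine (pow_le_pow_left₀ (by positivity) hK2 j).trans_eq ?_
        rw [← exp_neg, ← exp_nat_mul, ← exp_nat_mul, ← exp_add]
        congr 1; ring
      have a5 : 0 ≤ b ^ 2 * (C 0 * (4 * C 1) ^ K2) := by have := C1 0; positivity
      calc b ^ T * (C 0 * ρ ^ K2)
          = b ^ 2 * (C 0 * (4 * C 1) ^ K2) * (b ^ 2 * S.q ^ K2) ^ j := by
            rw [T2, hρ]; ring
        _ ≤ b ^ 2 * (C 0 * (4 * C 1) ^ K2) * (exp (-(K * j)) * (exp 1)⁻¹ ^ j) :=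
            mul_le_mul_of_nonneg_left a4 a5
        _ = exp (-(K * j)) * (b ^ 2 * (C 0 * (4 * C 1) ^ K2) * (exp 1)⁻¹ ^ j) := by ring
        _ ≤ _ := mul_le_of_le_one_right (exp_pos _).le g6
    · have a4 : 1 ≤ θ ^ T * ρ := by
        have := (pow_le_pow_of_le_one q0.le q1.le (show j ≤ T by omega)).trans qρ
        rw [hθ, inv_pow, le_inv_mul_iff₀ (by positivity), mul_one]
        exact this
      have a5 : exp ((2 * log B + 1) * (k + 1) * j) = (B ^ (2 * j) * exp 1 ^ j) ^ (k + 1) := by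
        rw [← ea, ← exp_nat_mul]; congr 1; push_cast; ring
      rw [div_le_iff₀ (by positivity), a5, mul_assoc (D k), mul_assoc (D k), mul_assoc (B ^ _)]
      refine mul_le_mul_of_nonneg_left ?_ (zero_le_one.trans (D1 k))
      calc (2 * b * L ^ k) ^ T ≤ (2 * b * L ^ k) ^ T * (θ ^ T * ρ) ^ k :=
            le_mul_of_one_le_right (by positivity) (one_le_pow₀ a4)
        _ = (2 * b) ^ T * ((θ * L) ^ T) ^ k * ρ ^ k := by ring
        _ ≤ B ^ T * (B ^ T) ^ k * ρ ^ k := by gcongr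
        _ = B ^ (2 * (k + 1)) * ((B ^ (2 * j)) ^ (k + 1) * ρ ^ k) := by rw [BT]; ring
        _ ≤ _ := by gcongr; exact le_mul_of_one_le_right Bj.le ej
  · refine le_trans ?_ g4
    rw [← es]
    exact mul_le_mul_of_nonneg_left (pow_le_pow_left₀ (by linarith) B2 T) (exp_pos _).le

theorem soS : SoS := soS_of soX

end Crest.Agent.N221.G0
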