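import Crest.Agent.N221.G0.So3
import Crest.Agent.N221.G0.SoA

/-! Row 221, block G0 (helper24): `SoX` from `src_amb` and the chains `Ok.app`. -/

set_option autoImplicit false
set_option linter.unusedSectionVars false

open Set Metric Filter Topology Real
open scoped ContDiff

noncomputable section

namespace Crest.Agent.N221.G0.S5

variable {E W : Type} [NormedAddCommGroup E] [NormedSpace ℝ E] [NormedAddCommGroup W]
  [NormedSpace ℝ W] {S : Sy E W} {i : Bool}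

lemma orb_eq (c : S.Cd) (i : Bool) (y : E) : ∀ j, orb (c.ψ i) y j = c.orb i y j
  | 0 => rfl
  | j + 1 => by rw [orb, orb_eq c i y j]; rfl

lemma am_of {c : S.Cd} {T j : ℕ} (h : c.Ok i T) (hj : j < T) {z : E × E}
    (hz : Tb S.R S.r0 (c.pt i j) z) : S.Am (c.f j) (c.f (j + 1)) (c.φ j) (c.A j) z := by
  obtain ⟨y, hy, k⟩ := hz
  exact (h j hj).am y hy z (mem_ball_iff_norm.2 k)

/-- a chain of steps is an ambient chain for forms -/
lemma amb [FiniteDimensional ℝ W] (hS : S.Ok) (n : ℕ) : ∃ d : ℕ → ℝ, ∀ (i : Bool) (c : S.Cd) (T : ℕ)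
    (Θ : ℕ → E × E → Vf W n), c.Ok i (T + 1) →
    (∀ j < T + 1, ∀ z, Θ j z = pbk n (c.A j z) (Θ (j + 1) (c.φ j z))) →
    Amb S.R S.r0 S.q (S.c 1) (S.b ^ n) d (T + 1) (c.pt i) (c.ψ i) c.φ
      (fun j z => pbk n (c.A j z)) Θ := by
  obtain ⟨d, hd⟩ := pbk_jet (W := W) n S.c
  refine ⟨fun k => max (S.c k) (d k), fun i c T Θ h hΘ => ⟨fun j hj => ?_, fun j hj => ?_, hΘ⟩⟩
  · have l : ‖c.z j‖ < S.R0 := by
      rcases hj.lt_or_eq with k | rfl
      · exact (h j k).lab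
      · exact (h T (Nat.lt_succ_self T)).lab'
    exact ⟨fun y hy => hS.pt_sm i _ l (hS.sub hy), fun k hk y hy =>
      le_max_of_le_left (hS.pt_jet i _ l (hS.sub hy) hk)⟩
  · have b0 : 0 ≤ S.b := by linarith [hS.b1]
    exact ⟨⟨fun y hy => ((h j hj).jl y hy).1, fun k _ y hy =>
      le_max_of_le_left (((h j hj).jl y hy).2 k)⟩, (h j hj).con, fun y hy => (h j hj).mem hy,
      (h j hj).gr, fun z hz => (am_of h hj hz).jφ.1,
      fun k _ z hz => le_max_of_le_left ((am_of h hj hz).jφ.2 k),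
      fun z hz => (am_of h hj hz).jφ.d1, fun z hz => (hd _ _ _ (am_of h hj hz).jA).1,
      fun k z hz => le_max_of_le_right ((hd _ _ _ (am_of h hj hz).jA).2 k),
      fun z hz => (norm_pbk_le _).trans (pow_le_pow_left₀ (norm_nonneg _) (am_of h hj hz).nA n),
      fun z hz v => pbk_floor b0 (am_of h hj hz).iA v⟩

lemma big {a : ℝ} (ha : 0 < a) (κ : ℝ) : ∃ j₀ : ℕ, ∀ j : ℕ, j₀ ≤ j → κ ≤ exp (a * j) := by
  obtain ⟨j₀, h⟩ := exists_nat_ge (κ / a)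
  refine ⟨j₀, fun j hj => ?_⟩
  have h1 : (j₀ : ℝ) ≤ j := by exact_mod_cast hj
  rw [div_le_iff₀ ha] at h
  nlinarith [add_one_le_exp (a * j)]

end Crest.Agent.N221.G0.S5

namespace Crest.Agent.N221.G0

open S5

set_option maxHeartbeats 1600000 in
theorem soX5 : SoX := by
  intro E W _ _ _ _ _ _ S hS n f hs
  obtain ⟨d, hd⟩ := amb hS (n + 1)
  have q0 := hS.qp
  have q1 := hS.q1
  have R0 := hS.Rp
  have r0 := hS.r0p
  have b01 := hS.b01
  have L1 := hS.c1 1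
  have R1 : S.R ≤ 1 := by linarith [hS.R8, hS.R01]
  obtain ⟨b, hb⟩ : ∃ b, b = S.b ^ (n + 1) := ⟨_, rfl⟩
  have b1 : 1 ≤ b := hb ▸ one_le_pow₀ hS.b1
  obtain ⟨θ, hθ⟩ : ∃ θ, θ = S.q⁻¹ := ⟨_, rfl⟩
  have θ1 : 1 < θ := hθ ▸ (one_lt_inv₀ q0).2 q1
  have θq : θ * S.q = 1 := hθ ▸ inv_mul_cancel₀ q0.ne'
  obtain ⟨Γ, hΓ⟩ : ∃ Γ, Γ = 2 * b * (θ * S.c 1) := ⟨_, rfl⟩
  have θL : 1 ≤ θ * S.c 1 := by nlinarith
  have g1 : 2 * b ≤ Γ := by rw [hΓ]; nlinarith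
  have g2 : θ * S.c 1 ≤ Γ := by rw [hΓ]; nlinarith
  have g3 : θ ≤ Γ := le_trans (by nlinarith) g2
  have g4 : S.c 1 ≤ Γ := le_trans (by nlinarith) g2
  have Γ1 : 1 ≤ Γ := θL.trans g2
  have lΓ := log_nonneg Γ1
  have χ0 := log_pos θ1
  refine ⟨log θ, 6 * log Γ + 1, χ0, by linarith, fun i K => ?_⟩
  obtain ⟨a, ha⟩ : ∃ a, a = 6 * log Γ + 1 := ⟨_, rfl⟩
  rw [← ha]
  obtain ⟨K0, hK0⟩ := exists_nat_ge ((K + a + 1) / log θ)
  rw [div_le_iff₀ χ0] at hK0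
  obtain ⟨C, ρ₀, ρ0, C1, hs⟩ := hs K0
  obtain ⟨D, D1, hD⟩ := src_amb (Vf W (n + 1)) b (S.c 1) θ d C b1 L1 θ1.le C1
  obtain ⟨j1, h1⟩ := big χ0 (max (max (2 / ρ₀) (2 * C 0 / S.R)) (4 * C 1 * S.b0))
  obtain ⟨j2, h2⟩ := big one_pos (max (max 2 (1 / S.r0)) (C 0))
  refine ⟨D, max 1 (max j1 j2), fun j hj z hz => ?_⟩
  simp only [max_le_iff] at hj h1 h2
  obtain ⟨⟨a1, a2⟩, a3⟩ := h1 j hj.2.1
  obtain ⟨⟨a4, a5⟩, a6⟩ := h2 j hj.2.2
  rw [one_mul] at a4 a5 a6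
  have e1 : exp (log θ * j) = θ ^ j := by rw [mul_comm, exp_nat_mul, exp_log (by linarith)]
  have e2 : exp (a * j) = Γ ^ (6 * j) * exp j := by
    rw [ha, add_mul, one_mul, exp_add, show 6 * log Γ * j = (6 * j : ℕ) * log Γ by push_cast; ring,
      exp_nat_mul, exp_log (by linarith)]
  obtain ⟨ρ, hρ⟩ : ∃ ρ, ρ = S.q ^ j := ⟨_, rfl⟩
  have ρp : 0 < ρ := hρ ▸ pow_pos q0 j
  have ρ1 : ρ ≤ 1 := hρ ▸ pow_le_one₀ q0.le q1.le
  have e3 : θ ^ j * ρ = 1 := by rw [hρ, ← mul_pow, θq, one_pow]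
  have e4 : exp (-(log θ * j)) = ρ := by
    rw [exp_neg, e1]; exact inv_eq_of_mul_eq_one_right e3
  rw [e1] at a1 a2 a3
  rw [div_le_iff₀ ρ0] at a1
  rw [div_le_iff₀ R0] at a2
  rw [div_le_iff₀ r0] at a5
  obtain ⟨z₁, Q, hQ⟩ := hs ρ ρp (by nlinarith)
  have n1 : ‖z₁‖ ≤ S.R / 2 := hQ.near.trans (by nlinarith)
  obtain ⟨c, k1, k2, k3, k4, k5, k6, k7⟩ := hS.app i f (z1 := z₁)
    ((norm_fst_le _).trans (by linarith)) ((norm_snd_le _).trans (by linarith [hS.bR])) (2 * j) j f z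
    (hS.pq_r2 i f hz.le)
  obtain ⟨T, hT⟩ : ∃ T, T = 2 * j + 1 + (j + 1) := ⟨_, rfl⟩
  obtain ⟨Θ, t1, t2⟩ := exists_pb T c.φ (fun j z => pbk (n + 1) (c.A j z)) Q
  have hA := hd i c (2 * j + 1 + j) Θ k1 (by rw [hT] at t2; exact t2)
  rw [show 2 * j + 1 + j + 1 = T from hT.symm, ← hb] at hA
  rw [← hT] at k1 k5 k6 k7
  have T5 : T ≤ 5 * j := by omega
  have z1 : ‖z₁‖ < S.R0 := by linarith [hS.R8]
  obtain ⟨l, hl⟩ := hD E (E × E) S.R S.r0 S.q ρ T _ _ _ _ Θ z₁ hA r0 θq.le ρp ρ1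
    (by rw [hθ, inv_inv, hρ]; exact pow_le_pow_of_le_one q0.le q1.le (by omega))
    (t1 ▸ hQ.sm) (t1 ▸ hQ.one) (t1 ▸ hQ.bd) fun y hy => by
      have u1 := hS.pt_lip i f z1 (hS.sub (k1.orb_mem hy T le_rfl))
        (mem_ball_zero_iff.2 ((norm_fst_le z₁).trans_lt z1))
      rw [hS.pt_self i f z1] at u1
      have u2 := k7 y hy
      rw [show 2 * j + 1 = j + j + 1 by ring, pow_succ, pow_add, ← hρ] at u2
      rw [orb_eq, Sy.Cd.pt, k5, k6]
      have u3 : ρ * ρ * S.q * S.R ≤ ρ * ρ := by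
        rw [mul_assoc]; exact mul_le_of_le_one_right (by positivity) (by nlinarith)
      have C0 : 0 ≤ 4 * C 1 := by linarith [C1 1]
      calc _ ≤ 4 * C 1 * (S.b0 * (ρ * ρ)) := by
            refine mul_le_mul_of_nonneg_left (u1.trans ?_) C0
            exact mul_le_mul_of_nonneg_left (u2.trans u3) (by linarith)
        _ = 4 * C 1 * S.b0 * ρ * ρ := by ring
        _ ≤ θ ^ j * ρ * ρ := by gcongr
        _ = ρ := by rw [e3, one_mul]
  have ej : 1 ≤ exp (j : ℝ) := by linarith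
  have pw : ∀ x : ℝ, 0 ≤ x → x ≤ Γ → x ^ T ≤ Γ ^ (5 * j) := fun x x0 hx =>
    (pow_le_pow_left₀ x0 hx T).trans (pow_le_pow_right₀ Γ1 T5)
  have p5 : 0 < Γ ^ (5 * j) := by positivity
  have p6 : Γ ^ (5 * j) * θ ^ j * exp j ≤ exp (a * j) := by
    rw [e2, show 6 * j = 5 * j + j by ring, pow_add]
    gcongr
  have θj : 1 ≤ θ ^ j := one_le_pow₀ θ1.le
  have p7 : Γ ^ (5 * j) * θ ^ j ≤ exp (a * j) := le_trans (le_mul_of_one_le_right (by positivity) ej) p6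
  have p8 : Γ ^ (5 * j) ≤ exp (a * j) := le_trans (le_mul_of_one_le_right p5.le θj) p7
  have pb : (2 * b) ^ T ≤ exp (a * j) := (pw _ (by linarith) g1).trans p8
  have pL := pw _ (by linarith) g4
  have ea : exp (-(a * j)) * exp (a * j) = 1 := by rw [← exp_add]; simp
  have e0 : c.pt i 0 = S.pt i f (c.z 0) := by funext y; rw [Sy.Cd.pt, k2]
  rw [e0] at hl
  refine ⟨c.z 0, Θ 0, l, k3, by rw [e4, hρ]; exact k4, fun y hy => ?_⟩
  obtain ⟨m1, m2, m3, m4, m5⟩ := hl y hy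
  have mono : ∀ k, D k * (2 * b) ^ T ≤ D k * exp (a * j) := fun k =>
    mul_le_mul_of_nonneg_left pb (by linarith [D1 k])
  refine ⟨fun w hw => ?_, m1, m2, fun k => (m3 k).trans (mono k), fun k =>
    (m4 _ (exp_pos _) ?_ k).trans (mono k)⟩
  · have w1 := mem_ball_iff_norm.1 hw
    replace w1 : ‖w - S.pt i f (c.z 0) y‖ < exp (-(a * j)) := w1
    have w2 : S.c 1 ^ T * ‖w - S.pt i f (c.z 0) y‖ * exp j < ρ := by
      have v1 : S.c 1 ^ T * ‖w - S.pt i f (c.z 0) y‖ * exp j <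
          Γ ^ (5 * j) * exp (-(a * j)) * exp j := by
        refine mul_lt_mul_of_pos_right ?_ (exp_pos _)
        exact (mul_le_mul_of_nonneg_right pL (norm_nonneg _)).trans_lt (mul_lt_mul_of_pos_left w1 p5)
      have v2 := mul_le_mul_of_nonneg_right p6 (mul_pos (exp_pos (-(a * j))) ρp).le
      refine v1.trans_le ?_
      calc _ = Γ ^ (5 * j) * exp (-(a * j)) * exp j * (θ ^ j * ρ) := by rw [e3, mul_one]
        _ = Γ ^ (5 * j) * θ ^ j * exp j * (exp (-(a * j)) * ρ) := by ring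
        _ ≤ _ := v2
        _ = ρ := by rw [← mul_assoc, mul_comm (exp _), ea, one_mul]
    have w0 : 0 ≤ S.c 1 ^ T * ‖w - S.pt i f (c.z 0) y‖ := by positivity
    have x1 := mul_le_mul_of_nonneg_left a4 w0
    have x2 := mul_le_mul_of_nonneg_left a5 w0
    have x3 := mul_lt_mul_of_pos_right (w2.trans_le ρ1) r0
    obtain ⟨s1, s2, s3, s4⟩ := m5 w (by linarith) (by linarith)
    refine ⟨s3, ?_, fun k => (s4 k).trans ?_⟩
    · have v := hA.err (b' := b) (by linarith) (z := w) (fun j z v => ‖S.io n (c.f j) z v‖)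
        fun j hj v => hb ▸ (am_of k1 hj (s1 j hj)).io_le hS n v
      simp only [k2, k5, t1] at v
      refine v.trans ((mul_le_mul (((pow_le_pow_left₀ (by linarith) (by linarith) T).trans pb))
        (hQ.rel _ s2) (norm_nonneg _) (exp_pos _).le).trans ?_)
      rw [← e4, ← exp_nat_mul]
      calc _ ≤ exp (a * j) * (exp j * exp (K0 * -(log θ * j))) := by gcongr
        _ ≤ _ := by
          rw [← exp_add, ← exp_add]
          exact exp_le_exp.2 (by nlinarith [mul_le_mul_of_nonneg_right hK0 (Nat.cast_nonneg j)])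
    · rw [mul_div_assoc]
      refine mul_le_mul_of_nonneg_left ?_ (by linarith [D1 k])
      have v : S.c 1 ^ T / ρ ≤ exp (a * j) := by
        rw [div_le_iff₀ ρp]
        calc _ ≤ Γ ^ (5 * j) * (θ ^ j * ρ) := by rw [e3, mul_one]; exact pL
          _ ≤ _ := by rw [← mul_assoc]; gcongr
      calc (2 * b * S.c 1 ^ k) ^ T / ρ ^ k = (2 * b) ^ T * (S.c 1 ^ T / ρ) ^ k := by
            rw [mul_pow, div_pow, ← pow_mul, ← pow_mul, mul_comm k T, mul_div_assoc]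
        _ ≤ exp (a * j) * exp (a * j) ^ k := by gcongr
        _ = _ := by rw [← pow_succ', ← exp_nat_mul]; congr 1; push_cast; ring
  · calc _ ≤ exp (-(a * j)) * exp (a * j) := by
          gcongr; exact (pw _ (by linarith) g2).trans p8
      _ = 1 := ea

end Crest.Agent.N221.G0
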