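import Crest.Agent.N221.G0.Sys
import Crest.Agent.N221.G0.Nr1
import Crest.Agent.N221.G0.SgD
import Crest.Agent.N221.G0.LDefs

/-!
Row 221, block G0: THE JOINTS (helper91).  `Vf W n` = `n`-forms, `S.io n f z` = contraction of an
`(n+1)`-form with `M f z`, `pbk n A` = pull back.  The rank is `r = n + 1` with `¬ Gap n`,
`Gap (n + 1)` (or `r = 0`).  `g0a_of` wires the blocks into `G0A`.
-/

set_option autoImplicit false

open Set Metric Filter Topology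
open scoped ContDiff

noncomputable section

namespace Crest.Agent.N221.G0

/-- `n`-forms -/
abbrev Vf (W : Type) [NormedAddCommGroup W] [NormedSpace ℝ W] (n : ℕ) := W [⋀^Fin n]→L[ℝ] ℝ

section
variable {W : Type} [NormedAddCommGroup W] [NormedSpace ℝ W]

instance finVf [FiniteDimensional ℝ W] (n : ℕ) : FiniteDimensional ℝ (Vf W n) :=
  FiniteDimensional.of_injective (V₂ := MultilinearMap ℝ (fun _ : Fin n => W) ℝ)
    { toFun := fun f => f.toAlternatingMap.toMultilinearMap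
      map_add' := fun _ _ => rfl
      map_smul' := fun _ _ => rfl } fun f g h => by
    ext v
    exact DFunLike.congr_fun h v

/-- contraction, bilinear -/
def ioW (n : ℕ) : W →L[ℝ] Vf W (n + 1) →L[ℝ] Vf W n :=
  (ContinuousAlternatingMap.curryLeftLI (𝕜 := ℝ) (E := W) (F := ℝ)
    (n := n)).toContinuousLinearMap.flip

@[simp] lemma ioW_apply (n : ℕ) (w : W) (Θ : Vf W (n + 1)) : ioW n w Θ = Θ.curryLeft w := rfl

/-- pull back of forms -/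
def pbk (n : ℕ) (A : W →L[ℝ] W) : Vf W n →L[ℝ] Vf W n :=
  ContinuousAlternatingMap.compContinuousLinearMapCLM A

@[simp] lemma pbk_apply (n : ℕ) (A : W →L[ℝ] W) (Θ : Vf W n) (v : Fin n → W) :
    pbk n A Θ v = Θ (fun i => A (v i)) := rfl

end

namespace Sy

variable {E W : Type} [NormedAddCommGroup E] [NormedSpace ℝ E] [NormedAddCommGroup W]
  [NormedSpace ℝ W] (S : Sy E W)

/-- contraction with `M` -/
def io (n : ℕ) (f : S.F) (z : E × E) : Vf W (n + 1) →L[ℝ] Vf W n := ioW n (S.M f z)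

/-- no approximate `(n+1)`-relations on the central stable plaques -/
def Gap (n : ℕ) : Prop :=
  Nr.Gap S.R (2 * S.R / 3) fun (f : S.F) y => S.io n f (S.pt false f 0 y)

/-- approximate `(n+1)`-relation on the piece of the stable leaf of `z` over `ball z.1 ρ` -/
structure SR (n N : ℕ) (f : S.F) (z : E × E) (Ψ : E → Vf W (n + 1)) (ρ ε B : ℝ) : Prop where
  mem : ‖z‖ ≤ S.R / 2
  pos : 0 < ρ
  le : ρ ≤ 1
  one : 1 ≤ B
  sm : ContDiffOn ℝ ∞ Ψ (ball z.1 ρ)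
  df : ∀ y ∈ ball z.1 ρ, ‖S.io n f (S.pt false f z y) (Ψ y)‖ ≤ ε
  bd : ∀ y ∈ ball z.1 ρ, ∀ i ≤ N, ‖iteratedFDeriv ℝ i Ψ y‖ ≤ B

/-- quantitative absence of `(n+1)`-relations -/
def NR (n : ℕ) : Prop := ∃ (N a : ℕ) (θ C : ℝ), 0 < θ ∧ ∀ f z Ψ ρ ε B,
  S.SR n N f z Ψ ρ ε B → ‖Ψ z.1‖ ≤ C * (B / ρ) ^ a * ε ^ θ

/-- two approximate `(n+1)`-relations are parallel -/
def UQ (n N a : ℕ) (θ : ℝ) : Prop := ∃ C : ℝ, ∀ f z Θ Θ' ρ ε B,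
  S.SR n N f z Θ ρ ε B → S.SR n N f z Θ' ρ ε B → ∀ ψ : Vf W (n + 1) →L[ℝ] ℝ, ‖ψ‖ ≤ 1 →
    ‖Θ z.1‖ ^ (n + 1) * ‖ψ (Θ z.1) • Θ' z.1 - ψ (Θ' z.1) • Θ z.1‖ ≤ C * (B / ρ) ^ a * ε ^ θ

/-- Siegel sources at the centre of the chart `f` -/
def Srcs (n : ℕ) (f : S.F) : Prop := ∀ K : ℕ, ∃ (C : ℕ → ℝ) (ρ₀ : ℝ), 0 < ρ₀ ∧ (∀ i, 1 ≤ C i) ∧
  ∀ ρ : ℝ, 0 < ρ → ρ < ρ₀ → ∃ (z₁ : E × E) (Q : E × E → Vf W (n + 1)), Src (S.io n f) K C ρ z₁ Q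

/-- radius of the working region: both leaves of its points (and a margin) have offset `r1 / 2` -/
def r2 : ℝ := S.r1 / (8 * S.b0)

/-- the box of the ladder, normalised by `ψ` -/
def bx (n : ℕ) (f : S.F) (ψ : Vf W (n + 1) →L[ℝ] ℝ) : L.Box E E (Vf W (n + 1)) (Vf W n × ℝ)
    {z // S.Pq false f z S.r1} {z // S.Pq true f z S.r1} where
  R := S.R
  Om := ball 0 S.r2
  s x := S.g false f x
  u y := S.g true f y
  D z := (S.io n f z).prod ψ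
  b _ := (0, 1)

end Sy

/-- all finite dimensional systems -/
def All (P : ∀ (E W : Type) [NormedAddCommGroup E] [NormedSpace ℝ E] [FiniteDimensional ℝ E]
    [NormedAddCommGroup W] [NormedSpace ℝ W] [FiniteDimensional ℝ W], Sy E W → Prop) : Prop :=
  ∀ (E W : Type) [NormedAddCommGroup E] [NormedSpace ℝ E] [FiniteDimensional ℝ E]
    [NormedAddCommGroup W] [NormedSpace ℝ W] [FiniteDimensional ℝ W] (S : Sy E W), S.Ok → P E W S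

/-- (54) the rank: forms of degree `> dim W` vanish -/
def RkS : Prop := All fun _ _ _ _ _ _ _ _ S => S.Gap 0 ∨ ∃ n, ¬ S.Gap n ∧ S.Gap (n + 1)

/-- (54) `bwd` chains, `Nr.core`, cutoff or first steps into `ball z.1 ρ` -/
def NrS : Prop := All fun _ _ _ _ _ _ _ _ S => ∀ n, S.Gap n → S.NR n

/-- (47) approximate Plücker algebra -/
def UqS : Prop := All fun _ _ _ _ _ _ _ _ S => ∀ n, S.NR (n + 1) →
  ∃ (N a : ℕ) (θ : ℝ), 0 < θ ∧ S.UQ n N a θ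

/-- (47) `θ ∧ w = 0` by `NR` with `ε = 0`; rows `v ↦ w (update e k v)` -/
def MxS : Prop := All fun _ _ _ _ _ _ _ _ S => ∀ n f ψ, S.NR (n + 1) → (S.bx n f ψ).Out → S.Out

/-- rank zero -/
def Z0S : Prop := All fun _ _ _ _ _ _ _ _ S => S.NR 0 → S.Out

/-- (91) good leaves -/
def GlS : Prop := All fun _ _ _ _ _ _ _ _ S => ∀ n f, ¬ S.Gap n → ∃ J a c,
  SG (fderiv ℝ (S.g false f 0) 0) (fderiv ℝ (S.g true f 0) 0) J (S.io n f) S.r2 S.th a c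

/-- the box -/
def BxS : Prop := All fun _ _ _ _ _ _ _ _ S => ∀ n f ψ, (S.bx n f ψ).Ok

/-- uniqueness for normalised relations (trivial for `ε ≥ 1 / 2`) -/
def UbS : Prop := All fun _ _ _ _ _ _ _ _ S => ∀ n f N a θ, 0 < θ → S.UQ n N a θ →
  ∀ (a' : ℕ) (θ' : ℝ), a ≤ a' → 1 ≤ a' → 0 < θ' → θ' ≤ θ → θ' ≤ 1 →
    ∀ ψ, ‖ψ‖ ≤ 1 → (S.bx n f ψ).UQ N a' θ'

/-- the start: norming functionals of `Q z₁` accumulate at `ψ`; `g = Q / ψ Q` -/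
def StS : Prop := All fun _ _ _ _ _ _ _ _ S => ∀ n f, S.Srcs n f → ∀ K,
  ∃ ψ, ‖ψ‖ ≤ 1 ∧ (S.bx n f ψ).Start K

/-- (55, 63, 18, 26) SOURCES + APR -/
def FamS : Prop := All fun _ _ _ _ _ _ _ _ S => ∀ n f N a θ, 0 < θ → S.UQ n N a θ → S.Srcs n f →
  ∃ (a' : ℕ) (θ' χ : ℝ), a ≤ a' ∧ 1 ≤ a' ∧ 0 < θ' ∧ θ' ≤ θ ∧ θ' ≤ 1 ∧ 0 < χ ∧
    ∀ ε' : ℝ, 0 < ε' → ∃ (k : ℕ) (Λ : ℝ) (c : ℕ → ℝ), (∀ K, 0 < c K) ∧
      ∀ ψ, ‖ψ‖ ≤ 1 → ∀ K, (S.bx n f ψ).Fam N a' θ' χ ε' k Λ (c K) K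

theorem g0a_of (rk : RkS) (nr : NrS) (uq : UqS) (mx : MxS) (z0 : Z0S) (gl : GlS) (sg : SgS)
    (bx : BxS) (ub : UbS) (st : StS) (fam : FamS) (ls : L.LS) : G0A := by
  intro m W _ _ _ S hS
  rcases rk _ _ S hS with h | ⟨n, h0, h1⟩
  · exact z0 _ _ S hS (nr _ _ S hS 0 h)
  have hN := nr _ _ S hS _ h1
  obtain ⟨f⟩ := hS.ne
  obtain ⟨N, a, θ, hθ, hU⟩ := uq _ _ S hS n hN
  obtain ⟨J, a0, c0, hG⟩ := gl _ _ S hS n f h0
  have : CompleteSpace (Vf W n) := FiniteDimensional.complete ℝ _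
  have : CompleteSpace (Vf W (n + 1)) := FiniteDimensional.complete ℝ _
  have hs : S.Srcs n f := sg _ _ _ _ _ _ _ _ _ _ _ hG
  obtain ⟨a', θ', χ, h2, h3, h4, h5, h6, hχ, hF⟩ := fam _ _ S hS n f N a θ hθ hU hs
  obtain ⟨ε', hε, hL⟩ := ls N a' θ' χ h4 hχ
  obtain ⟨k, Λ, c, hc, hF⟩ := hF ε' hε
  obtain ⟨K, hL⟩ := hL k Λ c hc
  obtain ⟨ψ, hψ, hst⟩ := st _ _ S hS n f hs K
  exact mx _ _ S hS n f ψ hN (hL _ _ _ _ _ _ _ (bx _ _ S hS n f ψ)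
    (ub _ _ S hS n f N a θ hθ hU a' θ' h2 h3 h4 h5 h6 ψ hψ) (hF ψ hψ) hst)

end Crest.Agent.N221.G0
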